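import Crest.Agent.R073.Stmts
import Crest.Agent.R073.Defs

-- ▼ part R073/SigmaRel
section

/-!
Row 73, M5a: relations for `σ_n` and the number of words.
-/

set_option autoImplicit false

namespace Crest.Agent.R073

open scoped Matrix ComplexConjugate

/-! ### monomial matrices -/

theorem monoM_mul {ι : Type} [Fintype ι] [DecidableEq ι] (s t : Equiv.Perm ι) (l m : ι → ℂ) :
    monoM s l * monoM t m = monoM (s * t) (fun j => l (t j) * m j) := by
  ext i j
  rw [Matrix.mul_apply, Finset.sum_eq_single (t j)]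
  · simp only [monoM, Matrix.of_apply, if_true, Equiv.Perm.mul_apply, ite_mul, zero_mul]
    all_goals rfl
  · intro k _ hk
    simp [monoM, hk]
  · simp

theorem monoM_one {ι : Type} [DecidableEq ι] :
    monoM (1 : Equiv.Perm ι) (fun _ => 1) = 1 := by
  ext i j
  simp only [monoM, Matrix.of_apply, Equiv.Perm.one_apply, Matrix.one_apply]
  all_goals rfl

namespace SigmaRel

/-- permutation matrices -/
noncomputable def P {ι : Type} [Fintype ι] [DecidableEq ι] :
    Equiv.Perm ι →* Matrix.unitaryGroup ι ℂ where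
  toFun σ := ⟨monoM σ (fun _ => 1), monoM_mem _ _ (fun _ => by simp)⟩
  map_one' := Subtype.ext monoM_one
  map_mul' s t := Subtype.ext (by
    show monoM (s * t) (fun _ => 1) = monoM s (fun _ => 1) * monoM t (fun _ => 1)
    rw [monoM_mul]; simp)

/-- diagonal matrices -/
noncomputable def Dg {ι : Type} [Fintype ι] [DecidableEq ι] :
    (ι → Circle) →* Matrix.unitaryGroup ι ℂ where
  toFun l := ⟨monoM (Equiv.refl ι) (fun j => (l j : ℂ)), monoM_mem _ _ (fun _ => Circle.norm_coe _)⟩
  map_one' := Subtype.ext (by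
    show monoM (Equiv.refl ι) (fun j => (((1 : ι → Circle) j : Circle) : ℂ)) = 1
    rw [← monoM_one]; simp [Equiv.Perm.one_def])
  map_mul' s t := Subtype.ext (by
    show monoM (Equiv.refl ι) (fun j => (((s * t) j : Circle) : ℂ))
      = monoM (Equiv.refl ι) (fun j => (s j : ℂ)) * monoM (Equiv.refl ι) (fun j => (t j : ℂ))
    rw [monoM_mul]; rfl)

theorem P_mul_Dg {ι : Type} [Fintype ι] [DecidableEq ι] (σ : Equiv.Perm ι) (l : ι → Circle) :
    P σ * Dg l = Dg (fun j => l (σ⁻¹ j)) * P σ := by
  apply Subtype.ext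
  show monoM σ (fun _ => 1) * monoM (Equiv.refl ι) (fun j => (l j : ℂ))
    = monoM (Equiv.refl ι) (fun j => ((l (σ⁻¹ j) : Circle) : ℂ)) * monoM σ (fun _ => 1)
  rw [monoM_mul, monoM_mul]
  congr 1
  ext j
  simp

/-! ### the linear model on infinite words -/

variable {p : ℕ}

/-- a word as an infinite word -/
def emb : ∀ {n : ℕ}, Y p n → ℕ → V3 p
  | 0, _ => fun i => if i = 0 then ![0, 0, 1] else 0
  | _ + 1, y => fun i => Nat.casesOn i y.1 (fun j => emb y.2 j)


theorem emb_hd {n : ℕ} (y : Y p n) : emb y 0 = hd y := by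
  cases n <;> rfl

theorem emb_injective : ∀ n : ℕ, Function.Injective (emb : Y p n → ℕ → V3 p)
  | 0 => fun _ _ _ => rfl
  | n + 1 => by
    intro y z h
    have h0 : y.1 = z.1 := congrFun h 0
    have h1 : y.2 = z.2 := emb_injective n (funext fun i => congrFun h (i + 1))
    exact Prod.ext h0 h1

/-- `a` on infinite words -/
def GA (p : ℕ) : Equiv.Perm (ℕ → V3 p) where
  toFun y i := ![y i 0, y i 1 - y i 0, y i 2]
  invFun y i := ![y i 0, y i 1 + y i 0, y i 2]
  left_inv y := by funext i j; fin_cases j <;> simp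
  right_inv y := by funext i j; fin_cases j <;> simp

/-- `b` on infinite words -/
def GB (p : ℕ) : Equiv.Perm (ℕ → V3 p) where
  toFun y i := ![y i 0, y i 1, y i 2 - y i 1]
  invFun y i := ![y i 0, y i 1, y i 2 + y i 1]
  left_inv y := by funext i j; fin_cases j <;> simp
  right_inv y := by funext i j; fin_cases j <;> simp

/-- `c` on infinite words -/
def GC (p : ℕ) : Equiv.Perm (ℕ → V3 p) where
  toFun y i := ![y i 0 - y (i + 1) 2, y i 1, y i 2]
  invFun y i := ![y i 0 + y (i + 1) 2, y i 1, y i 2]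
  left_inv y := by funext i j; fin_cases j <;> simp
  right_inv y := by funext i j; fin_cases j <;> simp

theorem emb_permA : ∀ {n : ℕ} (y : Y p n), emb (permA p n y) = GA p (emb y)
  | 0, y => by
    funext i j
    cases i <;> fin_cases j <;> simp [GA, emb]
  | n + 1, y => by
    funext i j
    cases i with
    | zero => fin_cases j <;> rfl
    | succ i =>
      have := congrFun (congrFun (emb_permA y.2) i) j
      exact this

theorem emb_permB : ∀ {n : ℕ} (y : Y p n), emb (permB p n y) = GB p (emb y)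
  | 0, y => by
    funext i j
    cases i <;> fin_cases j <;> simp [GB, emb]
  | n + 1, y => by
    funext i j
    cases i with
    | zero => fin_cases j <;> rfl
    | succ i =>
      have := congrFun (congrFun (emb_permB y.2) i) j
      exact this

theorem emb_permC : ∀ {n : ℕ} (y : Y p n), emb (permC p n y) = GC p (emb y)
  | 0, y => by
    funext i j
    cases i <;> fin_cases j <;> simp [GC, emb]
  | n + 1, y => by
    funext i j
    cases i with
    | zero =>
      have h := emb_hd y.2
      have h2 : GC p (emb y) 0 = letC p (hd y.2 2) y.1 := by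
        rw [← h]; rfl
      rw [h2]; rfl
    | succ i =>
      have := congrFun (congrFun (emb_permC y.2) i) j
      exact this

/-! ### relations in the linear model -/

theorem rel_ab : Commute (cm (GA p) (GB p)) (GA p) ∧ Commute (cm (GA p) (GB p)) (GB p) := by
  constructor <;>
  · ext y i j
    fin_cases j <;> simp [cm, GA, GB, Equiv.Perm.inv_def, Equiv.symm] <;> ring

theorem rel_bc : Commute (cm (GB p) (GC p)) (GB p) ∧ Commute (cm (GB p) (GC p)) (GC p) := by
  constructor <;>
  · ext y i j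
    fin_cases j <;> simp [cm, GC, GB, Equiv.Perm.inv_def, Equiv.symm] <;> ring

theorem rel_ca : Commute (cm (GC p) (GA p)) (GC p) ∧ Commute (cm (GC p) (GA p)) (GA p) := by
  constructor <;>
  · ext y i j
    fin_cases j <;> simp [cm, GC, GA, Equiv.Perm.inv_def, Equiv.symm] <;> ring

theorem GA_pow (k : ℕ) (y : ℕ → V3 p) (i : ℕ) :
    (GA p ^ k) y i = ![y i 0, y i 1 - k * y i 0, y i 2] := by
  induction k with
  | zero => funext j; fin_cases j <;> simp
  | succ k ih =>
    rw [pow_succ']
    show GA p ((GA p ^ k) y) i = _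
    have h : GA p ((GA p ^ k) y) i
      = ![(GA p ^ k) y i 0, (GA p ^ k) y i 1 - (GA p ^ k) y i 0, (GA p ^ k) y i 2] := rfl
    rw [h, ih]
    funext j; fin_cases j <;> (simp; try ring)

theorem GB_pow (k : ℕ) (y : ℕ → V3 p) (i : ℕ) :
    (GB p ^ k) y i = ![y i 0, y i 1, y i 2 - k * y i 1] := by
  induction k with
  | zero => funext j; fin_cases j <;> simp
  | succ k ih =>
    rw [pow_succ']
    show GB p ((GB p ^ k) y) i = _
    have h : GB p ((GB p ^ k) y) i
      = ![(GB p ^ k) y i 0, (GB p ^ k) y i 1, (GB p ^ k) y i 2 - (GB p ^ k) y i 1] := rfl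
    rw [h, ih]
    funext j; fin_cases j <;> (simp; try ring)

theorem GC_pow (k : ℕ) : ∀ (y : ℕ → V3 p) (i : ℕ),
    (GC p ^ k) y i = ![y i 0 - k * y (i + 1) 2, y i 1, y i 2] := by
  induction k with
  | zero => intro y i; funext j; fin_cases j <;> simp
  | succ k ih =>
    intro y i
    rw [pow_succ']
    show GC p ((GC p ^ k) y) i = _
    have h : GC p ((GC p ^ k) y) i
      = ![(GC p ^ k) y i 0 - (GC p ^ k) y (i + 1) 2, (GC p ^ k) y i 1, (GC p ^ k) y i 2] := rfl
    rw [h, ih, ih]
    funext j; fin_cases j <;> (simp; try ring)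

theorem GA_pow_p : GA p ^ p = 1 := by
  ext1 y; funext i; rw [GA_pow]; funext j; fin_cases j <;> simp

theorem GB_pow_p : GB p ^ p = 1 := by
  ext1 y; funext i; rw [GB_pow]; funext j; fin_cases j <;> simp

theorem GC_pow_p : GC p ^ p = 1 := by
  ext1 y; funext i; rw [GC_pow]; funext j; fin_cases j <;> simp

/-! ### transfer -/

/-- `σ` is the restriction of `g` -/
def Rel {n : ℕ} (σ : Equiv.Perm (Y p n)) (g : Equiv.Perm (ℕ → V3 p)) : Prop :=
  ∀ y, emb (σ y) = g (emb y)

theorem Rel.mul {n : ℕ} {σ τ : Equiv.Perm (Y p n)} {g h : Equiv.Perm (ℕ → V3 p)}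
    (h1 : Rel σ g) (h2 : Rel τ h) : Rel (σ * τ) (g * h) := by
  intro y
  show emb (σ (τ y)) = g (h (emb y))
  rw [h1, h2]

theorem Rel.inv {n : ℕ} {σ : Equiv.Perm (Y p n)} {g : Equiv.Perm (ℕ → V3 p)}
    (h1 : Rel σ g) : Rel σ⁻¹ g⁻¹ := by
  intro y
  have h2 : emb (σ (σ.symm y)) = g (emb (σ.symm y)) := h1 (σ.symm y)
  rw [Equiv.apply_symm_apply] at h2
  show emb (σ.symm y) = g.symm (emb y)
  rw [h2, Equiv.symm_apply_apply]

theorem Rel.one {n : ℕ} : Rel (1 : Equiv.Perm (Y p n)) 1 := fun _ => rfl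

theorem Rel.pow {n : ℕ} {σ : Equiv.Perm (Y p n)} {g : Equiv.Perm (ℕ → V3 p)}
    (h1 : Rel σ g) (k : ℕ) : Rel (σ ^ k) (g ^ k) := by
  induction k with
  | zero => simpa using Rel.one
  | succ k ih => rw [pow_succ, pow_succ]; exact ih.mul h1

theorem Rel.cm {n : ℕ} {σ τ : Equiv.Perm (Y p n)} {g h : Equiv.Perm (ℕ → V3 p)}
    (h1 : Rel σ g) (h2 : Rel τ h) : Rel (cm σ τ) (cm g h) :=
  ((h1.mul h2).mul h1.inv).mul h2.inv

theorem Rel.eq {n : ℕ} {σ τ : Equiv.Perm (Y p n)} {g : Equiv.Perm (ℕ → V3 p)}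
    (h1 : Rel σ g) (h2 : Rel τ g) : σ = τ := by
  ext1 y
  exact emb_injective n ((h1 y).trans (h2 y).symm)

theorem Rel.commute {n : ℕ} {σ τ : Equiv.Perm (Y p n)} {g h : Equiv.Perm (ℕ → V3 p)}
    (h1 : Rel σ g) (h2 : Rel τ h) (H : Commute g h) : Commute σ τ :=
  (h1.mul h2).eq (by rw [H.eq]; exact h2.mul h1)

theorem relA (n : ℕ) : Rel (permA p n) (GA p) := fun y => emb_permA y
theorem relB (n : ℕ) : Rel (permB p n) (GB p) := fun y => emb_permB y
theorem relC (n : ℕ) : Rel (permC p n) (GC p) := fun y => emb_permC y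

theorem cm_map {G G' : Type} [Group G] [Group G'] (f : G →* G') (x y : G) :
    Crest.Agent.R073.cm (f x) (f y) = f (Crest.Agent.R073.cm x y) := by
  simp [Crest.Agent.R073.cm]

theorem Dg_commute {ι : Type} [Fintype ι] [DecidableEq ι] (l m : ι → Circle) :
    Commute (Dg l) (Dg m) := by
  show Dg l * Dg m = Dg m * Dg l
  rw [← map_mul, ← map_mul, mul_comm]

theorem P_Dg_commute {ι : Type} [Fintype ι] [DecidableEq ι] (σ : Equiv.Perm ι) (l : ι → Circle)
    (h : ∀ j, l (σ j) = l j) : Commute (P σ) (Dg l) := by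
  show P σ * Dg l = Dg l * P σ
  rw [P_mul_Dg]
  congr 2
  funext j
  have := h (σ⁻¹ j)
  rw [← this]
  show l (σ (σ.symm j)) = l j
  rw [Equiv.apply_symm_apply]

theorem cm_P_Dg {ι : Type} [Fintype ι] [DecidableEq ι] (σ : Equiv.Perm ι) (l : ι → Circle) :
    Crest.Agent.R073.cm (P σ) (Dg l) = Dg (fun j => l (σ⁻¹ j) * (l j)⁻¹) := by
  have h : (fun j => l (σ⁻¹ j) * (l j)⁻¹) = (fun j => l (σ⁻¹ j)) * l⁻¹ := rfl
  rw [Crest.Agent.R073.cm, P_mul_Dg, h, map_mul, map_inv, mul_assoc (Dg _) (P σ) (P σ)⁻¹,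
    mul_inv_cancel, mul_one]

variable [Fact p.Prime]

/-- the diagonal entries of `σ_n(d)` -/
noncomputable def dl (p : ℕ) [Fact p.Prime] (n : ℕ) : Y p n → Circle :=
  fun y => ZMod.toCircle (hd y 2)

theorem sigmaU_zero (n : ℕ) : sigmaU p n 0 = P (permA p n) := rfl
theorem sigmaU_one (n : ℕ) : sigmaU p n 1 = P (permB p n) := rfl
theorem sigmaU_two (n : ℕ) : sigmaU p n 2 = P (permC p n) := rfl
theorem sigmaU_three (n : ℕ) : sigmaU p n 3 = Dg (dl p n) := by
  apply Subtype.ext
  show monoM (Equiv.refl _) (fun y => psi p (hd y 2)) = monoM (Equiv.refl _) _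
  congr 1

theorem hd_permA {n : ℕ} (y : Y p n) : hd (permA p n y) = ![hd y 0, hd y 1 - hd y 0, hd y 2] := by
  rw [← emb_hd, ← emb_hd, emb_permA]; rfl

theorem hd_permB {n : ℕ} (y : Y p n) : hd (permB p n y) = ![hd y 0, hd y 1, hd y 2 - hd y 1] := by
  rw [← emb_hd, ← emb_hd, emb_permB]; rfl

theorem hd_permC {n : ℕ} (y : Y p n) :
    hd (permC p n y) = ![hd y 0 - emb y 1 2, hd y 1, hd y 2] := by
  rw [← emb_hd, ← emb_hd, emb_permC]; rfl

end SigmaRel

open SigmaRel in
/-- the four unitaries `σ_n(a), σ_n(b), σ_n(c), σ_n(d)` satisfy the local relations. -/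
theorem sigma_pairRel (p : ℕ) [Fact p.Prime] (n : ℕ) : PairRel p (sigmaU p n) where
  pow i := by
    fin_cases i
    · show sigmaU p n 0 ^ p = 1
      rw [sigmaU_zero, ← map_pow, ((relA n).pow p).eq (by rw [GA_pow_p]; exact Rel.one), map_one]
    · show sigmaU p n 1 ^ p = 1
      rw [sigmaU_one, ← map_pow, ((relB n).pow p).eq (by rw [GB_pow_p]; exact Rel.one), map_one]
    · show sigmaU p n 2 ^ p = 1
      rw [sigmaU_two, ← map_pow, ((relC n).pow p).eq (by rw [GC_pow_p]; exact Rel.one), map_one]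
    · show sigmaU p n 3 ^ p = 1
      rw [sigmaU_three, ← map_pow]
      have : dl p n ^ p = 1 := by
        funext y
        show (ZMod.toCircle (hd y 2)) ^ p = 1
        rw [← AddChar.map_nsmul_eq_pow]
        simp
      rw [this, map_one]
  h01 := by
    rw [sigmaU_zero, sigmaU_one, cm_map]
    exact ⟨(((relA n).cm (relB n)).commute (relA n) rel_ab.1).map P,
      (((relA n).cm (relB n)).commute (relB n) rel_ab.2).map P⟩
  h12 := by
    rw [sigmaU_one, sigmaU_two, cm_map]
    exact ⟨(((relB n).cm (relC n)).commute (relB n) rel_bc.1).map P,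
      (((relB n).cm (relC n)).commute (relC n) rel_bc.2).map P⟩
  h20 := by
    rw [sigmaU_two, sigmaU_zero, cm_map]
    exact ⟨(((relC n).cm (relA n)).commute (relC n) rel_ca.1).map P,
      (((relC n).cm (relA n)).commute (relA n) rel_ca.2).map P⟩
  h13 := by
    rw [sigmaU_one, sigmaU_three, cm_P_Dg]
    refine ⟨?_, Dg_commute _ _⟩
    have key : ∀ y : Y p n, dl p n ((permB p n)⁻¹ y) * (dl p n y)⁻¹ = ZMod.toCircle (hd y 1) := by
      intro y
      obtain ⟨z, rfl⟩ := (permB p n).surjective y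
      have h1 : (permB p n)⁻¹ (permB p n z) = z := (permB p n).symm_apply_apply z
      rw [h1]
      show ZMod.toCircle (hd z 2) * (ZMod.toCircle (hd (permB p n z) 2))⁻¹ = _
      rw [hd_permB, ← AddChar.map_neg_eq_inv, ← AddChar.map_add_eq_mul]
      congr 1
      simp
    refine (P_Dg_commute _ _ fun y => ?_).symm
    rw [key, key, hd_permB]
    simp
  c03 := by
    rw [sigmaU_zero, sigmaU_three]
    refine P_Dg_commute _ _ fun y => ?_
    show ZMod.toCircle (hd (permA p n y) 2) = ZMod.toCircle (hd y 2)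
    rw [hd_permA]; simp
  c23 := by
    rw [sigmaU_two, sigmaU_three]
    refine P_Dg_commute _ _ fun y => ?_
    show ZMod.toCircle (hd (permC p n y) 2) = ZMod.toCircle (hd y 2)
    rw [hd_permC]; simp

/-- the number of words -/
theorem card_Y (p : ℕ) [Fact p.Prime] : ∀ n : ℕ, Fintype.card (Y p n) = p ^ (3 * n)
  | 0 => rfl
  | n + 1 => by
    have h : Fintype.card (Y p (n + 1)) = Fintype.card (V3 p × Y p n) := rfl
    rw [h, Fintype.card_prod, card_Y p n]
    simp only [Fintype.card_pi, ZMod.card, Finset.prod_const, Finset.card_univ, Fintype.card_fin]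
    ring

end Crest.Agent.R073
private theorem rz_acd1125bd8 : type_of% @_root_.Crest.Agent.R073.SigmaRel.emb.eq_def := @_root_.Crest.Agent.R073.SigmaRel.emb.eq_def -- L69
private theorem rz_272e9cdeaa : type_of% @_root_.Crest.Agent.R073.SigmaRel.emb.eq_1 := @_root_.Crest.Agent.R073.SigmaRel.emb.eq_1 -- L69
end

-- ▼ part R073/SigmaIrr

/-!
Row 73 (S0098), module M5b: irreducibility of the representations `σ_n`.
-/

set_option autoImplicit false

namespace Crest.Agent.R073

namespace SigmaIrr

open scoped Matrix ComplexConjugate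

noncomputable section

variable {p : ℕ}

/-- sequences of letters -/
abbrev S (p : ℕ) : Type := ℕ → Fin 3 → ZMod p

/-- the infinite sequence of letters attached to a word -/
def seq : ∀ {n : ℕ}, Y p n → S p
  | 0, _ => fun m => if m = 0 then ![0, 0, 1] else 0
  | _ + 1, y => fun m => match m with
    | 0 => y.1
    | m + 1 => seq y.2 m

theorem seq_zero (y : Y p 0) (m : ℕ) : seq y m = if m = 0 then ![0, 0, 1] else 0 := rfl



theorem seq_hd {n : ℕ} (y : Y p n) : seq y 0 = hd y := by
  cases n with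
  | zero => rfl
  | succ n => rfl

theorem seq_end {n : ℕ} (y : Y p n) : seq y n = ![0, 0, 1] := by
  induction n with
  | zero => rfl
  | succ n ih => exact ih y.2

theorem seq_gt {n : ℕ} (y : Y p n) (m : ℕ) (h : n < m) : seq y m = 0 := by
  induction n generalizing m with
  | zero =>
    rw [seq_zero, if_neg (by omega)]
  | succ n ih =>
    obtain ⟨m, rfl⟩ : ∃ k, m = k + 1 := ⟨m - 1, by omega⟩
    exact ih y.2 m (by omega)

theorem seq_inj {n : ℕ} (y z : Y p n) (h : seq y = seq z) : y = z := by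
  induction n with
  | zero => rfl
  | succ n ih =>
    have h0 : y.1 = z.1 := congrFun h 0
    have h1 : y.2 = z.2 := ih y.2 z.2 (funext fun m => congrFun h (m + 1))
    exact Prod.ext h0 h1

/-- elementary transformations -/
def E (i j : Fin 3) (h : i ≠ j) (k : ℕ) (r : ZMod p) : Equiv.Perm (S p) where
  toFun f := fun m l => if l = i then f m l + r * f (m + k) j else f m l
  invFun f := fun m l => if l = i then f m l - r * f (m + k) j else f m l
  left_inv f := by
    funext m l
    by_cases hl : l = i <;> simp [hl, h.symm]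
  right_inv f := by
    funext m l
    by_cases hl : l = i <;> simp [hl, h.symm]

theorem E_apply (i j : Fin 3) (h : i ≠ j) (k : ℕ) (r : ZMod p) (f : S p) (m : ℕ) (l : Fin 3) :
    E i j h k r f m l = if l = i then f m l + r * f (m + k) j else f m l := rfl

theorem E_inv_apply (i j : Fin 3) (h : i ≠ j) (k : ℕ) (r : ZMod p) (f : S p) (m : ℕ) (l : Fin 3) :
    (E i j h k r)⁻¹ f m l = if l = i then f m l - r * f (m + k) j else f m l := rfl

theorem E_inv (i j : Fin 3) (h : i ≠ j) (k : ℕ) (r : ZMod p) :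
    (E i j h k r)⁻¹ = E i j h k (-r) := by
  refine Equiv.ext fun f => ?_
  funext m l
  rw [E_inv_apply, E_apply]
  by_cases hl : l = i
  · simp [hl, sub_eq_add_neg]
  · simp [hl]

theorem E_comm {i j l : Fin 3} (hij : i ≠ j) (hjl : j ≠ l) (hil : i ≠ l) (k m : ℕ)
    (r s : ZMod p) :
    E i j hij k r * E j l hjl m s = E i l hil (k + m) (r * s) * E j l hjl m s * E i j hij k r := by
  refine Equiv.ext fun f => ?_
  funext t c
  simp only [Equiv.Perm.mul_apply, E_apply]
  by_cases hc : c = i
  · subst hc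
    simp only [if_true, if_neg hij, if_neg hil.symm, if_neg hjl.symm]
    rw [add_assoc t k m]
    ring
  · by_cases hj : c = j
    · subst hj
      simp [hij.symm, hil.symm]
    · simp [hc, hj]

theorem E_comm_mem {D : Subgroup (Equiv.Perm (S p))} {i j l : Fin 3} (hij : i ≠ j) (hjl : j ≠ l)
    (hil : i ≠ l) {k m : ℕ} {r s : ZMod p} (h1 : E i j hij k r ∈ D) (h2 : E j l hjl m s ∈ D) :
    E i l hil (k + m) (r * s) ∈ D := by
  have h := E_comm (p := p) hij hjl hil k m r s
  have h3 : E i l hil (k + m) (r * s) = E i j hij k r * E j l hjl m s * (E i j hij k r)⁻¹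
      * (E j l hjl m s)⁻¹ := by
    rw [h]
    group
  rw [h3]
  exact D.mul_mem (D.mul_mem (D.mul_mem h1 h2) (D.inv_mem h1)) (D.inv_mem h2)

theorem mem_neg {D : Subgroup (Equiv.Perm (S p))} {i j : Fin 3} {hij : i ≠ j} {k : ℕ} {r : ZMod p}
    (h : E i j hij k r ∈ D) : E i j hij k (-r) ∈ D := by
  rw [← E_inv]
  exact D.inv_mem h

section

variable {D : Subgroup (Equiv.Perm (S p))}
  (hA : E 1 0 (by decide) 0 (-1 : ZMod p) ∈ D) (hB : E 2 1 (by decide) 0 (-1 : ZMod p) ∈ D)
  (hC : E 0 2 (by decide) 1 (-1 : ZMod p) ∈ D)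

include hA hB hC

omit hA in
theorem mem_01 : E 0 1 (by decide) 1 (1 : ZMod p) ∈ D := by
  have := E_comm_mem (D := D) (i := 0) (j := 2) (l := 1) (by decide) (by decide) (by decide) hC hB
  simpa using this

theorem mem_20 (k : ℕ) : E 2 0 (by decide) k (1 : ZMod p) ∈ D := by
  induction k with
  | zero =>
    have := E_comm_mem (D := D) (i := 2) (j := 1) (l := 0) (by decide) (by decide) (by decide) hB hA
    simpa using this
  | succ k ih =>
    have h1 := E_comm_mem (D := D) (i := 2) (j := 0) (l := 1) (by decide) (by decide) (by decide)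
      ih (mem_01 hB hC)
    have h2 := E_comm_mem (D := D) (i := 2) (j := 1) (l := 0) (by decide) (by decide) (by decide)
      h1 hA
    have h3 := mem_neg h2
    simpa using h3

theorem mem_02_12 (k : ℕ) : E 0 2 (by decide) (k + 1) (1 : ZMod p) ∈ D ∧
    E 1 2 (by decide) (k + 1) (1 : ZMod p) ∈ D := by
  have key : ∀ k : ℕ, E 0 2 (by decide) (k + 1) (1 : ZMod p) ∈ D →
      E 1 2 (by decide) (k + 1) (1 : ZMod p) ∈ D := by
    intro k h
    have h2 := mem_neg (E_comm_mem (D := D) (i := 1) (j := 0) (l := 2) (by decide) (by decide)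
      (by decide) hA h)
    simpa using h2
  induction k with
  | zero =>
    have h : E 0 2 (by decide) (0 + 1) (1 : ZMod p) ∈ D := by
      have := mem_neg hC
      simpa using this
    exact ⟨h, key 0 h⟩
  | succ k ih =>
    have h1 := E_comm_mem (D := D) (i := 0) (j := 1) (l := 2) (by decide) (by decide) (by decide)
      (mem_01 hB hC) ih.2
    have h : E 0 2 (by decide) (k + 1 + 1) (1 : ZMod p) ∈ D := by
      have e : 1 + (k + 1) = k + 1 + 1 := by omega
      rw [e] at h1
      simpa using h1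
    exact ⟨h, key _ h⟩

end

/-- a letter seen in the sequence at place `0` only -/
theorem seq_permA {n : ℕ} (y : Y p n) :
    seq (permA p n y) = E 1 0 (by decide) 0 (-1 : ZMod p) (seq y) := by
  induction n with
  | zero =>
    funext m l
    rw [E_apply]
    simp only [seq_zero]
    by_cases hm : m = 0
    · subst hm
      fin_cases l <;> simp
    · fin_cases l <;> simp [hm]
  | succ n ih =>
    funext m l
    cases m with
    | zero =>
      rw [E_apply]
      change (letA p y.1) l = if l = 1 then y.1 l + -1 * y.1 0 else y.1 l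
      fin_cases l <;> simp [letA, sub_eq_add_neg]
    | succ m =>
      exact congrFun (congrFun (ih y.2) m) l

theorem seq_permB {n : ℕ} (y : Y p n) :
    seq (permB p n y) = E 2 1 (by decide) 0 (-1 : ZMod p) (seq y) := by
  induction n with
  | zero =>
    funext m l
    rw [E_apply]
    simp only [seq_zero]
    by_cases hm : m = 0
    · subst hm
      fin_cases l <;> simp
    · fin_cases l <;> simp [hm]
  | succ n ih =>
    funext m l
    cases m with
    | zero =>
      rw [E_apply]
      change (letB p y.1) l = if l = 2 then y.1 l + -1 * y.1 1 else y.1 l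
      fin_cases l <;> simp [letB, sub_eq_add_neg]
    | succ m =>
      exact congrFun (congrFun (ih y.2) m) l

theorem seq_permC {n : ℕ} (y : Y p n) :
    seq (permC p n y) = E 0 2 (by decide) 1 (-1 : ZMod p) (seq y) := by
  induction n with
  | zero =>
    funext m l
    rw [E_apply]
    simp only [seq_zero]
    by_cases hm : m = 0
    · subst hm
      fin_cases l <;> simp
    · fin_cases l <;> simp [hm]
  | succ n ih =>
    funext m l
    cases m with
    | zero =>
      rw [E_apply]
      change (letC p (hd y.2 2) y.1) l = if l = 0 then y.1 l + -1 * seq y.2 0 2 else y.1 l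
      rw [seq_hd]
      fin_cases l <;> simp [letC, sub_eq_add_neg]
    | succ m =>
      exact congrFun (congrFun (ih y.2) m) l

/-- the subgroup of transformations of sequences implemented by permutations of words fixing
the function `r` -/
def Dg {n : ℕ} (r : Y p n → ℂ) : Subgroup (Equiv.Perm (S p)) where
  carrier := {φ | ∃ g : Equiv.Perm (Y p n), (∀ y, seq (g y) = φ (seq y)) ∧ ∀ y, r (g y) = r y}
  one_mem' := ⟨1, fun _ => rfl, fun _ => rfl⟩
  mul_mem' := by
    rintro φ φ' ⟨g, h1, h2⟩ ⟨g', h1', h2'⟩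
    refine ⟨g * g', fun y => ?_, fun y => ?_⟩
    · rw [Equiv.Perm.mul_apply, Equiv.Perm.mul_apply, h1, h1']
    · rw [Equiv.Perm.mul_apply, h2, h2']
  inv_mem' := by
    rintro φ ⟨g, h1, h2⟩
    refine ⟨g⁻¹, fun y => ?_, fun y => ?_⟩
    · have h := h1 (g.symm y)
      rw [Equiv.apply_symm_apply] at h
      rw [h]
      exact (Equiv.symm_apply_apply φ _).symm
    · have h := h2 (g.symm y)
      rw [Equiv.apply_symm_apply] at h
      exact h.symm

/-- adding `1` to the coordinate `i` of the first letter -/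
def shiftL {n : ℕ} (i : Fin 3) (y : Y p (n + 1)) : Y p (n + 1) :=
  ((fun l => if l = i then y.1 l + 1 else y.1 l, y.2) : V3 p × Y p n)

theorem seq_shiftL {n : ℕ} (i : Fin 3) (y : Y p (n + 1)) (m : ℕ) (l : Fin 3) :
    seq (shiftL i y) m l = if m = 0 then (if l = i then seq y m l + 1 else seq y m l)
      else seq y m l := by
  cases m with
  | zero => rfl
  | succ m => rfl

theorem inv_shift {n : ℕ} (r : Y p (n + 1) → ℂ) (hA : ∀ y, r (permA p _ y) = r y)
    (hB : ∀ y, r (permB p _ y) = r y) (hC : ∀ y, r (permC p _ y) = r y) (i : Fin 3)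
    (y : Y p (n + 1)) : r (shiftL i y) = r y := by
  have mA : E 1 0 (by decide) 0 (-1 : ZMod p) ∈ Dg r := ⟨permA p _, seq_permA, hA⟩
  have mB : E 2 1 (by decide) 0 (-1 : ZMod p) ∈ Dg r := ⟨permB p _, seq_permB, hB⟩
  have mC : E 0 2 (by decide) 1 (-1 : ZMod p) ∈ Dg r := ⟨permC p _, seq_permC, hC⟩
  have m02 := (mem_02_12 mA mB mC n).1
  have m12 := (mem_02_12 mA mB mC n).2
  have m20 := mem_20 mA mB mC n
  have m02' : E 0 2 (by decide) 1 (1 : ZMod p) ∈ Dg r := by simpa using mem_neg mC
  have mcm := (Dg r).mul_mem ((Dg r).mul_mem ((Dg r).mul_mem m20 m02') ((Dg r).inv_mem m20))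
    ((Dg r).inv_mem m02')
  have fin : ∀ φ ∈ Dg r, seq (shiftL i y) = φ (seq y) → r (shiftL i y) = r y := by
    rintro φ ⟨g, h1, h2⟩ h
    have : g y = shiftL i y := seq_inj _ _ (by rw [h1, h])
    rw [← this, h2]
  have hend : seq y (n + 1) = ![0, 0, 1] := seq_end y
  have hgt : ∀ m, n + 1 < m → seq y m = 0 := fun m hm => seq_gt y m hm
  have e1 : ∀ m, seq y (m + (n + 1)) 2 = if m = 0 then 1 else 0 := by
    intro m
    by_cases hm : m = 0
    · subst hm
      rw [zero_add, hend]
      rfl
    · rw [hgt _ (by omega), if_neg hm]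
      rfl
  have e0 : ∀ m, seq y (m + (n + 1)) 0 = 0 := by
    intro m
    by_cases hm : m = 0
    · subst hm
      rw [zero_add, hend]
      rfl
    · rw [hgt _ (by omega)]
      rfl
  fin_cases i
  · refine fin _ m02 ?_
    funext m l
    rw [E_apply, seq_shiftL, e1]
    fin_cases l <;> by_cases hm : m = 0 <;> simp [hm]
  · refine fin _ m12 ?_
    funext m l
    rw [E_apply, seq_shiftL, e1]
    fin_cases l <;> by_cases hm : m = 0 <;> simp [hm]
  · refine fin _ mcm ?_
    funext m l
    have a1 : m + n + 1 = m + (n + 1) := by omega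
    have a2 : m + 1 + n = m + (n + 1) := by omega
    have a3 : m + (n + 1) + 1 = (m + 1) + (n + 1) := by omega
    have a4 : m + (n + 1) + n = (m + n) + (n + 1) := by omega
    have a5 : seq y (m + n + (n + 1) + 1) 2 = 0 := by
      rw [hgt _ (by omega)]
      rfl
    rw [seq_shiftL]
    simp only [Equiv.Perm.mul_apply, E_apply, E_inv_apply]
    fin_cases l
    · simp [a2, a3, e0, e1]
    · simp
    · simp only [Fin.reduceFinMk, Fin.isValue, if_true]
      rw [a1]
      simp only [Fin.isValue, show (0 : Fin 3) ≠ 2 by decide, show (2 : Fin 3) ≠ 0 by decide,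
        if_false, a5, a4, e0, e1]
      by_cases hm : m = 0
      · simp only [hm, if_true]
        ring
      · simp only [hm, if_false]
        ring

/-- adding a letter -/
def mk {n : ℕ} (q : V3 p) (z : Y p n) : Y p (n + 1) := ((q, z) : V3 p × Y p n)

theorem const_of_shift {n : ℕ} [Fact p.Prime] (r : Y p (n + 1) → ℂ)
    (h : ∀ i y, r (shiftL i y) = r y) (q q' : V3 p) (z : Y p n) :
    r (mk q z) = r (mk q' z) := by
  have : NeZero p := ⟨(Fact.out : p.Prime).ne_zero⟩
  have h1 : ∀ (i : Fin 3) (k : ℕ) (q : V3 p), r (mk q z)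
      = r (mk (fun l => if l = i then q l + (k : ZMod p) else q l) z) := by
    intro i k
    induction k with
    | zero =>
      intro q
      congr 2
      funext l
      simp
    | succ k ih =>
      intro q
      rw [ih q, ← h i (mk (fun l => if l = i then q l + (k : ZMod p) else q l) z)]
      congr 1
      refine Prod.ext ?_ rfl
      funext l
      change (if l = i then (if l = i then q l + (k : ZMod p) else q l) + 1
        else (if l = i then q l + (k : ZMod p) else q l))
        = (if l = i then q l + ((k + 1 : ℕ) : ZMod p) else q l)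
      by_cases hl : l = i
      · simp [hl, add_assoc]
      · simp [hl]
  have h2 : ∀ (i : Fin 3) (q : V3 p) (x : ZMod p), r (mk q z)
      = r (mk (Function.update q i x) z) := by
    intro i q x
    obtain ⟨k, hk⟩ := ZMod.natCast_zmod_surjective (x - q i)
    rw [h1 i k q]
    congr 2
    funext l
    by_cases hl : l = i
    · subst hl
      simp [hk]
    · simp [hl]
  rw [h2 0 q (q' 0), h2 1 _ (q' 1), h2 2 _ (q' 2)]
  congr 2
  funext l
  fin_cases l <;> simp [Function.update]

theorem const_of_inv {n : ℕ} [Fact p.Prime] (r : Y p n → ℂ) (hA : ∀ y, r (permA p _ y) = r y)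
    (hB : ∀ y, r (permB p _ y) = r y) (hC : ∀ y, r (permC p _ y) = r y) (y z : Y p n) :
    r y = r z := by
  induction n with
  | zero => rfl
  | succ n ih =>
    have hs := const_of_shift r (inv_shift r hA hB hC)
    let r' : Y p n → ℂ := fun z => r (mk 0 z)
    have e : ∀ y : Y p (n + 1), r y = r' y.2 := fun y => hs y.1 0 y.2
    have hA' : ∀ y, r' (permA p _ y) = r' y := by
      intro y
      exact ((e _).symm.trans (hA (mk 0 y))).trans (e _)
    have hB' : ∀ y, r' (permB p _ y) = r' y := by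
      intro y
      exact ((e _).symm.trans (hB (mk 0 y))).trans (e _)
    have hC' : ∀ y, r' (permC p _ y) = r' y := by
      intro y
      exact ((e _).symm.trans (hC (mk 0 y))).trans (e _)
    rw [e y, e z]
    exact ih r' hA' hB' hC' y.2 z.2

theorem sep {n : ℕ} (P : Y p n → Y p n → Prop) (h2 : ∀ y z, P y z → hd y 2 = hd z 2)
    (hA : ∀ y z, P y z → P (permA p n y) (permA p n z))
    (hB : ∀ y z, P y z → P (permB p n y) (permB p n z))
    (hC : ∀ y z, P y z → P (permC p n y) (permC p n z)) (y z : Y p n) (h : P y z) : y = z := by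
  induction n with
  | zero => rfl
  | succ n ih =>
    have k1 : ∀ y z : Y p (n + 1), P y z → y.1 = z.1 := by
      intro y z h
      have e2 : y.1 2 = z.1 2 := h2 _ _ h
      have e1 : y.1 2 - y.1 1 = z.1 2 - z.1 1 := h2 _ _ (hB _ _ h)
      have e0 : y.1 2 - (y.1 1 - y.1 0) = z.1 2 - (z.1 1 - z.1 0) := h2 _ _ (hB _ _ (hA _ _ h))
      have e1' : y.1 1 = z.1 1 := by rw [e2] at e1; exact sub_right_injective e1
      have e0' : y.1 0 = z.1 0 := by
        rw [e2, e1'] at e0
        exact sub_right_injective (sub_right_injective e0)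
      funext l
      fin_cases l
      · exact e0'
      · exact e1'
      · exact e2
    let P' : Y p n → Y p n → Prop := fun u v => ∃ y z : Y p (n + 1), P y z ∧ y.2 = u ∧ z.2 = v
    have key : y.2 = z.2 := by
      refine ih P' ?_ ?_ ?_ ?_ y.2 z.2 ⟨y, z, h, rfl, rfl⟩
      · rintro _ _ ⟨y, z, h, rfl, rfl⟩
        have e := congrFun (k1 _ _ (hC _ _ h)) 0
        have e' : y.1 0 - hd y.2 2 = z.1 0 - hd z.2 2 := e
        rw [k1 _ _ h] at e'
        exact sub_right_injective e'
      · rintro _ _ ⟨y, z, h, rfl, rfl⟩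
        exact ⟨_, _, hA _ _ h, rfl, rfl⟩
      · rintro _ _ ⟨y, z, h, rfl, rfl⟩
        exact ⟨_, _, hB _ _ h, rfl, rfl⟩
      · rintro _ _ ⟨y, z, h, rfl, rfl⟩
        exact ⟨_, _, hC _ _ h, rfl, rfl⟩
    exact Prod.ext (k1 y z h) key

theorem monoM_mul_apply {ι : Type} [Fintype ι] [DecidableEq ι] (σ : Equiv.Perm ι) (lam : ι → ℂ)
    (R : Matrix ι ι ℂ) (i j : ι) : (monoM σ lam * R) (σ i) j = lam i * R i j := by
  rw [Matrix.mul_apply, Finset.sum_eq_single i]
  · simp [monoM]
  · intro k _ hk
    have : σ i ≠ σ k := fun e => hk (σ.injective e).symm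
    simp [monoM, this]
  · simp

theorem mul_monoM_apply {ι : Type} [Fintype ι] [DecidableEq ι] (σ : Equiv.Perm ι) (lam : ι → ℂ)
    (R : Matrix ι ι ℂ) (i j : ι) : (R * monoM σ lam) i j = R i (σ j) * lam j := by
  rw [Matrix.mul_apply, Finset.sum_eq_single (σ j)]
  · simp [monoM]
  · intro k _ hk
    simp [monoM, hk]
  · simp

theorem comm_monoM {ι : Type} [Fintype ι] [DecidableEq ι] (σ : Equiv.Perm ι)
    (R : Matrix ι ι ℂ) (h : monoM σ (fun _ => 1) * R = R * monoM σ (fun _ => 1)) (i j : ι) :
    R (σ i) (σ j) = R i j := by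
  have := congrFun (congrFun h (σ i)) j
  rw [monoM_mul_apply, mul_monoM_apply] at this
  simpa using this.symm

theorem comm_diag {ι : Type} [Fintype ι] [DecidableEq ι] (lam : ι → ℂ)
    (R : Matrix ι ι ℂ) (h : monoM (Equiv.refl _) lam * R = R * monoM (Equiv.refl _) lam)
    (i j : ι) (hR : R i j ≠ 0) : lam i = lam j := by
  have := congrFun (congrFun h i) j
  have h1 := monoM_mul_apply (Equiv.refl _) lam R i j
  have h2 := mul_monoM_apply (Equiv.refl _) lam R i j
  simp only [Equiv.refl_apply] at h1 h2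
  rw [h1, h2, mul_comm] at this
  exact mul_left_cancel₀ hR this

theorem psi_injective [Fact p.Prime] : Function.Injective (psi p) := by
  intro a b h
  exact ZMod.injective_stdAddChar h

end

end SigmaIrr

open SigmaIrr in
/-- M5b: `σ_n` is irreducible. -/
theorem sigma_irr (p : ℕ) [Fact p.Prime] (n : ℕ) (R : Matrix (Y p n) (Y p n) ℂ)
    (h : ∀ s, (sigmaU p n s : Matrix (Y p n) (Y p n) ℂ) * R
      = R * (sigmaU p n s : Matrix (Y p n) (Y p n) ℂ)) :
    ∃ c : ℂ, R = c • (1 : Matrix (Y p n) (Y p n) ℂ) := by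
  have hA : ∀ i j, R (permA p n i) (permA p n j) = R i j := comm_monoM _ _ (h 0)
  have hB : ∀ i j, R (permB p n i) (permB p n j) = R i j := comm_monoM _ _ (h 1)
  have hC : ∀ i j, R (permC p n i) (permC p n j) = R i j := comm_monoM _ _ (h 2)
  have hD : ∀ i j, R i j ≠ 0 → psi p (hd i 2) = psi p (hd j 2) :=
    fun i j hR => comm_diag (fun y => psi p (hd y 2)) R (h 3) i j hR
  have hsep : ∀ i j, R i j ≠ 0 → i = j := by
    refine sep (fun i j => R i j ≠ 0) (fun y z hyz => psi_injective (hD y z hyz)) ?_ ?_ ?_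
    · intro y z hyz
      rw [hA]
      exact hyz
    · intro y z hyz
      rw [hB]
      exact hyz
    · intro y z hyz
      rw [hC]
      exact hyz
  obtain ⟨y0⟩ := instNonemptyY p n
  refine ⟨R y0 y0, ?_⟩
  ext i j
  rw [Matrix.smul_apply, Matrix.one_apply]
  by_cases hij : i = j
  · subst hij
    rw [if_pos rfl, smul_eq_mul, mul_one]
    exact const_of_inv (fun y => R y y) (fun y => hA y y) (fun y => hB y y) (fun y => hC y y) i y0
  · rw [if_neg hij, smul_zero]
    by_contra hR
    exact hij (hsep i j hR)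

end Crest.Agent.R073
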