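import Crest.Agent.R073.Stmts
import Crest.Agent.R073.SigmaIrr_Mg

-- ▼ part R073/Tens
section

/-!
Row 73, M7a: the operators `tens E U`.
-/

set_option autoImplicit false

namespace Crest.Agent.R073

open scoped Matrix ComplexConjugate InnerProductSpace

section Tens

variable {H : Type} [NormedAddCommGroup H] [InnerProductSpace ℂ H] {ι : Type} [Fintype ι]


theorem tens_sub (E E' : H →L[ℂ] H) (U : Matrix ι ι ℂ) :
    tens (E - E') U = tens E U - tens E' U := by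
  ext T i
  simp [tens_apply, Finset.sum_sub_distrib, smul_sub]




theorem tens_comp (E E' : H →L[ℂ] H) (U W : Matrix ι ι ℂ) :
    tens E U ∘L tens E' W = tens (E ∘L E') (U * W) := by
  ext T i
  simp only [ContinuousLinearMap.comp_apply, tens_apply, map_sum, map_smul, Finset.smul_sum,
    Matrix.mul_apply, smul_smul, Finset.sum_smul, map_mul]
  rw [Finset.sum_comm]

theorem tens_one_apply [DecidableEq ι] (E : H →L[ℂ] H) (T : PiLp 2 (fun _ : ι => H)) (i : ι) :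
    tens E (1 : Matrix ι ι ℂ) T i = E (T i) := by
  rw [tens_apply, Finset.sum_eq_single i]
  · simp
  · intro j _ hj
    simp [Matrix.one_apply_ne hj.symm]
  · simp

theorem tens_one_one [DecidableEq ι] :
    tens (1 : H →L[ℂ] H) (1 : Matrix ι ι ℂ) = 1 := by
  ext T i
  rw [tens_one_apply]
  simp

/-- `tens E U` with a monomial matrix. -/
theorem tens_monoM_apply [DecidableEq ι] (E : H →L[ℂ] H) (σ : Equiv.Perm ι) (lam : ι → ℂ)
    (T : PiLp 2 (fun _ : ι => H)) (i : ι) :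
    tens E (monoM σ lam) T i = conj (lam (σ.symm i)) • E (T (σ.symm i)) := by
  rw [tens_apply, Finset.sum_eq_single (σ.symm i)]
  · simp [monoM]
  · intro j _ hj
    have : i ≠ σ j := fun e => hj (by rw [e]; simp)
    simp [monoM, this]
  · simp

theorem norm_tens_one_le [DecidableEq ι] (E : H →L[ℂ] H) :
    ‖tens E (1 : Matrix ι ι ℂ)‖ ≤ ‖E‖ := by
  refine ContinuousLinearMap.opNorm_le_bound _ (norm_nonneg _) fun T => ?_
  refine le_of_sq_le_sq ?_ (by positivity)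
  rw [mul_pow, PiLp.norm_sq_eq_of_L2, PiLp.norm_sq_eq_of_L2, Finset.mul_sum]
  refine Finset.sum_le_sum fun i _ => ?_
  rw [tens_one_apply, ← mul_pow]
  exact pow_le_pow_left₀ (norm_nonneg _) (E.le_opNorm _) 2

theorem adjoint_tens [CompleteSpace H] (E : H →L[ℂ] H) (U : Matrix ι ι ℂ) :
    ContinuousLinearMap.adjoint (tens E U) = tens (ContinuousLinearMap.adjoint E) Uᴴ := by
  symm
  rw [ContinuousLinearMap.eq_adjoint_iff]
  intro S T
  rw [PiLp.inner_apply, PiLp.inner_apply]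
  simp only [tens_apply, sum_inner, inner_sum, inner_smul_left, inner_smul_right,
    Matrix.conjTranspose_apply, ContinuousLinearMap.adjoint_inner_left]
  rw [Finset.sum_comm]
  refine Finset.sum_congr rfl fun i _ => Finset.sum_congr rfl fun j _ => ?_
  simp

theorem norm_tens_unitary_apply [CompleteSpace H] [DecidableEq ι]
    (U : Matrix.unitaryGroup ι ℂ) (T : PiLp 2 (fun _ : ι => H)) :
    ‖tens (1 : H →L[ℂ] H) (U : Matrix ι ι ℂ) T‖ = ‖T‖ := by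
  have h : ‖tens (1 : H →L[ℂ] H) (U : Matrix ι ι ℂ) T‖ ^ 2 = ‖T‖ ^ 2 := by
    have h1 : ⟪tens (1 : H →L[ℂ] H) (U : Matrix ι ι ℂ) T,
        tens (1 : H →L[ℂ] H) (U : Matrix ι ι ℂ) T⟫_ℂ = ⟪T, T⟫_ℂ := by
      rw [← ContinuousLinearMap.adjoint_inner_right, adjoint_tens,
        ← ContinuousLinearMap.comp_apply, tens_comp]
      have hU : (U : Matrix ι ι ℂ)ᴴ * (U : Matrix ι ι ℂ) = 1 :=
        Matrix.mem_unitaryGroup_iff'.1 U.2
      have h2 : ContinuousLinearMap.adjoint (1 : H →L[ℂ] H) ∘L (1 : H →L[ℂ] H) = 1 := by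
        have : ContinuousLinearMap.adjoint (1 : H →L[ℂ] H) = 1 := star_one _
        rw [this]; rfl
      rw [hU, h2, tens_one_one]; simp
    rw [inner_self_eq_norm_sq_to_K, inner_self_eq_norm_sq_to_K] at h1
    exact_mod_cast h1
  exact (sq_eq_sq₀ (norm_nonneg _) (norm_nonneg _)).1 h

theorem norm_tens_le [CompleteSpace H] [DecidableEq ι] (E : H →L[ℂ] H)
    (U : Matrix.unitaryGroup ι ℂ) :
    ‖tens E (U : Matrix ι ι ℂ)‖ ≤ ‖E‖ := by
  have h : tens E (U : Matrix ι ι ℂ)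
      = tens E (1 : Matrix ι ι ℂ) ∘L tens (1 : H →L[ℂ] H) (U : Matrix ι ι ℂ) := by
    rw [tens_comp, one_mul]; rfl
  refine ContinuousLinearMap.opNorm_le_bound _ (norm_nonneg _) fun T => ?_
  rw [h, ContinuousLinearMap.comp_apply]
  refine ((tens E (1 : Matrix ι ι ℂ)).le_opNorm _).trans ?_
  rw [norm_tens_unitary_apply]
  exact mul_le_mul_of_nonneg_right (norm_tens_one_le E) (norm_nonneg _)

end Tens

/-- M7a -/
theorem stmtTens : StmtTens := by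
  intro G _ H _ _ _ w F δ hδ hw ι _ _ _
  refine ⟨?_, ?_, ?_, ?_⟩
  · intro g hg h hh
    show ‖tens (w g.1) (g.2 : Matrix ι ι ℂ) ∘L tens (w h.1) (h.2 : Matrix ι ι ℂ)
      - tens (w (g.1 * h.1)) ((g.2 * h.2 : Matrix.unitaryGroup ι ℂ) : Matrix ι ι ℂ)‖ ≤ δ
    rw [tens_comp]
    have : (g.2 : Matrix ι ι ℂ) * (h.2 : Matrix ι ι ℂ)
      = ((g.2 * h.2 : Matrix.unitaryGroup ι ℂ) : Matrix ι ι ℂ) := rfl
    rw [this, ← tens_sub]
    exact (norm_tens_le _ _).trans (hw.mul _ hg _ hh)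
  · intro g hg
    show ‖ContinuousLinearMap.adjoint (tens (w g.1) (g.2 : Matrix ι ι ℂ))
      - tens (w (g.1⁻¹)) ((g.2⁻¹ : Matrix.unitaryGroup ι ℂ) : Matrix ι ι ℂ)‖ ≤ δ
    rw [adjoint_tens]
    have : (g.2 : Matrix ι ι ℂ)ᴴ = ((g.2⁻¹ : Matrix.unitaryGroup ι ℂ) : Matrix ι ι ℂ) := rfl
    rw [this, ← tens_sub]
    exact (norm_tens_le _ _).trans (hw.star _ hg)
  · show ‖tens (w 1) ((1 : Matrix.unitaryGroup ι ℂ) : Matrix ι ι ℂ) - 1‖ ≤ δ
    have : (1 : PiLp 2 (fun _ : ι => H) →L[ℂ] PiLp 2 (fun _ : ι => H))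
      = tens (1 : H →L[ℂ] H) ((1 : Matrix.unitaryGroup ι ℂ) : Matrix ι ι ℂ) := by
      rw [show ((1 : Matrix.unitaryGroup ι ℂ) : Matrix ι ι ℂ) = 1 from rfl, tens_one_one]
    rw [this, ← tens_sub]
    exact (norm_tens_le _ _).trans hw.one
  · intro g hg
    exact (norm_tens_le _ _).trans (hw.norm _ hg)

end Crest.Agent.R073
end

-- ▼ part R073/StepA

/-!
Row 73, M7b: the operators `M_q = p⁻³ ∑ conj ψ(q·m) w(D m) w(t)` (pointwise part of the step).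
-/

set_option autoImplicit false

namespace Crest.Agent.R073

open scoped ComplexConjugate InnerProductSpace Pointwise
open Finset

noncomputable section

namespace Step

section Grp

variable {p : ℕ} [Fact p.Prime] {G : Type} [Group G]

/-- pairing -/
def dot (q m : V3 p) : ZMod p := q 0 * m 0 + q 1 * m 1 + q 2 * m 2

/-- the elements used -/
def S0 (K : KGroup p G) : Set G :=
  {1, K.a, K.b, K.c, K.t, K.t⁻¹} ∪ Set.range (fun m : V3 p => K.D (Multiplicative.ofAdd m))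

/-- the window -/
def F0 (K : KGroup p G) : Set G := S0 K * S0 K * S0 K

lemma S0_finite (K : KGroup p G) : (S0 K).Finite :=
  Set.Finite.union (Set.toFinite _) (Set.finite_range _)

lemma F0_finite (K : KGroup p G) : (F0 K).Finite :=
  ((S0_finite K).mul (S0_finite K)).mul (S0_finite K)

lemma one_mem (K : KGroup p G) : (1 : G) ∈ S0 K := by simp [S0]
lemma a_mem (K : KGroup p G) : K.a ∈ S0 K := by simp [S0]
lemma b_mem (K : KGroup p G) : K.b ∈ S0 K := by simp [S0]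
lemma c_mem (K : KGroup p G) : K.c ∈ S0 K := by simp [S0]
lemma t_mem (K : KGroup p G) : K.t ∈ S0 K := by simp [S0]
lemma ti_mem (K : KGroup p G) : K.t⁻¹ ∈ S0 K := by simp [S0]
lemma D_mem (K : KGroup p G) (m : V3 p) : K.D (Multiplicative.ofAdd m) ∈ S0 K :=
  Or.inr ⟨m, rfl⟩

lemma mem1 {K : KGroup p G} {g : G} (hg : g ∈ S0 K) : g ∈ F0 K := by
  have := Set.mul_mem_mul (Set.mul_mem_mul hg (one_mem K)) (one_mem K)
  simpa [F0] using this

lemma mem2 {K : KGroup p G} {g h : G} (hg : g ∈ S0 K) (hh : h ∈ S0 K) : g * h ∈ F0 K := by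
  have := Set.mul_mem_mul (Set.mul_mem_mul hg hh) (one_mem K)
  simpa [F0] using this

lemma mem3 {K : KGroup p G} {g h k : G} (hg : g ∈ S0 K) (hh : h ∈ S0 K) (hk : k ∈ S0 K) :
    g * h * k ∈ F0 K :=
  Set.mul_mem_mul (Set.mul_mem_mul hg hh) hk

end Grp

section Alm

variable {G : Type} [Group G] {H : Type} [NormedAddCommGroup H] [InnerProductSpace ℂ H]
  [CompleteSpace H] {w : G → H →L[ℂ] H} {F : Set G} {δ : ℝ}

lemma mul2 (hw : AlmostRep w F δ) {g h : G} (hg : g ∈ F) (hh : h ∈ F) (ζ : H) :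
    ‖w g (w h ζ) - w (g * h) ζ‖ ≤ δ * ‖ζ‖ := by
  calc ‖w g (w h ζ) - w (g * h) ζ‖ = ‖(w g ∘L w h - w (g * h)) ζ‖ := rfl
    _ ≤ ‖w g ∘L w h - w (g * h)‖ * ‖ζ‖ := ContinuousLinearMap.le_opNorm _ _
    _ ≤ δ * ‖ζ‖ := mul_le_mul_of_nonneg_right (hw.mul g hg h hh) (norm_nonneg _)

lemma nrm (hw : AlmostRep w F δ) (hδ1 : δ ≤ 1) {g : G} (hg : g ∈ F) (ζ : H) :
    ‖w g ζ‖ ≤ 2 * ‖ζ‖ :=
  (ContinuousLinearMap.le_opNorm _ _).trans
    (mul_le_mul_of_nonneg_right ((hw.norm g hg).trans (by linarith)) (norm_nonneg _))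

lemma mul3 (hw : AlmostRep w F δ) (hδ0 : 0 ≤ δ) (hδ1 : δ ≤ 1) {g h k : G} (hg : g ∈ F)
    (hh : h ∈ F) (hk : k ∈ F) (hgh : g * h ∈ F) (ζ : H) :
    ‖w g (w h (w k ζ)) - w (g * h * k) ζ‖ ≤ 3 * δ * ‖ζ‖ := by
  have h1 := mul2 hw hg hh (w k ζ)
  have h2 := mul2 hw hgh hk ζ
  have h3 := nrm hw hδ1 hk ζ
  calc ‖w g (w h (w k ζ)) - w (g * h * k) ζ‖
      = ‖(w g (w h (w k ζ)) - w (g * h) (w k ζ)) + (w (g * h) (w k ζ) - w (g * h * k) ζ)‖ := by
        rw [sub_add_sub_cancel]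
    _ ≤ ‖w g (w h (w k ζ)) - w (g * h) (w k ζ)‖ + ‖w (g * h) (w k ζ) - w (g * h * k) ζ‖ :=
        norm_add_le _ _
    _ ≤ δ * ‖w k ζ‖ + δ * ‖ζ‖ := add_le_add h1 h2
    _ ≤ 3 * δ * ‖ζ‖ := by nlinarith [norm_nonneg ζ]

lemma mul4 (hw : AlmostRep w F δ) (hδ0 : 0 ≤ δ) (hδ1 : δ ≤ 1) {g h k l : G} (hg : g ∈ F)
    (hh : h ∈ F) (hk : k ∈ F) (hl : l ∈ F) (hgh : g * h ∈ F) (hghk : g * h * k ∈ F) (ζ : H) :
    ‖w g (w h (w k (w l ζ))) - w (g * h * k * l) ζ‖ ≤ 7 * δ * ‖ζ‖ := by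
  have h1 := mul3 hw hδ0 hδ1 hg hh hk hgh (w l ζ)
  have h2 := mul2 hw hghk hl ζ
  have h3 := nrm hw hδ1 hl ζ
  calc ‖w g (w h (w k (w l ζ))) - w (g * h * k * l) ζ‖
      = ‖(w g (w h (w k (w l ζ))) - w (g * h * k) (w l ζ))
          + (w (g * h * k) (w l ζ) - w (g * h * k * l) ζ)‖ := by
        rw [sub_add_sub_cancel]
    _ ≤ ‖w g (w h (w k (w l ζ))) - w (g * h * k) (w l ζ)‖
          + ‖w (g * h * k) (w l ζ) - w (g * h * k * l) ζ‖ := norm_add_le _ _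
    _ ≤ 3 * δ * ‖w l ζ‖ + δ * ‖ζ‖ := add_le_add h1 h2
    _ ≤ 7 * δ * ‖ζ‖ := by nlinarith [norm_nonneg ζ, mul_nonneg hδ0 (norm_nonneg ζ)]

end Alm

section Main

variable {p : ℕ} [Fact p.Prime] {G : Type} [Group G] (K : KGroup p G)
  {H : Type} [NormedAddCommGroup H] [InnerProductSpace ℂ H]
  [CompleteSpace H] {w : G → H →L[ℂ] H} {δ : ℝ}

lemma card_V3 : Fintype.card (V3 p) = p ^ 3 := by
  rw [Fintype.card_fun, ZMod.card, Fintype.card_fin]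

lemma norm_avg3_le (f : V3 p → H) {M : ℝ} (hf : ∀ m, ‖f m‖ ≤ M) :
    ‖((p : ℂ) ^ 3)⁻¹ • ∑ m, f m‖ ≤ M := by
  have hp : (0 : ℝ) < (p : ℝ) ^ 3 := by
    have := (Fact.out : p.Prime).pos
    positivity
  rw [norm_smul, norm_inv, norm_pow, Complex.norm_natCast, inv_mul_le_iff₀ hp]
  calc ‖∑ m, f m‖ ≤ ∑ m, ‖f m‖ := norm_sum_le _ _
    _ ≤ ∑ _m : V3 p, M := Finset.sum_le_sum fun m _ => hf m
    _ = (p : ℝ) ^ 3 * M := by
      rw [Finset.sum_const, Finset.card_univ, card_V3, nsmul_eq_mul]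
      push_cast
      ring

/-- `M_q ζ = p⁻³ ∑ conj ψ(q·m) w(D m) (w t ζ)` -/
def Mq (w : G → H →L[ℂ] H) (q : V3 p) (ζ : H) : H :=
  ((p : ℂ) ^ 3)⁻¹ • ∑ m : V3 p, conj (psi p (dot q m)) • w (K.D (Multiplicative.ofAdd m))
    (w K.t ζ)

lemma norm_cpsi (j : ZMod p) : ‖conj (psi p j)‖ = 1 := by
  rw [RCLike.norm_conj, norm_psi]

lemma Mq_reindex (q q' : V3 p) (e : V3 p ≃ V3 p) (he : ∀ m, dot q' (e m) = dot q m) (ζ : H) :
    Mq K w q' ζ = ((p : ℂ) ^ 3)⁻¹ • ∑ m : V3 p, conj (psi p (dot q m)) •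
      w (K.D (Multiplicative.ofAdd (e m))) (w K.t ζ) := by
  unfold Mq
  congr 1
  rw [← Equiv.sum_comp e]
  exact Finset.sum_congr rfl fun m _ => by rw [he]

/-- letters `a`, `b` -/
lemma letter_ab (hw : AlmostRep w (F0 K) δ) (hδ0 : 0 ≤ δ) (hδ1 : δ ≤ 1) {s : G}
    (hs : s ∈ S0 K) (e : V3 p ≃ V3 p) (q q' : V3 p) (he : ∀ m, dot q' (e m) = dot q m)
    (hrel : ∀ m, s * K.D (Multiplicative.ofAdd m) * K.t
      = K.D (Multiplicative.ofAdd (e m)) * K.t * s) (ζ ζ' : H) :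
    ‖w s (Mq K w q ζ) - Mq K w q' ζ'‖ ≤ 6 * δ * ‖ζ‖ + 4 * ‖w s ζ - ζ'‖ := by
  rw [Mq_reindex K q q' e he, Mq, map_smul, map_sum, ← smul_sub, ← Finset.sum_sub_distrib]
  refine norm_avg3_le _ fun m => ?_
  rw [map_smul, ← smul_sub, norm_smul, norm_cpsi, one_mul]
  have h1 := mul3 hw hδ0 hδ1 (mem1 hs) (mem1 (D_mem K m)) (mem1 (t_mem K))
    (mem2 hs (D_mem K m)) ζ
  have h2 := mul3 hw hδ0 hδ1 (mem1 (D_mem K (e m))) (mem1 (t_mem K)) (mem1 hs)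
    (mem2 (D_mem K (e m)) (t_mem K)) ζ
  rw [← hrel m] at h2
  have h3 : ‖w (K.D (Multiplicative.ofAdd (e m))) (w K.t (w s ζ - ζ'))‖ ≤ 4 * ‖w s ζ - ζ'‖ := by
    have e1 := nrm hw hδ1 (mem1 (D_mem K (e m))) (w K.t (w s ζ - ζ'))
    have e2 := nrm hw hδ1 (mem1 (t_mem K)) (w s ζ - ζ')
    linarith
  have h4 : w s (w (K.D (Multiplicative.ofAdd m)) (w K.t ζ))
      - w (K.D (Multiplicative.ofAdd (e m))) (w K.t ζ')
      = (w s (w (K.D (Multiplicative.ofAdd m)) (w K.t ζ))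
          - w (s * K.D (Multiplicative.ofAdd m) * K.t) ζ)
        - (w (K.D (Multiplicative.ofAdd (e m))) (w K.t (w s ζ))
          - w (s * K.D (Multiplicative.ofAdd m) * K.t) ζ)
        + w (K.D (Multiplicative.ofAdd (e m))) (w K.t (w s ζ - ζ')) := by
    rw [map_sub (w K.t), map_sub (w (K.D (Multiplicative.ofAdd (e m))))]
    abel
  rw [h4]
  calc _ ≤ ‖(w s (w (K.D (Multiplicative.ofAdd m)) (w K.t ζ))
          - w (s * K.D (Multiplicative.ofAdd m) * K.t) ζ)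
        - (w (K.D (Multiplicative.ofAdd (e m))) (w K.t (w s ζ))
          - w (s * K.D (Multiplicative.ofAdd m) * K.t) ζ)‖
        + ‖w (K.D (Multiplicative.ofAdd (e m))) (w K.t (w s ζ - ζ'))‖ := norm_add_le _ _
    _ ≤ (3 * δ * ‖ζ‖ + 3 * δ * ‖ζ‖) + 4 * ‖w s ζ - ζ'‖ :=
        add_le_add ((norm_sub_le _ _).trans (add_le_add h1 h2)) h3
    _ = _ := by ring

/-- the third coordinate vector -/
abbrev v3 (j : ZMod p) : V3 p := ![0, 0, j]

lemma v3_add (i j : ZMod p) : (v3 (i + j) : V3 p) = v3 i + v3 j := by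
  funext k; fin_cases k <;> simp [v3]

lemma D_v3_add (i j : ZMod p) : K.D (Multiplicative.ofAdd (v3 (i + j)))
    = K.D (Multiplicative.ofAdd (v3 i)) * K.D (Multiplicative.ofAdd (v3 j)) := by
  rw [v3_add, ofAdd_add, map_mul]

lemma psi_add (i j : ZMod p) : psi p (i + j) = psi p i * psi p j := by
  unfold psi
  exact AddChar.map_add_eq_mul _ _ _

lemma psi_zero : psi p (0 : ZMod p) = 1 := by
  unfold psi
  exact AddChar.map_zero_eq_one _

/-- powers of `d` -/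
lemma pow_d (hw : AlmostRep w (F0 K) δ) (hδ0 : 0 ≤ δ) (hδ1 : δ ≤ 1) (r : ZMod p) (ζ : H)
    (j : ℕ) :
    ‖w (K.D (Multiplicative.ofAdd (v3 (j : ZMod p)))) ζ - psi p (r * j) • ζ‖
      ≤ j * (2 * ‖w (K.D (Multiplicative.ofAdd (v3 1))) ζ - psi p r • ζ‖ + δ * ‖ζ‖)
        + δ * ‖ζ‖ := by
  induction j with
  | zero =>
    have h0 : (v3 ((0 : ℕ) : ZMod p) : V3 p) = 0 := by
      funext k; fin_cases k <;> simp [v3]
    rw [h0, ofAdd_zero, map_one, Nat.cast_zero, mul_zero, psi_zero, one_smul, Nat.cast_zero,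
      zero_mul, zero_add]
    calc ‖w 1 ζ - ζ‖ = ‖(w 1 - 1) ζ‖ := rfl
      _ ≤ ‖w 1 - 1‖ * ‖ζ‖ := ContinuousLinearMap.le_opNorm _ _
      _ ≤ δ * ‖ζ‖ := mul_le_mul_of_nonneg_right hw.one (norm_nonneg _)
  | succ j ih =>
    have e1 : w (K.D (Multiplicative.ofAdd (v3 ((j + 1 : ℕ) : ZMod p)))) ζ
        - psi p (r * ((j + 1 : ℕ) : ZMod p)) • ζ
        = -(w (K.D (Multiplicative.ofAdd (v3 (j : ZMod p))))
              (w (K.D (Multiplicative.ofAdd (v3 1))) ζ)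
            - w (K.D (Multiplicative.ofAdd (v3 (j : ZMod p)))
              * K.D (Multiplicative.ofAdd (v3 1))) ζ)
          + w (K.D (Multiplicative.ofAdd (v3 (j : ZMod p))))
              (w (K.D (Multiplicative.ofAdd (v3 1))) ζ - psi p r • ζ)
          + psi p r • (w (K.D (Multiplicative.ofAdd (v3 (j : ZMod p)))) ζ
              - psi p (r * j) • ζ) := by
      rw [Nat.cast_succ, D_v3_add, mul_add, mul_one, psi_add, map_sub, map_smul, smul_sub,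
        smul_smul, mul_comm (psi p r) (psi p (r * j))]
      abel
    have h1 := mul2 hw (mem1 (D_mem K (v3 (j : ZMod p)))) (mem1 (D_mem K (v3 1))) ζ
    have h2 := nrm hw hδ1 (mem1 (D_mem K (v3 (j : ZMod p))))
      (w (K.D (Multiplicative.ofAdd (v3 1))) ζ - psi p r • ζ)
    have h3 : ‖psi p r • (w (K.D (Multiplicative.ofAdd (v3 (j : ZMod p)))) ζ
              - psi p (r * j) • ζ)‖ = ‖w (K.D (Multiplicative.ofAdd (v3 (j : ZMod p)))) ζ
              - psi p (r * j) • ζ‖ := by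
      rw [norm_smul, norm_psi, one_mul]
    rw [e1]
    refine norm_add₃_le.trans ?_
    rw [norm_neg, h3]
    push_cast
    linarith

/-- letter `c` -/
lemma letter_c (hw : AlmostRep w (F0 K) δ) (hδ0 : 0 ≤ δ) (hδ1 : δ ≤ 1) (q : V3 p) (r : ZMod p)
    (ζ ζ' : H) :
    ‖w K.c (Mq K w q ζ) - Mq K w (letC p r q) ζ'‖ ≤ 10 * δ * ‖ζ‖ + 8 * ‖w K.c ζ - ζ'‖
      + 4 * (p * (2 * ‖w (K.D (Multiplicative.ofAdd (v3 1))) ζ' - psi p r • ζ'‖ + δ * ‖ζ'‖)
        + δ * ‖ζ'‖) := by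
  have hM : Mq K w (letC p r q) ζ' = ((p : ℂ) ^ 3)⁻¹ • ∑ m : V3 p, conj (psi p (dot q m)) •
      (psi p (r * m 0) • w (K.D (Multiplicative.ofAdd m)) (w K.t ζ')) := by
    unfold Mq
    congr 1
    refine Finset.sum_congr rfl fun m _ => ?_
    rw [smul_smul]
    congr 1
    have h1 : dot q m = dot (letC p r q) m + r * m 0 := by
      simp only [dot, letC, Equiv.coe_fn_mk, Matrix.cons_val_zero, Matrix.cons_val_one,
        Matrix.cons_val]
      ring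
    rw [h1, psi_add, map_mul, mul_assoc]
    have h2 : conj (psi p (r * m 0)) * psi p (r * m 0) = 1 := by
      rw [Complex.conj_mul', norm_psi]; simp
    rw [h2, mul_one]
  rw [hM, Mq, map_smul, map_sum, ← smul_sub, ← Finset.sum_sub_distrib]
  refine norm_avg3_le _ fun m => ?_
  rw [map_smul, ← smul_sub, norm_smul, norm_cpsi, one_mul]
  set Dm := K.D (Multiplicative.ofAdd m) with hDm
  set d0 := K.D (Multiplicative.ofAdd (v3 (m 0))) with hd0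
  have hDmS : Dm ∈ S0 K := D_mem K m
  have hd0S : d0 ∈ S0 K := D_mem K _
  have hrel : K.c * Dm * K.t = Dm * K.t * d0 * K.c := K.cDt m
  have h1 := mul3 hw hδ0 hδ1 (mem1 (c_mem K)) (mem1 hDmS) (mem1 (t_mem K))
    (mem2 (c_mem K) hDmS) ζ
  have h2 := mul4 hw hδ0 hδ1 (mem1 hDmS) (mem1 (t_mem K)) (mem1 hd0S) (mem1 (c_mem K))
    (mem2 hDmS (t_mem K)) (mem3 hDmS (t_mem K) hd0S) ζ
  rw [← hrel] at h2
  have h3 : ‖w Dm (w K.t (w d0 (w K.c ζ - ζ')))‖ ≤ 8 * ‖w K.c ζ - ζ'‖ := by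
    have e1 := nrm hw hδ1 (mem1 hDmS) (w K.t (w d0 (w K.c ζ - ζ')))
    have e2 := nrm hw hδ1 (mem1 (t_mem K)) (w d0 (w K.c ζ - ζ'))
    have e3 := nrm hw hδ1 (mem1 hd0S) (w K.c ζ - ζ')
    linarith
  have hpd := pow_d K hw hδ0 hδ1 r ζ' (m 0).val
  rw [ZMod.natCast_zmod_val] at hpd
  have hval : ((m 0).val : ℝ) ≤ p := by exact_mod_cast (ZMod.val_lt (m 0)).le
  have hB : 0 ≤ 2 * ‖w (K.D (Multiplicative.ofAdd (v3 1))) ζ' - psi p r • ζ'‖ + δ * ‖ζ'‖ := by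
    positivity
  have h4 : ‖w Dm (w K.t (w d0 ζ' - psi p (r * m 0) • ζ'))‖
      ≤ 4 * (p * (2 * ‖w (K.D (Multiplicative.ofAdd (v3 1))) ζ' - psi p r • ζ'‖ + δ * ‖ζ'‖)
        + δ * ‖ζ'‖) := by
    have e1 := nrm hw hδ1 (mem1 hDmS) (w K.t (w d0 ζ' - psi p (r * m 0) • ζ'))
    have e2 := nrm hw hδ1 (mem1 (t_mem K)) (w d0 ζ' - psi p (r * m 0) • ζ')
    have e3 := mul_le_mul_of_nonneg_right hval hB
    have e4 : ‖w d0 ζ' - psi p (r * m 0) • ζ'‖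
        ≤ p * (2 * ‖w (K.D (Multiplicative.ofAdd (v3 1))) ζ' - psi p r • ζ'‖ + δ * ‖ζ'‖)
          + δ * ‖ζ'‖ := hpd.trans (by linarith)
    linarith
  have h5 : w K.c (w Dm (w K.t ζ)) - psi p (r * m 0) • w Dm (w K.t ζ')
      = (w K.c (w Dm (w K.t ζ)) - w (K.c * Dm * K.t) ζ)
        - (w Dm (w K.t (w d0 (w K.c ζ))) - w (K.c * Dm * K.t) ζ)
        + w Dm (w K.t (w d0 (w K.c ζ - ζ')))
        + w Dm (w K.t (w d0 ζ' - psi p (r * m 0) • ζ')) := by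
    rw [map_sub (w d0), map_sub (w K.t), map_sub (w Dm), map_sub (w K.t), map_sub (w Dm),
      map_smul (w K.t), map_smul (w Dm)]
    abel
  rw [h5]
  calc _ ≤ ‖(w K.c (w Dm (w K.t ζ)) - w (K.c * Dm * K.t) ζ)
        - (w Dm (w K.t (w d0 (w K.c ζ))) - w (K.c * Dm * K.t) ζ)‖
        + ‖w Dm (w K.t (w d0 (w K.c ζ - ζ')))‖
        + ‖w Dm (w K.t (w d0 ζ' - psi p (r * m 0) • ζ'))‖ := norm_add₃_le
    _ ≤ (3 * δ * ‖ζ‖ + 7 * δ * ‖ζ‖) + 8 * ‖w K.c ζ - ζ'‖ + _ :=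
        add_le_add (add_le_add ((norm_sub_le _ _).trans (add_le_add h1 h2)) h3) h4
    _ = _ := by ring

/-- letter `d` -/
lemma letter_d (hw : AlmostRep w (F0 K) δ) (hδ0 : 0 ≤ δ) (hδ1 : δ ≤ 1) (q : V3 p) (ζ : H) :
    ‖w (K.D (Multiplicative.ofAdd (v3 1))) (Mq K w q ζ) - psi p (q 2) • Mq K w q ζ‖
      ≤ 2 * δ * ‖ζ‖ := by
  have hM : psi p (q 2) • Mq K w q ζ = ((p : ℂ) ^ 3)⁻¹ • ∑ m : V3 p, conj (psi p (dot q m)) •
      w (K.D (Multiplicative.ofAdd (v3 1 + m))) (w K.t ζ) := by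
    unfold Mq
    rw [smul_comm]
    congr 1
    rw [← Equiv.sum_comp (Equiv.addLeft (v3 (1 : ZMod p) : V3 p)), Finset.smul_sum]
    refine Finset.sum_congr rfl fun m _ => ?_
    rw [smul_smul]
    congr 1
    have h1 : dot q (Equiv.addLeft (v3 (1 : ZMod p) : V3 p) m) = q 2 + dot q m := by
      simp only [dot, Equiv.coe_addLeft, Pi.add_apply, v3, Matrix.cons_val_zero,
        Matrix.cons_val_one, Matrix.cons_val]
      ring
    rw [h1, psi_add, map_mul, ← mul_assoc]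
    have h2 : psi p (q 2) * conj (psi p (q 2)) = 1 := by
      rw [Complex.mul_conj', norm_psi]; simp
    rw [h2, one_mul]
  rw [hM, Mq, map_smul, map_sum, ← smul_sub, ← Finset.sum_sub_distrib]
  refine norm_avg3_le _ fun m => ?_
  rw [map_smul, ← smul_sub, norm_smul, norm_cpsi, one_mul, ofAdd_add, map_mul]
  have h1 := mul2 hw (mem1 (D_mem K (v3 1))) (mem1 (D_mem K m)) (w K.t ζ)
  have h2 := nrm hw hδ1 (mem1 (t_mem K)) ζ
  nlinarith

/-- orthogonality of characters -/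
lemma sum_conj_psi (m : V3 p) (hm : m ≠ 0) : ∑ q : V3 p, conj (psi p (dot q m)) = 0 := by
  obtain ⟨i, hi⟩ : ∃ i, m i ≠ 0 := by
    by_contra hc
    push Not at hc
    exact hm (funext hc)
  set q' : V3 p := Pi.single i 1 with hq'
  have hdot : dot q' m = m i := by
    fin_cases i <;> simp [dot, hq', Pi.single_apply]
  have hne : conj (psi p (dot q' m)) ≠ 1 := by
    rw [hdot]
    intro h
    have h1 : psi p (m i) = psi p 0 := by
      rw [psi_zero]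
      have := congrArg conj h
      rw [Complex.conj_conj, map_one] at this
      exact this
    exact hi (SigmaIrr.psi_injective h1)
  have hshift : ∑ q : V3 p, conj (psi p (dot q m))
      = conj (psi p (dot q' m)) * ∑ q : V3 p, conj (psi p (dot q m)) := by
    conv_lhs => rw [← Equiv.sum_comp (Equiv.addLeft q')]
    rw [Finset.mul_sum]
    refine Finset.sum_congr rfl fun q _ => ?_
    have h1 : dot (Equiv.addLeft q' q) m = dot q' m + dot q m := by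
      simp only [dot, Equiv.coe_addLeft, Pi.add_apply]
      ring
    rw [h1, psi_add, map_mul]
  have h2 : (1 - conj (psi p (dot q' m))) * ∑ q : V3 p, conj (psi p (dot q m)) = 0 := by
    rw [sub_mul, one_mul, ← hshift, sub_self]
  rcases mul_eq_zero.mp h2 with h3 | h3
  · exact absurd (sub_eq_zero.mp h3).symm hne
  · exact h3

lemma sum_Mq (ζ : H) : ∑ q : V3 p, Mq K w q ζ = w 1 (w K.t ζ) := by
  unfold Mq
  rw [← Finset.smul_sum, Finset.sum_comm]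
  have hp : ((p : ℂ) ^ 3) ≠ 0 := by
    have := (Fact.out : p.Prime).ne_zero
    positivity
  rw [Finset.sum_eq_single (0 : V3 p)]
  · have h1 : ∀ q : V3 p, conj (psi p (dot q (0 : V3 p))) = 1 := by
      intro q
      have : dot q (0 : V3 p) = 0 := by simp [dot]
      rw [this, psi_zero, map_one]
    simp only [h1, one_smul, Finset.sum_const, Finset.card_univ, card_V3]
    rw [ofAdd_zero, map_one, ← Nat.cast_smul_eq_nsmul ℂ, smul_smul]
    push_cast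
    rw [inv_mul_cancel₀ hp, one_smul]
  · intro m _ hm
    rw [← Finset.sum_smul, sum_conj_psi m hm, zero_smul]
  · intro h; exact absurd (Finset.mem_univ _) h

/-- lower bound -/
lemma lower (hw : AlmostRep w (F0 K) δ) (hδ0 : 0 ≤ δ) (hδ1 : δ ≤ 1 / 8) (ζ : H) :
    ‖ζ‖ ≤ 4 * ∑ q : V3 p, ‖Mq K w q ζ‖ := by
  have hδ1' : δ ≤ 1 := by linarith
  have h1 := mul2 hw (mem1 (ti_mem K)) (mem1 (t_mem K)) ζ
  rw [inv_mul_cancel] at h1
  have hone : ∀ z : H, ‖w 1 z - z‖ ≤ δ * ‖z‖ := fun z => by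
    calc ‖w 1 z - z‖ = ‖(w 1 - 1) z‖ := rfl
      _ ≤ ‖w 1 - 1‖ * ‖z‖ := ContinuousLinearMap.le_opNorm _ _
      _ ≤ δ * ‖z‖ := mul_le_mul_of_nonneg_right hw.one (norm_nonneg _)
  have h2 := hone ζ
  have h3 := hone (w K.t ζ)
  have h4 := nrm hw hδ1' (mem1 (ti_mem K)) (w K.t ζ)
  have h5 : ‖ζ‖ ≤ ‖w K.t⁻¹ (w K.t ζ)‖ + δ * ‖ζ‖ + δ * ‖ζ‖ := by
    calc ‖ζ‖ = ‖w K.t⁻¹ (w K.t ζ) - (w K.t⁻¹ (w K.t ζ) - w 1 ζ) - (w 1 ζ - ζ)‖ := by
          congr 1; abel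
      _ ≤ ‖w K.t⁻¹ (w K.t ζ) - (w K.t⁻¹ (w K.t ζ) - w 1 ζ)‖ + ‖w 1 ζ - ζ‖ := norm_sub_le _ _
      _ ≤ (‖w K.t⁻¹ (w K.t ζ)‖ + ‖w K.t⁻¹ (w K.t ζ) - w 1 ζ‖) + ‖w 1 ζ - ζ‖ := by
          gcongr; exact norm_sub_le _ _
      _ ≤ _ := by linarith
  have h6 : ‖w K.t ζ‖ ≤ ‖w 1 (w K.t ζ)‖ + δ * ‖w K.t ζ‖ := by
    calc ‖w K.t ζ‖ = ‖w 1 (w K.t ζ) - (w 1 (w K.t ζ) - w K.t ζ)‖ := by congr 1; abel
      _ ≤ ‖w 1 (w K.t ζ)‖ + ‖w 1 (w K.t ζ) - w K.t ζ‖ := norm_sub_le _ _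
      _ ≤ _ := by linarith
  have h7 : ‖w 1 (w K.t ζ)‖ ≤ ∑ q : V3 p, ‖Mq K w q ζ‖ := by
    rw [← sum_Mq K (w := w) ζ]
    exact norm_sum_le _ _
  have n1 := norm_nonneg ζ
  have n2 := norm_nonneg (w K.t ζ)
  have h8 : δ * ‖ζ‖ ≤ 1 / 8 * ‖ζ‖ := mul_le_mul_of_nonneg_right hδ1 n1
  have h9 : δ * ‖w K.t ζ‖ ≤ 1 / 8 * ‖w K.t ζ‖ := mul_le_mul_of_nonneg_right hδ1 n2
  linarith

end Main

end Step

end

end Crest.Agent.R073
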