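import Crest.Agent.R073.Stmts
import Crest.Agent.R73.NormAttain
import Crest.Agent.R73.Rank
import Crest.Agent.R073.SigmaIrr_Mg
import Crest.Agent.R073.StepA
import Crest.Agent.R073.Defs

-- ▼ part R073/Rep
section

/-! Row 73, module M2 in the frozen form. -/

set_option autoImplicit false

namespace Crest.Agent.R073

theorem stmtRep : StmtRep := fun O _ _ h => Crest.Agent.R73.exists_norm_attaining O h

end Crest.Agent.R073
end

-- ▼ part R073/Mat
section

/-!
Row 73 (S0098), module M4b: `StmtMat`.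
-/

set_option autoImplicit false

namespace Crest.Agent.R073

open scoped Matrix ComplexConjugate
open Crest.Agent.R73.Rank

theorem Mat.frob_comm {ι : Type} [Fintype ι] [DecidableEq ι] (U : Matrix.unitaryGroup ι ℂ)
    (R : Matrix ι ι ℂ) :
    frob ((U : Matrix ι ι ℂ) * R - R * (U : Matrix ι ι ℂ)) =
      fro (R - (U : Matrix ι ι ℂ)ᴴ * R * (U : Matrix ι ι ℂ)) := by
  have h1 : (U : Matrix ι ι ℂ) * (U : Matrix ι ι ℂ)ᴴ = 1 := by
    rw [← Matrix.star_eq_conjTranspose]; exact Unitary.coe_mul_star_self U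
  have h2 : (U : Matrix ι ι ℂ)ᴴ * (U : Matrix ι ι ℂ) = 1 := by
    rw [← Matrix.star_eq_conjTranspose]; exact Unitary.coe_star_mul_self U
  have e : (U : Matrix ι ι ℂ) * R - R * (U : Matrix ι ι ℂ) =
      (U : Matrix ι ι ℂ) * (R - (U : Matrix ι ι ℂ)ᴴ * R * (U : Matrix ι ι ℂ)) := by
    rw [Matrix.mul_sub, Matrix.mul_assoc (U : Matrix ι ι ℂ)ᴴ, ← Matrix.mul_assoc (U : Matrix ι ι ℂ),
      h1, Matrix.one_mul]
  rw [e]
  exact fro_unitary_mul _ _ h2

theorem stmtMat (p : ℕ) : StmtMat p := by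
  refine ⟨26 * (p : ℝ) ^ 2 + 1, by nlinarith [sq_nonneg (p : ℝ)], ?_⟩
  intro k ι _ _ _ U hexp T α η hη0 hη1 hT h1 h2
  have hT' : fro T = 1 := hT
  have hgap : ∀ X : Matrix ι ι ℂ,
      (5 / 8 : ℝ) * fro (X - (X.trace / (Fintype.card ι : ℂ)) • (1 : Matrix ι ι ℂ)) ≤
        (p : ℝ) ^ 2 * ∑ s, fro (X - (U s : Matrix ι ι ℂ)ᴴ * X * (U s : Matrix ι ι ℂ)) := by
    intro X
    rw [fro_sub_scalar]
    have := hexp X
    simp_rw [Mat.frob_comm] at this
    exact this
  have key := rank_gap (fun s => (U s : Matrix ι ι ℂ))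
    (fun s => by rw [← Matrix.star_eq_conjTranspose]; exact Unitary.coe_mul_star_self (U s))
    (5 / 8) ((p : ℝ) ^ 2) (by norm_num) (sq_nonneg _) hgap α T (by rw [hT']; norm_num) η hη0 hη1
    (fun s => by rw [hT', mul_one]; exact h1 s) (fun s => by rw [hT', mul_one]; exact h2 s)
  rw [Fintype.card_fin, Fintype.card_fin] at key
  push_cast at key
  nlinarith [mul_nonneg (sq_nonneg (p : ℝ)) hη0]

end Crest.Agent.R073
end

-- ▼ part R073/Sigma
section

/-!
Row 73, M5: the frozen statement `StmtSigma`.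
-/

set_option autoImplicit false

namespace Crest.Agent.R073

theorem stmtSigma (p : ℕ) [Fact p.Prime] : StmtSigma p := fun n =>
  ⟨sigma_pairRel p n, fun R h => sigma_irr p n R h, card_Y p n⟩

end Crest.Agent.R073
end

-- ▼ part R073/Step
section

/-!
Row 73, M7b: `StmtStep`.
-/

set_option autoImplicit false

namespace Crest.Agent.R073

open scoped ComplexConjugate InnerProductSpace
open Finset

noncomputable section

namespace Step

variable {p : ℕ} [Fact p.Prime] {G : Type} [Group G] (K : KGroup p G)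
  {H : Type} [NormedAddCommGroup H] [InnerProductSpace ℂ H]
  [CompleteSpace H] {w : G → H →L[ℂ] H} {δ : ℝ} {n : ℕ}

/-- the new vector -/
def Tn (w : G → H →L[ℂ] H) (T : PiLp 2 (fun _ : Y p n => H)) :
    PiLp 2 (fun _ : Y p (n + 1) => H) :=
  WithLp.toLp 2 (fun z : V3 p × Y p n => Mq K w z.1 (T z.2))

lemma Tn_apply (w : G → H →L[ℂ] H) (T : PiLp 2 (fun _ : Y p n => H)) (q : V3 p) (y : Y p n) :
    (Tn K w T) ((q, y) : V3 p × Y p n) = Mq K w q (T y) := rfl

omit [CompleteSpace H] in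
lemma norm_sq_succ (Z : PiLp 2 (fun _ : Y p (n + 1) => H)) :
    ‖Z‖ ^ 2 = ∑ q : V3 p, ∑ y : Y p n, ‖Z ((q, y) : V3 p × Y p n)‖ ^ 2 := by
  rw [PiLp.norm_sq_eq_of_L2]
  exact Fintype.sum_prod_type (fun z : V3 p × Y p n => ‖Z z‖ ^ 2)

lemma cubic (p : ℕ) (hp : 1 ≤ p) (x : ℝ) : (p : ℝ) ^ 3 * x ^ 2 ≤ ((p : ℝ) ^ 2 * x) ^ 2 := by
  have h1 : (1 : ℝ) ≤ p := by exact_mod_cast hp
  have h2 : (p : ℝ) ^ 3 ≤ (p : ℝ) ^ 4 := pow_le_pow_right₀ h1 (by norm_num)
  calc (p : ℝ) ^ 3 * x ^ 2 ≤ (p : ℝ) ^ 4 * x ^ 2 := mul_le_mul_of_nonneg_right h2 (sq_nonneg x)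
    _ = ((p : ℝ) ^ 2 * x) ^ 2 := by ring

omit [CompleteSpace H] in
lemma fiber (Z : PiLp 2 (fun _ : Y p (n + 1) => H)) (σ : Equiv.Perm (Y p (n + 1)))
    (B : PiLp 2 (fun _ : Y p n => ℝ))
    (h : ∀ (q : V3 p) (y : Y p n), ‖Z (σ ((q, y) : V3 p × Y p n))‖ ≤ B y) :
    ‖Z‖ ≤ (p : ℝ) ^ 2 * ‖B‖ := by
  have hp := (Fact.out : p.Prime).one_le
  have h1 : ‖Z‖ ^ 2 = ∑ q : V3 p, ∑ y : Y p n, ‖Z (σ ((q, y) : V3 p × Y p n))‖ ^ 2 := by
    rw [PiLp.norm_sq_eq_of_L2, ← Equiv.sum_comp σ]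
    exact Fintype.sum_prod_type (fun z : V3 p × Y p n => ‖Z (σ z)‖ ^ 2)
  have h2 : ‖B‖ ^ 2 = ∑ y : Y p n, B y ^ 2 := by
    rw [PiLp.norm_sq_eq_of_L2]
    exact Finset.sum_congr rfl fun y _ => by rw [Real.norm_eq_abs, sq_abs]
  have h3 : ‖Z‖ ^ 2 ≤ (p : ℝ) ^ 3 * ‖B‖ ^ 2 := by
    rw [h1, h2]
    calc _ ≤ ∑ _q : V3 p, ∑ y : Y p n, B y ^ 2 :=
          Finset.sum_le_sum fun q _ => Finset.sum_le_sum fun y _ =>
            pow_le_pow_left₀ (norm_nonneg _) (h q y) 2
      _ = (p : ℝ) ^ 3 * ∑ y : Y p n, B y ^ 2 := by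
          rw [Finset.sum_const, Finset.card_univ, card_V3, nsmul_eq_mul]
          push_cast
          ring
  exact (pow_le_pow_iff_left₀ (norm_nonneg _) (by positivity) two_ne_zero).mp
    (h3.trans (cubic p hp _))

/-- the vector of norms -/
def nv (f : PiLp 2 (fun _ : Y p n => H)) (σ : Equiv.Perm (Y p n)) :
    PiLp 2 (fun _ : Y p n => ℝ) :=
  WithLp.toLp 2 (fun y => ‖f (σ y)‖)

omit [CompleteSpace H] in
lemma nv_apply (f : PiLp 2 (fun _ : Y p n => H)) (σ : Equiv.Perm (Y p n)) (y : Y p n) :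
    nv f σ y = ‖f (σ y)‖ := rfl

omit [CompleteSpace H] in
lemma norm_nv (f : PiLp 2 (fun _ : Y p n => H)) (σ : Equiv.Perm (Y p n)) : ‖nv f σ‖ = ‖f‖ := by
  have h : ‖nv f σ‖ ^ 2 = ‖f‖ ^ 2 := by
    rw [PiLp.norm_sq_eq_of_L2, PiLp.norm_sq_eq_of_L2,
      ← Equiv.sum_comp σ (fun y => ‖f y‖ ^ 2)]
    exact Finset.sum_congr rfl fun y _ => by rw [nv_apply, norm_norm]
  exact (sq_eq_sq₀ (norm_nonneg _) (norm_nonneg _)).mp h

omit [CompleteSpace H] in
lemma tens_mono (E : H →L[ℂ] H) (σ : Equiv.Perm (Y p n)) (lam : Y p n → ℂ)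
    (T : PiLp 2 (fun _ : Y p n => H)) (y : Y p n) :
    tens E (monoM σ lam) T (σ y) = conj (lam y) • E (T y) := by
  rw [tens_monoM_apply, Equiv.symm_apply_apply]

/-- primal `e12` as an equivalence -/
def eqA (p : ℕ) : V3 p ≃ V3 p where
  toFun := e12
  invFun m := ![m 0 - m 1, m 1, m 2]
  left_inv m := by funext i; fin_cases i <;> simp [e12]
  right_inv m := by funext i; fin_cases i <;> simp [e12]

/-- primal `e23` as an equivalence -/
def eqB (p : ℕ) : V3 p ≃ V3 p where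
  toFun := e23
  invFun m := ![m 0, m 1 - m 2, m 2]
  left_inv m := by funext i; fin_cases i <;> simp [e23]
  right_inv m := by funext i; fin_cases i <;> simp [e23]

lemma dot_A (q m : V3 p) : dot (letA p q) (eqA p m) = dot q m := by
  simp only [dot, letA, eqA, e12, Equiv.coe_fn_mk, Matrix.cons_val_zero, Matrix.cons_val_one,
    Matrix.cons_val]
  ring

lemma dot_B (q m : V3 p) : dot (letB p q) (eqB p m) = dot q m := by
  simp only [dot, letB, eqB, e23, Equiv.coe_fn_mk, Matrix.cons_val_zero, Matrix.cons_val_one,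
    Matrix.cons_val]
  ring

omit [CompleteSpace H] in
lemma norm_conj_smul_sub (j : ZMod p) (u v : H) :
    ‖conj (psi p j) • u - v‖ = ‖u - psi p j • v‖ := by
  have h2 : psi p j * conj (psi p j) = 1 := by
    rw [Complex.mul_conj', norm_psi]; simp
  have h1 : u - psi p j • v = psi p j • (conj (psi p j) • u - v) := by
    rw [smul_sub, smul_smul, h2, one_smul]
  rw [h1, norm_smul, norm_psi, one_mul]

lemma step_a (hw : AlmostRep w (F0 K) δ) (hδ0 : 0 ≤ δ) (hδ1 : δ ≤ 1)
    (T : PiLp 2 (fun _ : Y p n => H)) :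
    ‖tens (w K.a) (monoM (permA p (n + 1)) (fun _ => 1)) (Tn K w T) - Tn K w T‖
      ≤ (p : ℝ) ^ 2 * (6 * δ * ‖T‖
        + 4 * ‖tens (w K.a) (monoM (permA p n) (fun _ => 1)) T - T‖) := by
  set R := tens (w K.a) (monoM (permA p n) (fun _ => 1)) T - T with hR
  have hRy : ∀ y, R (permA p n y) = w K.a (T y) - T (permA p n y) := fun y => by
    rw [hR, PiLp.sub_apply, tens_mono, map_one, one_smul]
  have hB : ‖((6 * δ) • nv T (Equiv.refl _) + (4 : ℝ) • nv R (permA p n) :
      PiLp 2 (fun _ : Y p n => ℝ))‖ ≤ 6 * δ * ‖T‖ + 4 * ‖R‖ := by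
    refine (norm_add_le _ _).trans ?_
    rw [norm_smul, norm_smul, norm_nv, norm_nv, Real.norm_of_nonneg (by positivity),
      Real.norm_of_nonneg (by norm_num)]
  refine (fiber _ (permA p (n + 1)) _ fun q y => ?_).trans
    (mul_le_mul_of_nonneg_left hB (by positivity))
  rw [PiLp.sub_apply, tens_mono, map_one, one_smul, Tn_apply]
  have h1 := letter_ab K hw hδ0 hδ1 (a_mem K) (eqA p) q (letA p q) (dot_A q)
    (fun m => by
      show K.a * _ * K.t = K.D (Multiplicative.ofAdd (e12 m)) * K.t * K.a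
      rw [K.aD, mul_assoc, ← K.ta, mul_assoc]) (T y) (T (permA p n y))
  rw [← hRy] at h1
  exact h1

lemma step_b (hw : AlmostRep w (F0 K) δ) (hδ0 : 0 ≤ δ) (hδ1 : δ ≤ 1)
    (T : PiLp 2 (fun _ : Y p n => H)) :
    ‖tens (w K.b) (monoM (permB p (n + 1)) (fun _ => 1)) (Tn K w T) - Tn K w T‖
      ≤ (p : ℝ) ^ 2 * (6 * δ * ‖T‖
        + 4 * ‖tens (w K.b) (monoM (permB p n) (fun _ => 1)) T - T‖) := by
  set R := tens (w K.b) (monoM (permB p n) (fun _ => 1)) T - T with hR
  have hRy : ∀ y, R (permB p n y) = w K.b (T y) - T (permB p n y) := fun y => by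
    rw [hR, PiLp.sub_apply, tens_mono, map_one, one_smul]
  have hB : ‖((6 * δ) • nv T (Equiv.refl _) + (4 : ℝ) • nv R (permB p n) :
      PiLp 2 (fun _ : Y p n => ℝ))‖ ≤ 6 * δ * ‖T‖ + 4 * ‖R‖ := by
    refine (norm_add_le _ _).trans ?_
    rw [norm_smul, norm_smul, norm_nv, norm_nv, Real.norm_of_nonneg (by positivity),
      Real.norm_of_nonneg (by norm_num)]
  refine (fiber _ (permB p (n + 1)) _ fun q y => ?_).trans
    (mul_le_mul_of_nonneg_left hB (by positivity))
  rw [PiLp.sub_apply, tens_mono, map_one, one_smul, Tn_apply]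
  have h1 := letter_ab K hw hδ0 hδ1 (b_mem K) (eqB p) q (letB p q) (dot_B q)
    (fun m => by
      show K.b * _ * K.t = K.D (Multiplicative.ofAdd (e23 m)) * K.t * K.b
      rw [K.bD, mul_assoc, ← K.tb, mul_assoc]) (T y) (T (permB p n y))
  rw [← hRy] at h1
  exact h1

lemma step_c (hw : AlmostRep w (F0 K) δ) (hδ0 : 0 ≤ δ) (hδ1 : δ ≤ 1)
    (T : PiLp 2 (fun _ : Y p n => H)) :
    ‖tens (w K.c) (monoM (permC p (n + 1)) (fun _ => 1)) (Tn K w T) - Tn K w T‖
      ≤ (p : ℝ) ^ 2 * (10 * δ * ‖T‖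
        + 8 * ‖tens (w K.c) (monoM (permC p n) (fun _ => 1)) T - T‖
        + 8 * p * ‖tens (w (K.D (Multiplicative.ofAdd ![0, 0, 1])))
            (monoM (Equiv.refl _) (fun y => psi p (hd y 2))) T - T‖
        + (4 * p + 4) * δ * ‖T‖) := by
  set R := tens (w K.c) (monoM (permC p n) (fun _ => 1)) T - T with hR
  set Rd := tens (w (K.D (Multiplicative.ofAdd ![0, 0, 1])))
            (monoM (Equiv.refl _) (fun y => psi p (hd y 2))) T - T with hRd
  have hRy : ∀ y, R (permC p n y) = w K.c (T y) - T (permC p n y) := fun y => by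
    rw [hR, PiLp.sub_apply, tens_mono, map_one, one_smul]
  have hRdy : ∀ y, ‖Rd y‖ = ‖w (K.D (Multiplicative.ofAdd ![0, 0, 1])) (T y)
      - psi p (hd y 2) • T y‖ := fun y => by
    rw [hRd, PiLp.sub_apply]
    have := tens_mono (w (K.D (Multiplicative.ofAdd ![0, 0, 1]))) (Equiv.refl (Y p n))
      (fun y => psi p (hd y 2)) T y
    rw [Equiv.refl_apply] at this
    rw [this, norm_conj_smul_sub]
  have hB : ‖((10 * δ) • nv T (Equiv.refl _) + (8 : ℝ) • nv R (permC p n)
      + (8 * p : ℝ) • nv Rd (permC p n) + ((4 * p + 4) * δ) • nv T (permC p n) :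
      PiLp 2 (fun _ : Y p n => ℝ))‖ ≤ 10 * δ * ‖T‖ + 8 * ‖R‖ + 8 * p * ‖Rd‖
        + (4 * p + 4) * δ * ‖T‖ := by
    refine (norm_add_le _ _).trans ?_
    refine (add_le_add_left norm_add₃_le _).trans ?_
    rw [norm_smul, norm_smul, norm_smul, norm_smul, norm_nv, norm_nv, norm_nv, norm_nv,
      Real.norm_of_nonneg (by positivity), Real.norm_of_nonneg (by norm_num),
      Real.norm_of_nonneg (by positivity), Real.norm_of_nonneg (by positivity)]
  refine (fiber _ (permC p (n + 1)) _ fun q y => ?_).trans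
    (mul_le_mul_of_nonneg_left hB (by positivity))
  rw [PiLp.sub_apply, tens_mono, map_one, one_smul, Tn_apply]
  have h1 := letter_c K hw hδ0 hδ1 q (hd y 2) (T y) (T (permC p n y))
  rw [← hRy] at h1
  have h2 := hRdy (permC p n y)
  have h3 : hd (permC p n y) 2 = hd y 2 := by
    rw [SigmaRel.hd_permC]; simp
  rw [h3] at h2
  change _ ≤ (10 * δ) * ‖T y‖ + 8 * ‖R (permC p n y)‖ + (8 * p) * ‖Rd (permC p n y)‖
    + ((4 * p + 4) * δ) * ‖T (permC p n y)‖
  have h4 : w (K.D (Multiplicative.ofAdd (v3 1))) (T (permC p n y))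
      - psi p (hd y 2) • T (permC p n y)
      = w (K.D (Multiplicative.ofAdd ![0, 0, 1])) (T (permC p n y))
      - psi p (hd y 2) • T (permC p n y) := rfl
  rw [h4, ← h2] at h1
  refine (le_of_eq ?_).trans (h1.trans (le_of_eq ?_))
  · rfl
  · ring

lemma step_d (hw : AlmostRep w (F0 K) δ) (hδ0 : 0 ≤ δ) (hδ1 : δ ≤ 1)
    (T : PiLp 2 (fun _ : Y p n => H)) :
    ‖tens (w (K.D (Multiplicative.ofAdd ![0, 0, 1])))
        (monoM (Equiv.refl _) (fun y => psi p (hd y 2))) (Tn K w T) - Tn K w T‖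
      ≤ (p : ℝ) ^ 2 * (2 * δ * ‖T‖) := by
  have hB : ‖((2 * δ) • nv T (Equiv.refl _) : PiLp 2 (fun _ : Y p n => ℝ))‖ ≤ 2 * δ * ‖T‖ := by
    rw [norm_smul, norm_nv, Real.norm_of_nonneg (by positivity)]
  refine (fiber _ (Equiv.refl _) _ fun q y => ?_).trans
    (mul_le_mul_of_nonneg_left hB (by positivity))
  rw [PiLp.sub_apply, tens_mono, Equiv.refl_apply, norm_conj_smul_sub, Tn_apply]
  exact letter_d K hw hδ0 hδ1 q (T y)

lemma lower2 (hw : AlmostRep w (F0 K) δ) (hδ0 : 0 ≤ δ) (hδ1 : δ ≤ 1 / 8)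
    (T : PiLp 2 (fun _ : Y p n => H)) : ‖T‖ ≤ 4 * (p : ℝ) ^ 2 * ‖Tn K w T‖ := by
  have hp := (Fact.out : p.Prime).one_le
  have h1 : ‖T‖ ^ 2 ≤ 16 * ((p : ℝ) ^ 3 * ‖Tn K w T‖ ^ 2) := by
    rw [norm_sq_succ, PiLp.norm_sq_eq_of_L2, Finset.sum_comm, Finset.mul_sum, Finset.mul_sum]
    refine Finset.sum_le_sum fun y _ => ?_
    have e1 := lower K hw hδ0 hδ1 (T y)
    have e2 : (∑ q : V3 p, ‖Mq K w q (T y)‖) ^ 2
        ≤ (p : ℝ) ^ 3 * ∑ q : V3 p, ‖Mq K w q (T y)‖ ^ 2 := by
      have := sq_sum_le_card_mul_sum_sq (s := (Finset.univ : Finset (V3 p)))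
        (f := fun q => ‖Mq K w q (T y)‖)
      rw [Finset.card_univ, card_V3] at this
      push_cast at this
      exact this
    have e3 : ‖T y‖ ^ 2 ≤ (4 * ∑ q : V3 p, ‖Mq K w q (T y)‖) ^ 2 :=
      pow_le_pow_left₀ (norm_nonneg _) e1 2
    calc ‖T y‖ ^ 2 ≤ (4 * ∑ q : V3 p, ‖Mq K w q (T y)‖) ^ 2 := e3
      _ = 16 * (∑ q : V3 p, ‖Mq K w q (T y)‖) ^ 2 := by ring
      _ ≤ 16 * ((p : ℝ) ^ 3 * ∑ q : V3 p, ‖Mq K w q (T y)‖ ^ 2) := by linarith
  have h2 := cubic p hp ‖Tn K w T‖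
  have h3 : ‖T‖ ^ 2 ≤ (4 * (p : ℝ) ^ 2 * ‖Tn K w T‖) ^ 2 := by
    calc ‖T‖ ^ 2 ≤ 16 * ((p : ℝ) ^ 3 * ‖Tn K w T‖ ^ 2) := h1
      _ ≤ 16 * ((p : ℝ) ^ 2 * ‖Tn K w T‖) ^ 2 := by linarith
      _ = (4 * (p : ℝ) ^ 2 * ‖Tn K w T‖) ^ 2 := by ring
  exact (pow_le_pow_iff_left₀ (norm_nonneg _) (by positivity) two_ne_zero).mp h3

end Step

open Step in
theorem stmtStep (p : ℕ) [Fact p.Prime] : StmtStep p := by
  intro G _ K
  have hp2 : (2 : ℝ) ≤ p := by exact_mod_cast (Fact.out : p.Prime).two_le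
  have hp5 : (1 : ℝ) ≤ (p : ℝ) ^ 5 := one_le_pow₀ (by linarith)
  refine ⟨F0 K, 80 * (p : ℝ) ^ 5, F0_finite K, by linarith, ?_⟩
  intro H _ _ _ w δ hδ0 hCδ hw n η hη0 hη1 ⟨T, hT1, hT⟩
  have hδ8 : δ ≤ 1 / 8 := by
    have : 80 * δ ≤ 80 * (p : ℝ) ^ 5 * δ := by nlinarith
    linarith
  have hδ1 : δ ≤ 1 := by linarith
  have hTa : ‖tens (w K.a) (monoM (permA p n) (fun _ => 1)) T - T‖ ≤ η := hT 0
  have hTb : ‖tens (w K.b) (monoM (permB p n) (fun _ => 1)) T - T‖ ≤ η := hT 1
  have hTc : ‖tens (w K.c) (monoM (permC p n) (fun _ => 1)) T - T‖ ≤ η := hT 2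
  have hTd : ‖tens (w (K.D (Multiplicative.ofAdd ![0, 0, 1])))
    (monoM (Equiv.refl _) (fun y => psi p (hd y 2))) T - T‖ ≤ η := hT 3
  have hlow := lower2 K hw hδ0 hδ8 T
  rw [hT1] at hlow
  set T' := Tn K w T with hT'
  have hpos : 0 < ‖T'‖ := by
    by_contra hc
    have : ‖T'‖ = 0 := le_antisymm (not_lt.mp hc) (norm_nonneg _)
    rw [this] at hlow
    linarith
  have hbound : ∀ s, ‖tens (w (K.gen s)) (sigmaU p (n + 1) s : Matrix (Y p (n + 1)) (Y p (n + 1)) ℂ)
      T' - T'‖ ≤ (p : ℝ) ^ 2 * (20 * p * (η + δ)) := by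
    have h0 := step_a K hw hδ0 hδ1 T
    have h1 := step_b K hw hδ0 hδ1 T
    have h2 := step_c K hw hδ0 hδ1 T
    have h3 := step_d K hw hδ0 hδ1 T
    rw [hT1] at h0 h1 h2 h3
    have hpp : (0 : ℝ) ≤ (p : ℝ) ^ 2 := by positivity
    have hpd : 2 * δ ≤ p * δ := mul_le_mul_of_nonneg_right hp2 hδ0
    have hph : 2 * η ≤ p * η := mul_le_mul_of_nonneg_right hp2 hη0
    intro s
    fin_cases s
    · refine h0.trans (mul_le_mul_of_nonneg_left ?_ hpp)
      linarith
    · refine h1.trans (mul_le_mul_of_nonneg_left ?_ hpp)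
      linarith
    · refine h2.trans (mul_le_mul_of_nonneg_left ?_ hpp)
      have : 8 * (p : ℝ) * ‖tens (w (K.D (Multiplicative.ofAdd ![0, 0, 1])))
        (monoM (Equiv.refl _) (fun y => psi p (hd y 2))) T - T‖ ≤ 8 * p * η :=
        mul_le_mul_of_nonneg_left hTd (by positivity)
      nlinarith
    · refine h3.trans (mul_le_mul_of_nonneg_left ?_ hpp)
      linarith
  refine ⟨((‖T'‖ : ℂ))⁻¹ • T', ?_, fun s => ?_⟩
  · rw [norm_smul, norm_inv, Complex.norm_real, norm_norm, inv_mul_cancel₀ hpos.ne']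
  · rw [map_smul, ← smul_sub, norm_smul, norm_inv, Complex.norm_real, norm_norm,
      inv_mul_le_iff₀ hpos]
    refine (hbound s).trans ?_
    have hηδ : 0 ≤ η + δ := by linarith
    have h1 : (p : ℝ) ^ 2 * (20 * p * (η + δ)) * 1
        ≤ (p : ℝ) ^ 2 * (20 * p * (η + δ)) * (4 * (p : ℝ) ^ 2 * ‖T'‖) :=
      mul_le_mul_of_nonneg_left hlow (by positivity)
    calc (p : ℝ) ^ 2 * (20 * p * (η + δ)) = (p : ℝ) ^ 2 * (20 * p * (η + δ)) * 1 := by ring
      _ ≤ _ := h1
      _ = ‖T'‖ * (80 * (p : ℝ) ^ 5 * (η + δ)) := by ring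

end

end Crest.Agent.R073
end

-- ▼ part R073/GL4
section

/-!
Row 73, M8a: `KGroup p (GL_4(R))` for a commutative ring `R` with a ring hom `k : ZMod p →+* R` and
a unit `x`.
-/

set_option autoImplicit false

namespace Crest.Agent.R073

open Matrix

section Gen

variable {R : Type} [CommRing R]

/-- `GL_4(R)` -/
abbrev GL4 (R : Type) [CommRing R] : Type := (Matrix (Fin 4) (Fin 4) R)ˣ

macro "mat4" : tactic => `(tactic| (
  ext i j; fin_cases i <;> fin_cases j <;> simp [Matrix.mul_apply, Fin.sum_univ_four]))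

/-- elementary matrices -/
def M12 (f : R) : Matrix (Fin 4) (Fin 4) R := !![1, f, 0, 0; 0, 1, 0, 0; 0, 0, 1, 0; 0, 0, 0, 1]
def M13 (f : R) : Matrix (Fin 4) (Fin 4) R := !![1, 0, f, 0; 0, 1, 0, 0; 0, 0, 1, 0; 0, 0, 0, 1]
def M23 (f : R) : Matrix (Fin 4) (Fin 4) R := !![1, 0, 0, 0; 0, 1, f, 0; 0, 0, 1, 0; 0, 0, 0, 1]
def M31 (f : R) : Matrix (Fin 4) (Fin 4) R := !![1, 0, 0, 0; 0, 1, 0, 0; f, 0, 1, 0; 0, 0, 0, 1]
def M21 (f : R) : Matrix (Fin 4) (Fin 4) R := !![1, 0, 0, 0; f, 1, 0, 0; 0, 0, 1, 0; 0, 0, 0, 1]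
def M32 (f : R) : Matrix (Fin 4) (Fin 4) R := !![1, 0, 0, 0; 0, 1, 0, 0; 0, f, 1, 0; 0, 0, 0, 1]
/-- fourth column `(u,v,w,1)` -/
def MC (u v w : R) : Matrix (Fin 4) (Fin 4) R := !![1, 0, 0, u; 0, 1, 0, v; 0, 0, 1, w; 0, 0, 0, 1]
/-- `diag(f,f,f,1)` -/
def MT (f : R) : Matrix (Fin 4) (Fin 4) R := !![f, 0, 0, 0; 0, f, 0, 0; 0, 0, f, 0; 0, 0, 0, 1]

theorem M12_mul (f g : R) : M12 f * M12 g = M12 (f + g) := by unfold M12; mat4; ring
theorem M13_mul (f g : R) : M13 f * M13 g = M13 (f + g) := by unfold M13; mat4; ring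
theorem M23_mul (f g : R) : M23 f * M23 g = M23 (f + g) := by unfold M23; mat4; ring
theorem M31_mul (f g : R) : M31 f * M31 g = M31 (f + g) := by unfold M31; mat4
theorem M21_mul (f g : R) : M21 f * M21 g = M21 (f + g) := by unfold M21; mat4
theorem M32_mul (f g : R) : M32 f * M32 g = M32 (f + g) := by unfold M32; mat4
theorem MC_mul (u v w u' v' w' : R) : MC u v w * MC u' v' w' = MC (u + u') (v + v') (w + w') := by
  unfold MC; mat4 <;> ring

theorem M12_zero : M12 (0 : R) = 1 := by unfold M12; mat4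
theorem M13_zero : M13 (0 : R) = 1 := by unfold M13; mat4
theorem M23_zero : M23 (0 : R) = 1 := by unfold M23; mat4
theorem M31_zero : M31 (0 : R) = 1 := by unfold M31; mat4
theorem M21_zero : M21 (0 : R) = 1 := by unfold M21; mat4
theorem M32_zero : M32 (0 : R) = 1 := by unfold M32; mat4
theorem MC_zero : MC (0 : R) 0 0 = 1 := by unfold MC; mat4

/-- elementary matrices as homomorphisms into `GL_4(R)` -/
def E12 : Multiplicative R →* GL4 R where
  toFun f := ⟨M12 f.toAdd, M12 (-f.toAdd), by rw [M12_mul, add_neg_cancel, M12_zero],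
    by rw [M12_mul, neg_add_cancel, M12_zero]⟩
  map_one' := Units.ext (by simp [M12_zero])
  map_mul' f g := Units.ext (by simp [M12_mul])

def E13 : Multiplicative R →* GL4 R where
  toFun f := ⟨M13 f.toAdd, M13 (-f.toAdd), by rw [M13_mul, add_neg_cancel, M13_zero],
    by rw [M13_mul, neg_add_cancel, M13_zero]⟩
  map_one' := Units.ext (by simp [M13_zero])
  map_mul' f g := Units.ext (by simp [M13_mul])

def E23 : Multiplicative R →* GL4 R where
  toFun f := ⟨M23 f.toAdd, M23 (-f.toAdd), by rw [M23_mul, add_neg_cancel, M23_zero],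
    by rw [M23_mul, neg_add_cancel, M23_zero]⟩
  map_one' := Units.ext (by simp [M23_zero])
  map_mul' f g := Units.ext (by simp [M23_mul])

def E31 : Multiplicative R →* GL4 R where
  toFun f := ⟨M31 f.toAdd, M31 (-f.toAdd), by rw [M31_mul, add_neg_cancel, M31_zero],
    by rw [M31_mul, neg_add_cancel, M31_zero]⟩
  map_one' := Units.ext (by simp [M31_zero])
  map_mul' f g := Units.ext (by simp [M31_mul])

def E21 : Multiplicative R →* GL4 R where
  toFun f := ⟨M21 f.toAdd, M21 (-f.toAdd), by rw [M21_mul, add_neg_cancel, M21_zero],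
    by rw [M21_mul, neg_add_cancel, M21_zero]⟩
  map_one' := Units.ext (by simp [M21_zero])
  map_mul' f g := Units.ext (by simp [M21_mul])

def E32 : Multiplicative R →* GL4 R where
  toFun f := ⟨M32 f.toAdd, M32 (-f.toAdd), by rw [M32_mul, add_neg_cancel, M32_zero],
    by rw [M32_mul, neg_add_cancel, M32_zero]⟩
  map_one' := Units.ext (by simp [M32_zero])
  map_mul' f g := Units.ext (by simp [M32_mul])

/-- the column homomorphism -/
def EC : Multiplicative (Fin 3 → R) →* GL4 R where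
  toFun f := ⟨MC (f.toAdd 0) (f.toAdd 1) (f.toAdd 2),
    MC (-f.toAdd 0) (-f.toAdd 1) (-f.toAdd 2),
    by rw [MC_mul, add_neg_cancel, add_neg_cancel, add_neg_cancel, MC_zero],
    by rw [MC_mul, neg_add_cancel, neg_add_cancel, neg_add_cancel, MC_zero]⟩
  map_one' := Units.ext (by simp [MC_zero])
  map_mul' f g := Units.ext (by simp [MC_mul])

/-- `diag(x,x,x,1)` -/
def ET (x : Rˣ) : GL4 R :=
  ⟨MT (x : R), MT (↑x⁻¹ : R), by unfold MT; mat4, by unfold MT; mat4⟩

theorem cm12_23 (f g : R) :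
    cm (E12 (Multiplicative.ofAdd f)) (E23 (Multiplicative.ofAdd g)) =
      E13 (Multiplicative.ofAdd (f * g)) := by
  apply Units.ext
  change M12 f * M23 g * M12 (-f) * M23 (-g) = M13 (f * g)
  unfold M12 M23 M13
  mat4

theorem cm23_31 (f g : R) :
    cm (E23 (Multiplicative.ofAdd f)) (E31 (Multiplicative.ofAdd g)) =
      E21 (Multiplicative.ofAdd (f * g)) := by
  apply Units.ext
  change M23 f * M31 g * M23 (-f) * M31 (-g) = M21 (f * g)
  unfold M23 M31 M21
  mat4

theorem cm31_12 (f g : R) :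
    cm (E31 (Multiplicative.ofAdd f)) (E12 (Multiplicative.ofAdd g)) =
      E32 (Multiplicative.ofAdd (f * g)) := by
  apply Units.ext
  change M31 f * M12 g * M31 (-f) * M12 (-g) = M32 (f * g)
  unfold M31 M12 M32
  mat4

theorem comm13_12 (f g : R) :
    Commute (E13 (Multiplicative.ofAdd f)) (E12 (Multiplicative.ofAdd g)) := by
  apply Units.ext
  change M13 f * M12 g = M12 g * M13 f
  unfold M13 M12; mat4

theorem comm13_23 (f g : R) :
    Commute (E13 (Multiplicative.ofAdd f)) (E23 (Multiplicative.ofAdd g)) := by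
  apply Units.ext
  change M13 f * M23 g = M23 g * M13 f
  unfold M13 M23; mat4

theorem comm21_23 (f g : R) :
    Commute (E21 (Multiplicative.ofAdd f)) (E23 (Multiplicative.ofAdd g)) := by
  apply Units.ext
  change M21 f * M23 g = M23 g * M21 f
  unfold M21 M23; mat4

theorem comm21_31 (f g : R) :
    Commute (E21 (Multiplicative.ofAdd f)) (E31 (Multiplicative.ofAdd g)) := by
  apply Units.ext
  change M21 f * M31 g = M31 g * M21 f
  unfold M21 M31; mat4

theorem comm32_31 (f g : R) :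
    Commute (E32 (Multiplicative.ofAdd f)) (E31 (Multiplicative.ofAdd g)) := by
  apply Units.ext
  change M32 f * M31 g = M31 g * M32 f
  unfold M32 M31; mat4

theorem comm32_12 (f g : R) :
    Commute (E32 (Multiplicative.ofAdd f)) (E12 (Multiplicative.ofAdd g)) := by
  apply Units.ext
  change M32 f * M12 g = M12 g * M32 f
  unfold M32 M12; mat4

variable {p : ℕ} (k : ZMod p →+* R)

include k in
theorem natCast_p_eq_zero : ((p : ℕ) : R) = 0 := by
  have : k ((p : ℕ) : ZMod p) = ((p : ℕ) : R) := map_natCast k p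
  rw [← this, ZMod.natCast_self, map_zero]

theorem ofAdd_pow_p (f : R) (h : ((p : ℕ) : R) = 0) : (Multiplicative.ofAdd f) ^ p = 1 := by
  rw [← ofAdd_nsmul, nsmul_eq_mul, h, zero_mul, ofAdd_zero]

/-- the homomorphism `D` -/
def DD : Multiplicative (V3 p) →* GL4 R :=
  EC.comp (AddMonoidHom.toMultiplicative
    (AddMonoidHom.pi fun i => (k : ZMod p →+ R).comp (Pi.evalAddMonoidHom _ i)))


/-- the group data in `GL_4(R)` -/
def glK (x : Rˣ) : KGroup p (GL4 R) where
  a := E12 (Multiplicative.ofAdd 1)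
  b := E23 (Multiplicative.ofAdd 1)
  c := E31 (Multiplicative.ofAdd (x : R))
  t := ET x
  D := DD k
  a_pow := by rw [← map_pow, ofAdd_pow_p _ (natCast_p_eq_zero k), map_one]
  b_pow := by rw [← map_pow, ofAdd_pow_p _ (natCast_p_eq_zero k), map_one]
  c_pow := by rw [← map_pow, ofAdd_pow_p _ (natCast_p_eq_zero k), map_one]
  hab := by rw [cm12_23]; exact ⟨comm13_12 _ _, comm13_23 _ _⟩
  hbc := by rw [cm23_31]; exact ⟨comm21_23 _ _, comm21_31 _ _⟩
  hca := by rw [cm31_12]; exact ⟨comm32_31 _ _, comm32_12 _ _⟩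
  aD m := by
    apply Units.ext
    change M12 1 * MC (k (m 0)) (k (m 1)) (k (m 2)) =
      MC (k (e12 m 0)) (k (e12 m 1)) (k (e12 m 2)) * M12 1
    unfold M12 MC e12
    mat4
  bD m := by
    apply Units.ext
    change M23 1 * MC (k (m 0)) (k (m 1)) (k (m 2)) =
      MC (k (e23 m 0)) (k (e23 m 1)) (k (e23 m 2)) * M23 1
    unfold M23 MC e23
    mat4
  cDt m := by
    apply Units.ext
    change M31 (x : R) * MC (k (m 0)) (k (m 1)) (k (m 2)) * MT (x : R) =
      MC (k (m 0)) (k (m 1)) (k (m 2)) * MT (x : R) *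
        MC (k ((![0, 0, m 0] : V3 p) 0)) (k ((![0, 0, m 0] : V3 p) 1))
          (k ((![0, 0, m 0] : V3 p) 2)) * M31 (x : R)
    unfold M31 MC MT
    mat4 <;> ring
  ta := by
    apply Units.ext
    change MT (x : R) * M12 1 = M12 1 * MT (x : R)
    unfold MT M12
    mat4
  tb := by
    apply Units.ext
    change MT (x : R) * M23 1 = M23 1 * MT (x : R)
    unfold MT M23
    mat4
  tc := by
    apply Units.ext
    change MT (x : R) * M31 (x : R) = M31 (x : R) * MT (x : R)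
    unfold MT M31
    mat4

end Gen

end Crest.Agent.R073
end

-- ▼ part R073/Base

/-!
Row 73, M8b: `StmtGroup p`.  The permutation representation of a group `G` acting on a set `X` on
`ℓ²(X)`, and an eigenvector of `a, b, c, d` for the action of `GL_4(F_p[x,1/x])` on subsets of
`F_p[x,1/x]^4`.
-/

set_option autoImplicit false

namespace Crest.Agent.R073

open scoped ComplexConjugate ENNReal
open Crest.AnalysisR.CStarEmbedding

noncomputable section

section Perm

variable {X : Type}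

/-- `ℓ²(X)` -/
abbrev L2 (X : Type) : Type := lp (fun _ : X => ℂ) 2

theorem memlp_comp (e : X ≃ X) (f : L2 X) : Memℓp (fun x => (f : X → ℂ) (e x)) 2 := by
  have h2 : (0 : ℝ) < (2 : ℝ≥0∞).toReal := by norm_num
  have hf := (memℓp_gen_iff h2).mp (lp.memℓp f)
  exact (memℓp_gen_iff h2).mpr (e.summable_iff.mpr hf)

/-- composition with a permutation is a linear isometry of `ℓ²(X)` -/
def permL (e : X ≃ X) : L2 X ≃ₗᵢ[ℂ] L2 X where
  toFun f := ⟨fun x => (f : X → ℂ) (e.symm x), memlp_comp e.symm f⟩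
  invFun f := ⟨fun x => (f : X → ℂ) (e x), memlp_comp e f⟩
  map_add' f g := by
    apply lp.ext; funext x; rfl
  map_smul' c f := by
    apply lp.ext; funext x; rfl
  left_inv f := by
    apply lp.ext; funext x
    change (f : X → ℂ) (e.symm (e x)) = _
    rw [Equiv.symm_apply_apply]
  right_inv f := by
    apply lp.ext; funext x
    change (f : X → ℂ) (e (e.symm x)) = _
    rw [Equiv.apply_symm_apply]
  norm_map' f := by
    have h2 : (0 : ℝ) < (2 : ℝ≥0∞).toReal := by norm_num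
    have h := lp.norm_eq_tsum_rpow h2 f
    refine (lp.norm_eq_tsum_rpow h2 _).trans ?_
    rw [h]
    congr 1
    exact e.symm.tsum_eq (fun x => ‖(f : X → ℂ) x‖ ^ (2 : ℝ≥0∞).toReal)

theorem permL_apply (e : X ≃ X) (f : L2 X) (x : X) :
    (permL e f : X → ℂ) x = (f : X → ℂ) (e.symm x) := rfl

theorem permL_single [DecidableEq X] (e : X ≃ X) (x : X) (c : ℂ) :
    permL e (lp.single 2 x c) = lp.single 2 (e x) c := by
  apply lp.ext; funext y
  rw [permL_apply, lp.single_apply, lp.single_apply]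
  by_cases h : y = e x
  · subst h
    rw [Equiv.symm_apply_apply, Pi.single_eq_same, Pi.single_eq_same]
  · rw [Pi.single_eq_of_ne h, Pi.single_eq_of_ne]
    intro h'
    apply h
    rw [← h', Equiv.apply_symm_apply]

/-- the permutation representation -/
def permRep (G : Type) [Group G] (X : Type) [MulAction G X] : G →* unitary (L2 X →L[ℂ] L2 X) :=
  (Unitary.linearIsometryEquiv (𝕜 := ℂ) (H := L2 X)).symm.toMonoidHom.comp
    { toFun := fun g => permL (MulAction.toPerm g)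
      map_one' := by
        ext f x
        rw [permL_apply]
        simp
      map_mul' := fun g h => by
        ext f x
        rw [permL_apply]
        change _ = (permL (MulAction.toPerm g) (permL (MulAction.toPerm h) f) : X → ℂ) x
        rw [permL_apply, permL_apply]
        simp [mul_smul] }

theorem permRep_apply (G : Type) [Group G] (X : Type) [MulAction G X] (g : G) (f : L2 X) :
    ((permRep G X g : unitary (L2 X →L[ℂ] L2 X)) : L2 X →L[ℂ] L2 X) f =
      permL (MulAction.toPerm g) f := rfl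

end Perm

section Bound

variable {p : ℕ} [Fact p.Prime] {G : Type} [Group G] (K : KGroup p G)

/-- if `G` acts on `X` with points `x_j` (`j ∈ F_p`), pairwise distinct, fixed by `a, b, c` and
permuted cyclically by `d`, then the norm in the full group C*-algebra is at least `5` -/
theorem norm_ge_five (X : Type) [MulAction G X] (x : ZMod p → X) (hx : Function.Injective x)
    (ha : ∀ j, K.a • x j = x j) (hb : ∀ j, K.b • x j = x j) (hc : ∀ j, K.c • x j = x j)
    (hd : ∀ j, K.D (Multiplicative.ofAdd ![0, 0, 1]) • x j = x (j + 1))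
    (A : Type) [CStarAlgebra A] (u : G →* unitary A) (hu : IsFullGroupCStar A u) :
    5 ≤ ‖(1 : A) + (u K.a : A) + (u K.b : A) + (u K.c : A)
        + conj (psi p 1) • (u (K.D (Multiplicative.ofAdd ![0, 0, 1])) : A)‖ := by
  classical
  obtain ⟨φ, hφ⟩ := hu.2 (L2 X →L[ℂ] L2 X) (permRep G X)
  set d := K.D (Multiplicative.ofAdd ![0, 0, 1]) with hddef
  let ζ : L2 X := ∑ j : ZMod p, conj (psi p j) • lp.single 2 (x j) (1 : ℂ)
  have hw : ∀ g : G, φ (u g : A) ζ =
      ∑ j : ZMod p, conj (psi p j) • lp.single 2 (g • x j) (1 : ℂ) := by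
    intro g
    rw [hφ]
    change ((permRep G X g : unitary (L2 X →L[ℂ] L2 X)) : L2 X →L[ℂ] L2 X) ζ = _
    rw [map_sum]
    refine Finset.sum_congr rfl fun j _ => ?_
    rw [map_smul, permRep_apply, permL_single]
    rfl
  have hζa : φ (u K.a : A) ζ = ζ := by rw [hw]; simp only [ha, ζ]
  have hζb : φ (u K.b : A) ζ = ζ := by rw [hw]; simp only [hb, ζ]
  have hζc : φ (u K.c : A) ζ = ζ := by rw [hw]; simp only [hc, ζ]
  have hζd : φ (u d : A) ζ = psi p 1 • ζ := by
    rw [hw]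
    simp only [hd, ζ]
    rw [Finset.smul_sum]
    have hs := Equiv.sum_comp (Equiv.addRight (1 : ZMod p))
      (fun j => (psi p 1 • conj (psi p j) • lp.single 2 (x j) (1 : ℂ) : L2 X))
    refine Eq.trans ?_ hs
    refine Finset.sum_congr rfl fun j _ => ?_
    simp only [Equiv.coe_addRight]
    rw [smul_smul]
    congr 1
    have h1 : psi p (j + 1) = psi p j * psi p 1 := by
      unfold psi; exact AddChar.map_add_eq_mul _ _ _
    have h2 : psi p 1 * conj (psi p 1) = 1 := by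
      rw [Complex.mul_conj, Complex.normSq_eq_norm_sq, norm_psi]
      simp
    rw [h1, map_mul, mul_left_comm, h2, mul_one]
  have hζ0 : ζ ≠ 0 := by
    intro h0
    have h1 : (ζ : X → ℂ) (x 0) = 1 := by
      have e1 : (ζ : X → ℂ) (x 0) =
          ∑ j : ZMod p, (conj (psi p j) • lp.single 2 (x j) (1 : ℂ) : L2 X) (x 0) := by
        simp only [ζ]
        rw [lp.coeFn_sum, Finset.sum_apply]
      rw [e1, Finset.sum_eq_single 0]
      · rw [lp.coeFn_smul, Pi.smul_apply, lp.single_apply, Pi.single_eq_same]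
        simp [psi]
      · intro j _ hj
        rw [lp.coeFn_smul, Pi.smul_apply, lp.single_apply, Pi.single_eq_of_ne, smul_zero]
        exact fun h => hj (hx h).symm
      · simp
    rw [h0] at h1
    simp at h1
  set h : A := (1 : A) + (u K.a : A) + (u K.b : A) + (u K.c : A) + conj (psi p 1) • (u d : A)
    with hh
  have hφh : φ h ζ = (5 : ℂ) • ζ := by
    rw [hh, map_add, map_add, map_add, map_add, map_one, map_smul]
    simp only [_root_.add_apply, _root_.smul_apply,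
      one_apply_eq_self, hζa, hζb, hζc, hζd]
    rw [smul_smul]
    have h2 : conj (psi p 1) * psi p 1 = 1 := by
      rw [mul_comm, Complex.mul_conj, Complex.normSq_eq_norm_sq, norm_psi]
      simp
    rw [h2, one_smul]
    module
  have h3 : ‖φ h ζ‖ = 5 * ‖ζ‖ := by
    rw [hφh, norm_smul]; simp
  have h4 : ‖φ h ζ‖ ≤ ‖h‖ * ‖ζ‖ :=
    ((φ h).le_opNorm ζ).trans (mul_le_mul_of_nonneg_right (NonUnitalStarAlgHom.norm_apply_le φ h)
      (norm_nonneg _))
  rw [h3] at h4
  exact le_of_mul_le_mul_right h4 (norm_pos_iff.mpr hζ0)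

end Bound

section Action

open LaurentPolynomial

/-- action of `GL_4(R)` on subsets of `R^4` -/
@[reducible] def setAct (R : Type) [CommRing R] : MulAction (GL4 R) (Set (Fin 4 → R)) where
  smul g S := (fun v => (g : Matrix (Fin 4) (Fin 4) R).mulVec v) '' S
  one_smul S := by
    change (fun v => ((1 : GL4 R) : Matrix (Fin 4) (Fin 4) R).mulVec v) '' S = S
    simp
  mul_smul g h S := by
    change (fun v => ((g * h : GL4 R) : Matrix (Fin 4) (Fin 4) R).mulVec v) '' S =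
      (fun v => (g : Matrix (Fin 4) (Fin 4) R).mulVec v) ''
        ((fun v => (h : Matrix (Fin 4) (Fin 4) R).mulVec v) '' S)
    rw [Set.image_image]
    simp [Matrix.mulVec_mulVec]

attribute [local instance] setAct

theorem smul_eq {R : Type} [CommRing R] (g : GL4 R) (S T : Set (Fin 4 → R))
    (h1 : ∀ v ∈ S, (g : Matrix (Fin 4) (Fin 4) R).mulVec v ∈ T)
    (h2 : ∀ v ∈ T, ((g⁻¹ : GL4 R) : Matrix (Fin 4) (Fin 4) R).mulVec v ∈ S) : g • S = T := by
  apply Set.Subset.antisymm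
  · rintro _ ⟨v, hv, rfl⟩
    exact h1 v hv
  · intro v hv
    refine ⟨_, h2 v hv, ?_⟩
    change (g : Matrix (Fin 4) (Fin 4) R).mulVec
      (((g⁻¹ : GL4 R) : Matrix (Fin 4) (Fin 4) R).mulVec v) = v
    rw [Matrix.mulVec_mulVec, Units.mul_inv, Matrix.one_mulVec]

theorem M12_mulVec {R : Type} [CommRing R] (f : R) (v : Fin 4 → R) :
    (M12 f).mulVec v = ![v 0 + f * v 1, v 1, v 2, v 3] := by
  funext i; fin_cases i <;> simp [M12, Matrix.mulVec, dotProduct, Fin.sum_univ_four]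
theorem M23_mulVec {R : Type} [CommRing R] (f : R) (v : Fin 4 → R) :
    (M23 f).mulVec v = ![v 0, v 1 + f * v 2, v 2, v 3] := by
  funext i; fin_cases i <;> simp [M23, Matrix.mulVec, dotProduct, Fin.sum_univ_four]
theorem M31_mulVec {R : Type} [CommRing R] (f : R) (v : Fin 4 → R) :
    (M31 f).mulVec v = ![v 0, v 1, f * v 0 + v 2, v 3] := by
  funext i; fin_cases i <;> simp [M31, Matrix.mulVec, dotProduct, Fin.sum_univ_four]
theorem MC_mulVec {R : Type} [CommRing R] (f : R) (v : Fin 4 → R) :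
    (MC 0 0 f).mulVec v = ![v 0, v 1, v 2 + f * v 3, v 3] := by
  funext i; fin_cases i <;> simp [MC, Matrix.mulVec, dotProduct, Fin.sum_univ_four]

/-- `{v ∈ F_p[x]^4 : v_3(0) - j v_4(0) = 1}` -/
def pt (p : ℕ) (j : ZMod p) : Set (Fin 4 → LaurentPolynomial (ZMod p)) :=
  {v | ∃ P : Fin 4 → Polynomial (ZMod p), v = (fun i => Polynomial.toLaurent (P i)) ∧
    (P 2).eval 0 - j * (P 3).eval 0 = 1}

variable {p : ℕ}

theorem pt_M12 (f : Polynomial (ZMod p)) (j : ZMod p) (v : Fin 4 → LaurentPolynomial (ZMod p))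
    (hv : v ∈ pt p j) : (M12 (Polynomial.toLaurent f)).mulVec v ∈ pt p j := by
  obtain ⟨P, rfl, hP⟩ := hv
  refine ⟨![P 0 + f * P 1, P 1, P 2, P 3], ?_, by simpa using hP⟩
  rw [M12_mulVec]
  funext i; fin_cases i <;> simp

theorem pt_M23 (f : Polynomial (ZMod p)) (j : ZMod p) (v : Fin 4 → LaurentPolynomial (ZMod p))
    (hv : v ∈ pt p j) : (M23 (Polynomial.toLaurent f)).mulVec v ∈ pt p j := by
  obtain ⟨P, rfl, hP⟩ := hv
  refine ⟨![P 0, P 1 + f * P 2, P 2, P 3], ?_, by simpa using hP⟩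
  rw [M23_mulVec]
  funext i; fin_cases i <;> simp

theorem pt_M31 (f : Polynomial (ZMod p)) (hf : f.eval 0 = 0) (j : ZMod p)
    (v : Fin 4 → LaurentPolynomial (ZMod p))
    (hv : v ∈ pt p j) : (M31 (Polynomial.toLaurent f)).mulVec v ∈ pt p j := by
  obtain ⟨P, rfl, hP⟩ := hv
  refine ⟨![P 0, P 1, f * P 0 + P 2, P 3], ?_, by simpa [hf] using hP⟩
  rw [M31_mulVec]
  funext i; fin_cases i <;> simp

theorem pt_MC (f j : ZMod p)
    (v : Fin 4 → LaurentPolynomial (ZMod p))
    (hv : v ∈ pt p j) : (MC 0 0 (LaurentPolynomial.C f)).mulVec v ∈ pt p (j + f) := by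
  obtain ⟨P, rfl, hP⟩ := hv
  refine ⟨![P 0, P 1, P 2 + Polynomial.C f * P 3, P 3], ?_, ?_⟩
  · rw [MC_mulVec]
    funext i; fin_cases i <;> simp
  · rw [← hP]
    simp
    ring

theorem pt_injective : Function.Injective (pt p) := by
  intro j j' h
  have h1 : (fun i => Polynomial.toLaurent ((![0, 0, Polynomial.C (1 + j), 1] :
      Fin 4 → Polynomial (ZMod p)) i)) ∈ pt p j := ⟨_, rfl, by simp⟩
  rw [h] at h1
  obtain ⟨P, hP, hP'⟩ := h1
  have e2 := congrFun hP 2
  have e3 := congrFun hP 3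
  have e2' := Polynomial.toLaurent_injective e2
  have e3' := Polynomial.toLaurent_injective e3
  rw [← e2', ← e3'] at hP'
  simp at hP'
  have : j - j' = 0 := by linear_combination hP'
  exact sub_eq_zero.mp this

/-- the variable as a unit -/
def xU (p : ℕ) : (LaurentPolynomial (ZMod p))ˣ where
  val := T 1
  inv := T (-1)
  val_inv := by rw [← T_add]; simp
  inv_val := by rw [← T_add]; simp

instance countable_laurent (p : ℕ) [Fact p.Prime] : Countable (LaurentPolynomial (ZMod p)) := by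
  have : Function.Injective
      (fun f : LaurentPolynomial (ZMod p) => (f.coeff : ℤ →₀ ZMod p)) := by
    intro f g h
    apply LaurentPolynomial.ext
    intro a
    exact DFunLike.congr_fun h a
  exact this.countable

theorem stmtGroup (p : ℕ) [Fact p.Prime] : StmtGroup p := by
  have hcM : Countable (Matrix (Fin 4) (Fin 4) (LaurentPolynomial (ZMod p))) :=
    inferInstanceAs (Countable (Fin 4 → Fin 4 → LaurentPolynomial (ZMod p)))
  have hcount : Countable (GL4 (LaurentPolynomial (ZMod p))) :=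
    (Units.val_injective (α := Matrix (Fin 4) (Fin 4) (LaurentPolynomial (ZMod p)))).countable
  refine ⟨GL4 (LaurentPolynomial (ZMod p)), inferInstance, hcount,
    glK (C : ZMod p →+* LaurentPolynomial (ZMod p)) (xU p), ?_⟩
  intro A _ u hu
  have hone : (Polynomial.toLaurent (1 : Polynomial (ZMod p))) = 1 := map_one _
  have hneg : (Polynomial.toLaurent (-1 : Polynomial (ZMod p))) = -1 := by
    rw [map_neg, map_one]
  refine norm_ge_five (glK (C : ZMod p →+* LaurentPolynomial (ZMod p)) (xU p))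
    (Set (Fin 4 → LaurentPolynomial (ZMod p))) (pt p) pt_injective ?_ ?_ ?_ ?_ A u hu
  · intro j
    refine smul_eq _ _ _ (fun v hv => ?_) (fun v hv => ?_)
    · have := pt_M12 1 j v hv
      rw [hone] at this
      exact this
    · have := pt_M12 (-1) j v hv
      rw [hneg] at this
      exact this
  · intro j
    refine smul_eq _ _ _ (fun v hv => ?_) (fun v hv => ?_)
    · have := pt_M23 1 j v hv
      rw [hone] at this
      exact this
    · have := pt_M23 (-1) j v hv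
      rw [hneg] at this
      exact this
  · intro j
    refine smul_eq _ _ _ (fun v hv => ?_) (fun v hv => ?_)
    · have := pt_M31 Polynomial.X (by simp) j v hv
      rw [Polynomial.toLaurent_X] at this
      exact this
    · have := pt_M31 (-Polynomial.X) (by simp) j v hv
      rw [map_neg, Polynomial.toLaurent_X] at this
      exact this
  · intro j
    refine smul_eq _ _ _ (fun v hv => ?_) (fun v hv => ?_)
    · have := pt_MC 1 j v hv
      have e : MC (C ((![0, 0, 1] : V3 p) 0)) (C ((![0, 0, 1] : V3 p) 1))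
          (C ((![0, 0, 1] : V3 p) 2)) = MC 0 0 (C (1 : ZMod p)) := by simp
      change (MC (C ((![0, 0, 1] : V3 p) 0)) (C ((![0, 0, 1] : V3 p) 1))
          (C ((![0, 0, 1] : V3 p) 2))).mulVec v ∈ _
      rw [e]
      exact this
    · have := pt_MC (-1) (j + 1) v hv
      have e : MC (-C ((![0, 0, 1] : V3 p) 0)) (-C ((![0, 0, 1] : V3 p) 1))
          (-C ((![0, 0, 1] : V3 p) 2)) = MC 0 0 (C (-1 : ZMod p)) := by simp
      change (MC (-C ((![0, 0, 1] : V3 p) 0)) (-C ((![0, 0, 1] : V3 p) 1))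
          (-C ((![0, 0, 1] : V3 p) 2))).mulVec v ∈ _
      rw [e]
      have ej : j + 1 + -1 = j := by ring
      rw [ej] at this
      exact this

end Action

end

end Crest.Agent.R073
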