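import Crest.Agent.R073.Stmts
import Crest.Agent.R073.Defs

-- ▼ part R073/Cuntz
section

/-!
Row 73, module M3: matrix approximation of the Cuntz algebra `O_2` (`StmtCuntz`).
-/

set_option autoImplicit false

namespace Crest.Agent.R073.Cuntz

open scoped Matrix ComplexConjugate

noncomputable section

/-- words (in the letters `0, 1`) of length `< n` -/
def I : ℕ → Type
  | 0 => Empty
  | n + 1 => Option (Fin 2 × I n)

instance instFintypeI : ∀ n, Fintype (I n)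
  | 0 => inferInstanceAs (Fintype Empty)
  | n + 1 => by
      haveI := instFintypeI n
      exact inferInstanceAs (Fintype (Option (Fin 2 × I n)))

instance instDecidableEqI : ∀ n, DecidableEq (I n)
  | 0 => inferInstanceAs (DecidableEq Empty)
  | n + 1 => by
      haveI := instDecidableEqI n
      exact inferInstanceAs (DecidableEq (Option (Fin 2 × I n)))

/-- empty word -/
def nil (n : ℕ) : I (n + 1) := (none : Option (Fin 2 × I n))

/-- add a letter in front -/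
def cons {n : ℕ} (i : Fin 2) (w : I n) : I (n + 1) := (some (i, w) : Option (Fin 2 × I n))

theorem I_cases {n : ℕ} {P : I (n + 1) → Prop} (h0 : P (nil n)) (h1 : ∀ i w, P (cons i w)) :
    ∀ μ, P μ := by
  intro μ
  change Option (Fin 2 × I n) at μ
  rcases μ with _ | ⟨i, w⟩
  · exact h0
  · exact h1 i w

theorem sum_I {n : ℕ} {M : Type*} [AddCommMonoid M] (f : I (n + 1) → M) :
    ∑ μ, f μ = f (nil n) + ∑ i, ∑ w, f (cons i w) := by
  have h := Fintype.sum_option (α := Fin 2 × I n) (fun μ => f μ)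
  rw [Fintype.sum_prod_type] at h
  exact h

/-- eliminator into types -/
def elimI {n : ℕ} {γ : Type*} (a : γ) (b : Fin 2 → I n → γ) (μ : I (n + 1)) : γ :=
  (Option.elim (μ : Option (Fin 2 × I n)) a (fun q => b q.1 q.2))

@[simp] theorem elimI_nil {n : ℕ} {γ : Type*} (a : γ) (b : Fin 2 → I n → γ) :
    elimI a b (nil n) = a := rfl

@[simp] theorem elimI_cons {n : ℕ} {γ : Type*} (a : γ) (b : Fin 2 → I n → γ) (i : Fin 2) (w : I n) :
    elimI a b (cons i w) = b i w := rfl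

/-- words of length `< n` are words of length `< n + 1` -/
def emb : ∀ n, I n → I (n + 1)
  | 0 => fun x => (x : Empty).elim
  | n + 1 => elimI (nil (n + 1)) (fun i w => cons i (emb n w))

theorem cons_inj {n : ℕ} {i j : Fin 2} {w v : I n} (h : cons i w = cons j v) : i = j ∧ w = v := by
  have := Option.some.inj (show (some (i, w) : Option (Fin 2 × I n)) = some (j, v) from h)
  exact ⟨congrArg Prod.fst this, congrArg Prod.snd this⟩

theorem nil_ne_cons {n : ℕ} (i : Fin 2) (w : I n) : nil n ≠ cons i w := by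
  intro h
  exact (Option.some_ne_none (i, w)) (show some (i, w) = (none : Option (Fin 2 × I n)) from h.symm)

theorem emb_injective : ∀ n, Function.Injective (emb n)
  | 0 => fun x => (x : Empty).elim
  | n + 1 => by
      intro x y
      revert x y
      refine I_cases ?_ ?_
      · refine I_cases ?_ ?_
        · intro _; rfl
        · intro i w h
          exact absurd h (nil_ne_cons i _)
      · intro i w
        refine I_cases ?_ ?_
        · intro h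
          exact absurd h.symm (nil_ne_cons i _)
        · intro j v h
          obtain ⟨h1, h2⟩ := cons_inj (show cons i (emb n w) = cons j (emb n v) from h)
          rw [h1, emb_injective n h2]

section ops

variable {H : Type} [NormedAddCommGroup H] [InnerProductSpace ℂ H]

/-- `W N μ = S_μ^*` -/
def W (ts : Fin 2 → H →L[ℂ] H) : ∀ N, I N → (H →L[ℂ] H)
  | 0 => fun _ => 0
  | N + 1 => elimI 1 (fun i w => (W ts N w) ∘L ts i)

@[simp] theorem W_nil (ts : Fin 2 → H →L[ℂ] H) (N : ℕ) : W ts (N + 1) (nil N) = 1 := rfl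

@[simp] theorem W_cons (ts : Fin 2 → H →L[ℂ] H) (N : ℕ) (i : Fin 2) (w : I N) :
    W ts (N + 1) (cons i w) = (W ts N w) ∘L ts i := rfl

theorem W_emb (ts : Fin 2 → H →L[ℂ] H) : ∀ (N : ℕ) (w : I N), W ts (N + 1) (emb N w) = W ts N w
  | 0 => fun w => (w : Empty).elim
  | N + 1 => by
      refine I_cases ?_ ?_
      · rfl
      · intro i w
        change (W ts (N + 1) (emb N w)) ∘L ts i = (W ts N w) ∘L ts i
        rw [W_emb ts N w]

theorem sum_W (ts : Fin 2 → H →L[ℂ] H) (h1 : ∀ ξ, ∑ i, ‖ts i ξ‖ ^ 2 = ‖ξ‖ ^ 2) :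
    ∀ (N : ℕ) (ξ : H), ∑ μ, ‖W ts N μ ξ‖ ^ 2 = N * ‖ξ‖ ^ 2
  | 0, ξ => by simp [W]
  | N + 1, ξ => by
      rw [sum_I]
      have : ∀ i, ∑ w, ‖W ts (N + 1) (cons i w) ξ‖ ^ 2 = N * ‖ts i ξ‖ ^ 2 := by
        intro i
        exact sum_W ts h1 N (ts i ξ)
      simp only [this]
      rw [← Finset.mul_sum, h1]
      simp
      ring

/-- the Hilbert space `H ⊗ ℂ^ι` -/
abbrev HI (H : Type) [NormedAddCommGroup H] (ι : Type) [Fintype ι] : Type := PiLp 2 (fun _ : ι => H)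

/-- `α ⊗ 1` -/
def amp {ι : Type} [Fintype ι] (α : Matrix ι ι ℂ) (T : HI H ι) : HI H ι :=
  WithLp.toLp 2 (fun i => ∑ j, α i j • T j)

@[simp] theorem amp_apply {ι : Type} [Fintype ι] (α : Matrix ι ι ℂ) (T : HI H ι) (i : ι) :
    amp α T i = ∑ j, α i j • T j := rfl

theorem amp_sub {ι : Type} [Fintype ι] (α : Matrix ι ι ℂ) (S T : HI H ι) :
    amp α (S - T) = amp α S - amp α T := by
  ext i
  simp [smul_sub, Finset.sum_sub_distrib]

theorem amp_add_left {ι : Type} [Fintype ι] (α β : Matrix ι ι ℂ) (T : HI H ι) :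
    amp (α + β) T = amp α T + amp β T := by
  ext i
  simp [add_smul, Finset.sum_add_distrib]

theorem amp_mul {ι : Type} [Fintype ι] (α β : Matrix ι ι ℂ) (T : HI H ι) :
    amp (α * β) T = amp α (amp β T) := by
  ext i
  simp only [amp_apply, Matrix.mul_apply, Finset.sum_smul, Finset.smul_sum, smul_smul]
  rw [Finset.sum_comm]

theorem amp_smul_one {ι : Type} [Fintype ι] [DecidableEq ι] (c : ℂ) (T : HI H ι) :
    amp (c • (1 : Matrix ι ι ℂ)) T = c • T := by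
  ext i
  simp [Matrix.one_apply]

/-- the normalised map `V_N` -/
def VV (ts : Fin 2 → H →L[ℂ] H) (N : ℕ) (ξ : H) : HI H (I N) :=
  WithLp.toLp 2 (fun μ => (((Real.sqrt N)⁻¹ : ℝ) : ℂ) • W ts N μ ξ)

theorem VV_apply (ts : Fin 2 → H →L[ℂ] H) (N : ℕ) (ξ : H) (μ : I N) :
    VV ts N ξ μ = (((Real.sqrt N)⁻¹ : ℝ) : ℂ) • W ts N μ ξ := rfl

theorem VV_add (ts : Fin 2 → H →L[ℂ] H) (N : ℕ) (ξ ζ : H) :
    VV ts N (ξ + ζ) = VV ts N ξ + VV ts N ζ := by
  ext i
  simp [VV_apply]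

theorem VV_sub (ts : Fin 2 → H →L[ℂ] H) (N : ℕ) (ξ ζ : H) :
    VV ts N (ξ - ζ) = VV ts N ξ - VV ts N ζ := by
  ext i
  simp [VV_apply, smul_sub]

theorem VV_smul (ts : Fin 2 → H →L[ℂ] H) (N : ℕ) (c : ℂ) (ξ : H) :
    VV ts N (c • ξ) = c • VV ts N ξ := by
  ext i
  simp [VV_apply, smul_comm c]

omit [InnerProductSpace ℂ H] in
theorem norm_sq_eq {ι : Type} [Fintype ι] (T : HI H ι) : ‖T‖ ^ 2 = ∑ i, ‖T i‖ ^ 2 :=
  PiLp.norm_sq_eq_of_L2 _ T

theorem VV_norm_sq (ts : Fin 2 → H →L[ℂ] H) (h1 : ∀ ξ, ∑ i, ‖ts i ξ‖ ^ 2 = ‖ξ‖ ^ 2) (N : ℕ)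
    (hN : 0 < N) (ξ : H) : ‖VV ts N ξ‖ ^ 2 = ‖ξ‖ ^ 2 := by
  rw [norm_sq_eq]
  have hN' : (0 : ℝ) < N := by exact_mod_cast hN
  have : ∀ μ, ‖VV ts N ξ μ‖ ^ 2 = (N : ℝ)⁻¹ * ‖W ts N μ ξ‖ ^ 2 := by
    intro μ
    rw [VV_apply, norm_smul, mul_pow, Complex.norm_real, norm_inv, Real.norm_eq_abs, inv_pow,
      sq_abs, Real.sq_sqrt hN'.le]
  simp only [this]
  rw [← Finset.mul_sum, sum_W ts h1]
  field_simp

theorem VV_norm (ts : Fin 2 → H →L[ℂ] H) (h1 : ∀ ξ, ∑ i, ‖ts i ξ‖ ^ 2 = ‖ξ‖ ^ 2) (N : ℕ)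
    (hN : 0 < N) (ξ : H) : ‖VV ts N ξ‖ = ‖ξ‖ := by
  have := VV_norm_sq ts h1 N hN ξ
  exact (pow_left_inj₀ (norm_nonneg _) (norm_nonneg _) two_ne_zero).1 this

/-- shift matrix: `δ_w ↦ δ_{iw}` for `|w| < n` -/
def sh (n : ℕ) (i : Fin 2) : Matrix (I (n + 1)) (I (n + 1)) ℂ :=
  Matrix.of fun μ ν => elimI 0 (fun j w => if j = i ∧ emb n w = ν then 1 else 0) μ

@[simp] theorem sh_nil (n : ℕ) (i : Fin 2) (ν : I (n + 1)) : sh n i (nil n) ν = 0 := rfl

@[simp] theorem sh_cons (n : ℕ) (i j : Fin 2) (w : I n) (ν : I (n + 1)) :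
    sh n i (cons j w) ν = if j = i ∧ emb n w = ν then 1 else 0 := rfl

theorem amp_sh_nil (n : ℕ) (i : Fin 2) (T : HI H (I (n + 1))) : amp (sh n i) T (nil n) = 0 := by
  simp

theorem amp_sh_cons (n : ℕ) (i j : Fin 2) (w : I n) (T : HI H (I (n + 1))) :
    amp (sh n i) T (cons j w) = if j = i then T (emb n w) else 0 := by
  simp only [amp_apply, sh_cons]
  by_cases h : j = i
  · simp [h]
  · simp [h]

theorem amp_shH_emb (n : ℕ) (i : Fin 2) (w : I n) (T : HI H (I (n + 1))) :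
    amp (sh n i)ᴴ T (emb n w) = T (cons i w) := by
  simp only [amp_apply, Matrix.conjTranspose_apply]
  rw [sum_I]
  simp only [sh_nil, star_zero, zero_smul, zero_add, sh_cons]
  rw [Finset.sum_eq_single i]
  · rw [Finset.sum_eq_single w]
    · simp
    · intro v _ hv
      have : emb n v ≠ emb n w := fun h => hv (emb_injective n h)
      simp [this]
    · simp
  · intro j _ hj
    simp [hj]
  · simp

theorem amp_shH_notin (n : ℕ) (i : Fin 2) (ν : I (n + 1)) (hν : ν ∉ Set.range (emb n))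
    (T : HI H (I (n + 1))) : amp (sh n i)ᴴ T ν = 0 := by
  simp only [amp_apply, Matrix.conjTranspose_apply]
  rw [sum_I]
  simp only [sh_nil, star_zero, zero_smul, zero_add, sh_cons]
  refine Finset.sum_eq_zero fun j _ => Finset.sum_eq_zero fun w _ => ?_
  have : emb n w ≠ ν := fun h => hν ⟨w, h⟩
  simp [this]

/-- sum over `I (n+1)` of a nonnegative function dominates the sum over the image of `emb` -/
theorem sum_emb_add (n : ℕ) (f : I (n + 1) → ℝ) :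
    ∑ ν, f ν = ∑ w, f (emb n w) + ∑ ν ∈ (Finset.univ.filter fun ν => ν ∉ Set.range (emb n)), f ν := by
  classical
  rw [← Finset.sum_filter_add_sum_filter_not Finset.univ (fun ν => ν ∈ Set.range (emb n)) f]
  congr 1
  rw [← Finset.sum_image (f := f) (s := (Finset.univ : Finset (I n))) (g := emb n)
    (fun x _ y _ h => emb_injective n h)]
  congr 1
  ext ν
  simp

theorem norm_amp_sh (n : ℕ) (i : Fin 2) (T : HI H (I (n + 1))) : ‖amp (sh n i) T‖ ≤ ‖T‖ := by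
  refine le_of_sq_le_sq ?_ (norm_nonneg _)
  rw [norm_sq_eq, norm_sq_eq, sum_I, amp_sh_nil]
  simp only [amp_sh_cons]
  rw [Finset.sum_eq_single i]
  · simp only [if_true, norm_zero]
    rw [sum_emb_add n (fun ν => ‖T ν‖ ^ 2)]
    have : 0 ≤ ∑ ν ∈ (Finset.univ.filter fun ν => ν ∉ Set.range (emb n)), ‖T ν‖ ^ 2 :=
      Finset.sum_nonneg fun _ _ => by positivity
    simp only [ne_eq, OfNat.ofNat_ne_zero, not_false_eq_true, zero_pow, zero_add]
    linarith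
  · intro j _ hj
    simp [hj]
  · simp

theorem norm_amp_shH (n : ℕ) (i : Fin 2) (T : HI H (I (n + 1))) : ‖amp (sh n i)ᴴ T‖ ≤ ‖T‖ := by
  refine le_of_sq_le_sq ?_ (norm_nonneg _)
  rw [norm_sq_eq, norm_sq_eq, sum_emb_add n]
  simp only [amp_shH_emb]
  have h0 : ∑ ν ∈ (Finset.univ.filter fun ν => ν ∉ Set.range (emb n)), ‖amp (sh n i)ᴴ T ν‖ ^ 2 = 0 := by
    refine Finset.sum_eq_zero fun ν hν => ?_
    rw [amp_shH_notin n i ν (by simpa using hν)]
    simp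
  rw [h0, add_zero, sum_I]
  have h1 : ∑ w, ‖T (cons i w)‖ ^ 2 ≤ ∑ j, ∑ w, ‖T (cons j w)‖ ^ 2 :=
    Finset.single_le_sum (f := fun j => ∑ w, ‖T (cons j w)‖ ^ 2)
      (fun _ _ => Finset.sum_nonneg fun _ _ => by positivity) (Finset.mem_univ i)
  have h2 : 0 ≤ ‖T (nil n)‖ ^ 2 := by positivity
  linarith

/-- approximation of an operator `X` (with adjoint `Xs`) by a matrix -/
structure Apx (ts : Fin 2 → H →L[ℂ] H) (N : ℕ) (X Xs : H →L[ℂ] H) (C ε : ℝ)
    (α : Matrix (I N) (I N) ℂ) : Prop where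
  b1 : ∀ T : HI H (I N), ‖amp α T‖ ≤ C * ‖T‖
  b2 : ∀ T : HI H (I N), ‖amp αᴴ T‖ ≤ C * ‖T‖
  e1 : ∀ ξ, ‖VV ts N (X ξ) - amp α (VV ts N ξ)‖ ≤ ε * ‖ξ‖
  e2 : ∀ ξ, ‖VV ts N (Xs ξ) - amp αᴴ (VV ts N ξ)‖ ≤ ε * ‖ξ‖

theorem Apx.star {ts : Fin 2 → H →L[ℂ] H} {N : ℕ} {X Xs : H →L[ℂ] H} {C ε : ℝ}
    {α : Matrix (I N) (I N) ℂ} (h : Apx ts N X Xs C ε α) : Apx ts N Xs X C ε αᴴ :=
  ⟨h.b2, by simpa using h.b1, h.e2, by simpa using h.e1⟩

theorem Apx.add {ts : Fin 2 → H →L[ℂ] H} {N : ℕ} {X Xs Y Ys : H →L[ℂ] H} {C D ε δ : ℝ}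
    {α β : Matrix (I N) (I N) ℂ} (h : Apx ts N X Xs C ε α) (g : Apx ts N Y Ys D δ β) :
    Apx ts N (X + Y) (Xs + Ys) (C + D) (ε + δ) (α + β) := by
  refine ⟨fun T => ?_, fun T => ?_, fun ξ => ?_, fun ξ => ?_⟩
  · rw [amp_add_left, add_mul]
    exact (norm_add_le _ _).trans (add_le_add (h.b1 T) (g.b1 T))
  · rw [Matrix.conjTranspose_add, amp_add_left, add_mul]
    exact (norm_add_le _ _).trans (add_le_add (h.b2 T) (g.b2 T))
  · rw [add_apply, VV_add, amp_add_left, add_sub_add_comm, add_mul]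
    exact (norm_add_le _ _).trans (add_le_add (h.e1 ξ) (g.e1 ξ))
  · rw [add_apply, VV_add, Matrix.conjTranspose_add, amp_add_left,
      add_sub_add_comm, add_mul]
    exact (norm_add_le _ _).trans (add_le_add (h.e2 ξ) (g.e2 ξ))

theorem Apx.mul {ts : Fin 2 → H →L[ℂ] H} {N : ℕ} {X Xs Y Ys : H →L[ℂ] H} {C D ε δ A B : ℝ}
    {α β : Matrix (I N) (I N) ℂ} (h : Apx ts N X Xs C ε α) (g : Apx ts N Y Ys D δ β)
    (hC : 0 ≤ C) (hD : 0 ≤ D) (hε : 0 ≤ ε) (hδ : 0 ≤ δ)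
    (hX : ∀ ξ, ‖Xs ξ‖ ≤ A * ‖ξ‖) (hY : ∀ ξ, ‖Y ξ‖ ≤ B * ‖ξ‖) :
    Apx ts N (X * Y) (Ys * Xs) (C * D) (ε * B + C * δ + (δ * A + D * ε)) (α * β) := by
  have hA : 0 ≤ A ∨ ∀ ξ : H, ‖ξ‖ = 0 := by
    by_cases hA : 0 ≤ A
    · exact Or.inl hA
    · right
      intro ξ
      by_contra hξ
      have h0 : 0 < ‖ξ‖ := lt_of_le_of_ne (norm_nonneg _) (Ne.symm hξ)
      have := (norm_nonneg _).trans (hX ξ)
      push Not at hA
      nlinarith
  have hB : 0 ≤ B ∨ ∀ ξ : H, ‖ξ‖ = 0 := by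
    by_cases hB : 0 ≤ B
    · exact Or.inl hB
    · right
      intro ξ
      by_contra hξ
      have h0 : 0 < ‖ξ‖ := lt_of_le_of_ne (norm_nonneg _) (Ne.symm hξ)
      have := (norm_nonneg _).trans (hY ξ)
      push Not at hB
      nlinarith
  have hA' : ∀ ξ : H, 0 ≤ A * ‖ξ‖ := fun ξ => (norm_nonneg _).trans (hX ξ)
  have hB' : ∀ ξ : H, 0 ≤ B * ‖ξ‖ := fun ξ => (norm_nonneg _).trans (hY ξ)
  refine ⟨fun T => ?_, fun T => ?_, fun ξ => ?_, fun ξ => ?_⟩
  · rw [amp_mul]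
    calc ‖amp α (amp β T)‖ ≤ C * ‖amp β T‖ := h.b1 _
      _ ≤ C * (D * ‖T‖) := mul_le_mul_of_nonneg_left (g.b1 T) hC
      _ = C * D * ‖T‖ := by ring
  · rw [Matrix.conjTranspose_mul, amp_mul]
    calc ‖amp βᴴ (amp αᴴ T)‖ ≤ D * ‖amp αᴴ T‖ := g.b2 _
      _ ≤ D * (C * ‖T‖) := mul_le_mul_of_nonneg_left (h.b2 T) hD
      _ = C * D * ‖T‖ := by ring
  · rw [amp_mul]
    have e : VV ts N ((X * Y) ξ) - amp α (amp β (VV ts N ξ))
        = (VV ts N (X (Y ξ)) - amp α (VV ts N (Y ξ)))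
          + amp α (VV ts N (Y ξ) - amp β (VV ts N ξ)) := by
      rw [amp_sub]
      change VV ts N (X (Y ξ)) - _ = _
      abel
    rw [e]
    refine (norm_add_le _ _).trans ?_
    have i1 : ‖VV ts N (X (Y ξ)) - amp α (VV ts N (Y ξ))‖ ≤ ε * (B * ‖ξ‖) :=
      (h.e1 (Y ξ)).trans (mul_le_mul_of_nonneg_left (hY ξ) hε)
    have i2 : ‖amp α (VV ts N (Y ξ) - amp β (VV ts N ξ))‖ ≤ C * (δ * ‖ξ‖) :=
      (h.b1 _).trans (mul_le_mul_of_nonneg_left (g.e1 ξ) hC)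
    have i3 : 0 ≤ δ * (A * ‖ξ‖) := mul_nonneg hδ (hA' ξ)
    have i4 : 0 ≤ D * ε * ‖ξ‖ := by positivity
    calc _ ≤ ε * (B * ‖ξ‖) + C * (δ * ‖ξ‖) := add_le_add i1 i2
      _ ≤ ε * (B * ‖ξ‖) + C * (δ * ‖ξ‖) + (δ * (A * ‖ξ‖) + D * ε * ‖ξ‖) := by linarith
      _ = _ := by ring
  · rw [Matrix.conjTranspose_mul, amp_mul]
    have e : VV ts N ((Ys * Xs) ξ) - amp βᴴ (amp αᴴ (VV ts N ξ))
        = (VV ts N (Ys (Xs ξ)) - amp βᴴ (VV ts N (Xs ξ)))
          + amp βᴴ (VV ts N (Xs ξ) - amp αᴴ (VV ts N ξ)) := by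
      rw [amp_sub]
      change VV ts N (Ys (Xs ξ)) - _ = _
      abel
    rw [e]
    refine (norm_add_le _ _).trans ?_
    have i1 : ‖VV ts N (Ys (Xs ξ)) - amp βᴴ (VV ts N (Xs ξ))‖ ≤ δ * (A * ‖ξ‖) :=
      (g.e2 (Xs ξ)).trans (mul_le_mul_of_nonneg_left (hX ξ) hδ)
    have i2 : ‖amp βᴴ (VV ts N (Xs ξ) - amp αᴴ (VV ts N ξ))‖ ≤ D * (ε * ‖ξ‖) :=
      (g.b2 _).trans (mul_le_mul_of_nonneg_left (h.e2 ξ) hD)
    have i3 : 0 ≤ ε * (B * ‖ξ‖) := mul_nonneg hε (hB' ξ)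
    have i4 : 0 ≤ C * δ * ‖ξ‖ := by positivity
    calc _ ≤ δ * (A * ‖ξ‖) + D * (ε * ‖ξ‖) := add_le_add i1 i2
      _ ≤ ε * (B * ‖ξ‖) + C * δ * ‖ξ‖ + (δ * (A * ‖ξ‖) + D * (ε * ‖ξ‖)) := by linarith
      _ = _ := by ring

theorem Apx.const (ts : Fin 2 → H →L[ℂ] H) (N : ℕ) (c : ℂ) :
    Apx ts N (c • (1 : H →L[ℂ] H)) (starRingEnd ℂ c • (1 : H →L[ℂ] H)) ‖c‖ 0
      (c • (1 : Matrix (I N) (I N) ℂ)) := by
  refine ⟨fun T => ?_, fun T => ?_, fun ξ => ?_, fun ξ => ?_⟩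
  · rw [amp_smul_one, norm_smul]
  · rw [Matrix.conjTranspose_smul, Matrix.conjTranspose_one, amp_smul_one, norm_smul, norm_star]
  · rw [amp_smul_one]
    simp [VV_smul]
  · rw [Matrix.conjTranspose_smul, Matrix.conjTranspose_one, amp_smul_one]
    simp [VV_smul]

/-- enlarging the constants -/
theorem Apx.mono {ts : Fin 2 → H →L[ℂ] H} {N : ℕ} {X Xs : H →L[ℂ] H} {C ε C' ε' : ℝ}
    {α : Matrix (I N) (I N) ℂ} (h : Apx ts N X Xs C ε α) (hC : C ≤ C') (hε : ε ≤ ε') :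
    Apx ts N X Xs C' ε' α :=
  ⟨fun T => (h.b1 T).trans (mul_le_mul_of_nonneg_right hC (norm_nonneg _)),
    fun T => (h.b2 T).trans (mul_le_mul_of_nonneg_right hC (norm_nonneg _)),
    fun T => (h.e1 T).trans (mul_le_mul_of_nonneg_right hε (norm_nonneg _)),
    fun T => (h.e2 T).trans (mul_le_mul_of_nonneg_right hε (norm_nonneg _))⟩

/-- the generators -/
theorem Apx.gen (t ts : Fin 2 → H →L[ℂ] H) (h1 : ∀ ξ, ∑ i, ‖ts i ξ‖ ^ 2 = ‖ξ‖ ^ 2)
    (h2 : ∀ i j ξ, ts j (t i ξ) = if j = i then ξ else 0) (n : ℕ) (i : Fin 2) :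
    Apx ts (n + 1) (t i) (ts i) 1 ((Real.sqrt ((n + 1 : ℕ) : ℝ))⁻¹) (sh n i) := by
  have hn : (0 : ℝ) < ((n + 1 : ℕ) : ℝ) := by positivity
  have ht : ∀ ξ, ‖t i ξ‖ ^ 2 = ‖ξ‖ ^ 2 := by
    intro ξ
    rw [← h1 (t i ξ)]
    rw [Finset.sum_eq_single i]
    · rw [h2]; simp
    · intro j _ hj
      rw [h2]; simp [hj]
    · simp
  have hts : ∀ ξ, ‖ts i ξ‖ ^ 2 ≤ ‖ξ‖ ^ 2 := by
    intro ξ
    rw [← h1 ξ]
    exact Finset.single_le_sum (f := fun j => ‖ts j ξ‖ ^ 2) (fun _ _ => by positivity)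
      (Finset.mem_univ i)
  have key : ∀ (D : HI H (I (n + 1))) (ξ : H),
      ‖D‖ ^ 2 ≤ ((n + 1 : ℕ) : ℝ)⁻¹ * ‖ξ‖ ^ 2 →
      ‖D‖ ≤ (Real.sqrt ((n + 1 : ℕ) : ℝ))⁻¹ * ‖ξ‖ := by
    intro D ξ h
    refine le_of_sq_le_sq ?_ (by positivity)
    rw [mul_pow, inv_pow, Real.sq_sqrt hn.le]
    exact h
  refine ⟨fun T => ?_, fun T => ?_, fun ξ => ?_, fun ξ => ?_⟩
  · rw [one_mul]; exact norm_amp_sh n i T
  · rw [one_mul]; exact norm_amp_shH n i T
  · apply key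
    rw [norm_sq_eq, sum_I]
    have z : ∀ j w, (VV ts (n + 1) (t i ξ) - amp (sh n i) (VV ts (n + 1) ξ)) (cons j w) = 0 := by
      intro j w
      rw [PiLp.sub_apply, amp_sh_cons, VV_apply, VV_apply, W_cons, W_emb,
        ContinuousLinearMap.comp_apply, h2]
      by_cases hj : j = i
      · simp [hj]
      · simp [hj]
    simp only [z, norm_zero]
    rw [PiLp.sub_apply, amp_sh_nil, VV_apply, W_nil, sub_zero, norm_smul, mul_pow,
      Complex.norm_real, norm_inv, Real.norm_eq_abs, inv_pow, sq_abs, Real.sq_sqrt hn.le,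
      one_apply_eq_self, ht]
    simp
  · apply key
    rw [norm_sq_eq, sum_emb_add]
    have z : ∀ w, (VV ts (n + 1) (ts i ξ) - amp (sh n i)ᴴ (VV ts (n + 1) ξ)) (emb n w) = 0 := by
      intro w
      rw [PiLp.sub_apply, amp_shH_emb, VV_apply, VV_apply, W_cons, W_emb,
        ContinuousLinearMap.comp_apply, sub_self]
    simp only [z, norm_zero, ne_eq, OfNat.ofNat_ne_zero, not_false_eq_true, zero_pow,
      Finset.sum_const_zero, zero_add]
    have z2 : ∀ ν ∈ (Finset.univ.filter fun ν => ν ∉ Set.range (emb n)),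
        ‖(VV ts (n + 1) (ts i ξ) - amp (sh n i)ᴴ (VV ts (n + 1) ξ)) ν‖ ^ 2
          = ((n + 1 : ℕ) : ℝ)⁻¹ * ‖W ts (n + 1) ν (ts i ξ)‖ ^ 2 := by
      intro ν hν
      rw [PiLp.sub_apply, amp_shH_notin n i ν (by simpa using hν), sub_zero, VV_apply, norm_smul,
        mul_pow, Complex.norm_real, norm_inv, Real.norm_eq_abs, inv_pow, sq_abs,
        Real.sq_sqrt hn.le]
    rw [Finset.sum_congr rfl z2, ← Finset.mul_sum]
    refine mul_le_mul_of_nonneg_left ?_ (by positivity)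
    have s1 := sum_emb_add n (fun ν => ‖W ts (n + 1) ν (ts i ξ)‖ ^ 2)
    simp only [W_emb] at s1
    rw [sum_W ts h1, sum_W ts h1] at s1
    push_cast at s1
    have := hts ξ
    linarith

end ops

/-- approximable elements -/
def Good {O : Type} [CStarAlgebra O] {H : Type} [NormedAddCommGroup H] [InnerProductSpace ℂ H]
    [CompleteSpace H] (π : O →⋆ₐ[ℂ] (H →L[ℂ] H)) (ts : Fin 2 → H →L[ℂ] H) (x : O) : Prop :=
  ∃ C : ℝ, 0 ≤ C ∧ ∀ ε : ℝ, 0 < ε → ∃ N₀ : ℕ, ∀ N, N₀ ≤ N → 0 < N →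
    ∃ α : Matrix (I N) (I N) ℂ, Apx ts N (π x) (π (star x)) C ε α

theorem norm_map_le {O : Type} [CStarAlgebra O] {H : Type} [NormedAddCommGroup H]
    [InnerProductSpace ℂ H] [CompleteSpace H] (π : O →⋆ₐ[ℂ] (H →L[ℂ] H)) (x : O) (ξ : H) :
    ‖π x ξ‖ ≤ ‖x‖ * ‖ξ‖ := by
  refine (ContinuousLinearMap.le_opNorm _ _).trans (mul_le_mul_of_nonneg_right ?_ (norm_nonneg _))
  exact NonUnitalStarAlgHom.norm_apply_le π x

theorem good_adjoin {O : Type} [CStarAlgebra O] {H : Type} [NormedAddCommGroup H]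
    [InnerProductSpace ℂ H] [CompleteSpace H] (π : O →⋆ₐ[ℂ] (H →L[ℂ] H)) (s₁ s₂ : O)
    (ts : Fin 2 → H →L[ℂ] H) (hg1 : Good π ts s₁) (hg2 : Good π ts s₂) (x : O)
    (hx : x ∈ StarAlgebra.adjoin ℂ ({s₁, s₂} : Set O)) : Good π ts x := by
  induction hx using StarAlgebra.adjoin_induction with
  | mem x hx =>
    rcases hx with rfl | rfl
    · exact hg1
    · exact hg2
  | algebraMap r =>
    refine ⟨‖r‖, norm_nonneg _, fun ε hε => ⟨0, fun N _ _ => ⟨r • 1, ?_⟩⟩⟩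
    have h1 : π (algebraMap ℂ O r) = r • (1 : H →L[ℂ] H) := by
      rw [Algebra.algebraMap_eq_smul_one, map_smul, map_one]
    have h2 : π (star (algebraMap ℂ O r)) = starRingEnd ℂ r • (1 : H →L[ℂ] H) := by
      rw [Algebra.algebraMap_eq_smul_one, star_smul, map_smul, star_one, map_one]
      rfl
    rw [h1, h2]
    exact (Apx.const ts N r).mono le_rfl hε.le
  | add x y _ _ hx hy =>
    obtain ⟨C, hC, hx⟩ := hx
    obtain ⟨D, hD, hy⟩ := hy
    refine ⟨C + D, by positivity, fun ε hε => ?_⟩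
    obtain ⟨N₁, h₁⟩ := hx (ε / 2) (by positivity)
    obtain ⟨N₂, h₂⟩ := hy (ε / 2) (by positivity)
    refine ⟨max N₁ N₂, fun N hN hN0 => ?_⟩
    obtain ⟨α, hα⟩ := h₁ N ((le_max_left _ _).trans hN) hN0
    obtain ⟨β, hβ⟩ := h₂ N ((le_max_right _ _).trans hN) hN0
    refine ⟨α + β, ?_⟩
    have := (hα.add hβ).mono le_rfl (le_of_eq (add_halves ε))
    rwa [← map_add, ← map_add, ← star_add] at this
  | mul x y _ _ hx hy =>
    obtain ⟨C, hC, hx⟩ := hx
    obtain ⟨D, hD, hy⟩ := hy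
    refine ⟨C * D, by positivity, fun ε hε => ?_⟩
    set K : ℝ := ‖y‖ + C + ‖star x‖ + D + 1 with hK
    have hK0 : 0 < K := by positivity
    obtain ⟨N₁, h₁⟩ := hx (ε / K) (by positivity)
    obtain ⟨N₂, h₂⟩ := hy (ε / K) (by positivity)
    refine ⟨max N₁ N₂, fun N hN hN0 => ?_⟩
    obtain ⟨α, hα⟩ := h₁ N ((le_max_left _ _).trans hN) hN0
    obtain ⟨β, hβ⟩ := h₂ N ((le_max_right _ _).trans hN) hN0
    refine ⟨α * β, ?_⟩
    have h := Apx.mul hα hβ hC hD (by positivity) (by positivity)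
      (fun ξ => norm_map_le π (star x) ξ) (fun ξ => norm_map_le π y ξ)
    have h' := h.mono (C' := C * D) (ε' := ε) le_rfl (by
      have : ε / K * ‖y‖ + C * (ε / K) + (ε / K * ‖star x‖ + D * (ε / K)) = ε * ((K - 1) / K) := by
        rw [hK]; ring
      rw [this]
      have : (K - 1) / K ≤ 1 := by rw [div_le_one hK0]; linarith
      nlinarith)
    rwa [← map_mul, ← map_mul, ← star_mul] at h'
  | star x _ hx =>
    obtain ⟨C, hC, hx⟩ := hx
    refine ⟨C, hC, fun ε hε => ?_⟩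
    obtain ⟨N₁, h₁⟩ := hx ε hε
    refine ⟨N₁, fun N hN hN0 => ?_⟩
    obtain ⟨α, hα⟩ := h₁ N hN hN0
    refine ⟨αᴴ, ?_⟩
    rw [star_star]
    exact hα.star

theorem good_gen {O : Type} [CStarAlgebra O] {H : Type} [NormedAddCommGroup H]
    [InnerProductSpace ℂ H] [CompleteSpace H] (π : O →⋆ₐ[ℂ] (H →L[ℂ] H)) (s : Fin 2 → O)
    (h1 : ∀ ξ : H, ∑ i, ‖π (star (s i)) ξ‖ ^ 2 = ‖ξ‖ ^ 2)
    (h2 : ∀ (i j) (ξ : H), π (star (s j)) (π (s i) ξ) = if j = i then ξ else 0) (i : Fin 2) :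
    Good π (fun i => π (star (s i))) (s i) := by
  refine ⟨1, zero_le_one, fun ε hε => ?_⟩
  obtain ⟨N₀, hN₀⟩ := exists_nat_gt ((ε⁻¹) ^ 2)
  refine ⟨N₀, fun N hN hN0 => ?_⟩
  obtain ⟨n, rfl⟩ := Nat.exists_eq_succ_of_ne_zero hN0.ne'
  refine ⟨sh n i, (Apx.gen (fun i => π (s i)) (fun i => π (star (s i))) h1 h2 n i).mono le_rfl ?_⟩
  have h : (ε⁻¹) ^ 2 ≤ ((n + 1 : ℕ) : ℝ) := by
    have : (N₀ : ℝ) ≤ ((n + 1 : ℕ) : ℝ) := by exact_mod_cast hN
    linarith
  have h' : ε⁻¹ ≤ Real.sqrt ((n + 1 : ℕ) : ℝ) := Real.le_sqrt_of_sq_le h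
  exact inv_le_of_inv_le₀ hε h'

theorem cuntz_zero {O : Type} [CStarAlgebra O] (s₁ s₂ : O) (a1 : star s₁ * s₁ = 1)
    (a2 : star s₂ * s₂ = 1) (a3 : s₁ * star s₁ + s₂ * star s₂ = 1) : star s₁ * s₂ = 0 := by
  have h : star s₁ * (s₁ * star s₁ + s₂ * star s₂) * s₂ = star s₁ * s₂ := by rw [a3, mul_one]
  have h' : star s₁ * (s₁ * star s₁ + s₂ * star s₂) * s₂
      = (star s₁ * s₁) * (star s₁ * s₂) + (star s₁ * s₂) * (star s₂ * s₂) := by noncomm_ring
  rw [h', a1, a2, one_mul, mul_one] at h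
  exact add_eq_left.1 h

end

end Crest.Agent.R073.Cuntz

namespace Crest.Agent.R073

open scoped Matrix ComplexConjugate
open Cuntz

/-- module M3 -/
theorem stmtCuntz : StmtCuntz := by
  classical
  intro O _ s₁ s₂ a1 a2 a3 hden H _ _ _ π x η hη
  set s : Fin 2 → O := ![s₁, s₂] with hs
  set ts : Fin 2 → H →L[ℂ] H := fun i => π (star (s i)) with hts
  have hadj : ∀ y : O, π (star y) = ContinuousLinearMap.adjoint (π y) := by
    intro y
    rw [map_star]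
    rfl
  have h1 : ∀ ξ : H, ∑ i, ‖π (star (s i)) ξ‖ ^ 2 = ‖ξ‖ ^ 2 := by
    intro ξ
    have e : ∀ y : O, ‖π (star y) ξ‖ ^ 2 = (inner ℂ ξ (π (y * star y) ξ)).re := by
      intro y
      rw [map_mul, mul_apply_eq_comp, hadj y, ← ContinuousLinearMap.adjoint_inner_left]
      rw [inner_self_eq_norm_sq_to_K]
      norm_cast
    rw [Fin.sum_univ_two]
    simp only [hs, Matrix.cons_val_zero, Matrix.cons_val_one]
    rw [e, e, ← Complex.add_re, ← inner_add_right, ← add_apply, ← map_add, a3, map_one]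
    rw [one_apply_eq_self, inner_self_eq_norm_sq_to_K]
    norm_cast
  have z12 := cuntz_zero s₁ s₂ a1 a2 a3
  have z21 : star s₂ * s₁ = 0 := by
    have := congrArg star z12
    simpa using this
  have h2 : ∀ (i j) (ξ : H), π (star (s j)) (π (s i) ξ) = if j = i then ξ else 0 := by
    intro i j ξ
    rw [← mul_apply_eq_comp, ← map_mul]
    fin_cases i <;> fin_cases j <;> simp [hs, a1, a2, z12, z21]
  have hg : ∀ i, Good π ts (s i) := good_gen π s h1 h2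
  have hgood : ∀ y ∈ StarAlgebra.adjoin ℂ ({s₁, s₂} : Set O), Good π ts y :=
    good_adjoin π s₁ s₂ ts (hg 0) (hg 1)
  -- approximation by elements of the *-algebra
  set B : ℝ := ∑ i, ‖x i‖ with hB
  have hB0 : 0 ≤ B := Finset.sum_nonneg fun _ _ => norm_nonneg _
  have hxB : ∀ i, ‖x i‖ ≤ B := fun i =>
    Finset.single_le_sum (f := fun i => ‖x i‖) (fun _ _ => norm_nonneg _) (Finset.mem_univ i)
  set ε₁ : ℝ := min 1 (η / (2 * (2 * B + 2))) with hε₁
  have hε₁0 : 0 < ε₁ := lt_min one_pos (by positivity)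
  have hap : ∀ i, ∃ y ∈ StarAlgebra.adjoin ℂ ({s₁, s₂} : Set O), ‖x i - y‖ ≤ ε₁ := by
    intro i
    have hi : x i ∈ (StarAlgebra.adjoin ℂ ({s₁, s₂} : Set O)).topologicalClosure := by
      rw [hden]; trivial
    have hi' : x i ∈ closure ((StarAlgebra.adjoin ℂ ({s₁, s₂} : Set O) : StarSubalgebra ℂ O) : Set O) := by
      rw [← StarSubalgebra.topologicalClosure_coe]
      exact hi
    obtain ⟨y, hy, hd⟩ := Metric.mem_closure_iff.1 hi' ε₁ hε₁0
    exact ⟨y, hy, by rw [← dist_eq_norm]; exact hd.le⟩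
  choose y hy hxy using hap
  have hG : ∀ i, Good π ts (y i) := fun i => hgood _ (hy i)
  choose C hC hG using hG
  set D : ℝ := ∑ i, C i with hD
  have hD0 : 0 ≤ D := Finset.sum_nonneg fun _ _ => hC _
  have hCD : ∀ i, C i ≤ D := fun i =>
    Finset.single_le_sum (f := C) (fun _ _ => hC _) (Finset.mem_univ i)
  set ε₂ : ℝ := η / (2 * (B + 2 + D)) with hε₂
  have hε₂0 : 0 < ε₂ := by positivity
  choose N₀ hN₀ using fun i => hG i ε₂ hε₂0
  set N : ℕ := (∑ i, N₀ i) + 1 with hN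
  have hN0 : 0 < N := Nat.succ_pos _
  have hNi : ∀ i, N₀ i ≤ N := fun i =>
    (Finset.single_le_sum (f := N₀) (fun _ _ => Nat.zero_le _) (Finset.mem_univ i)).trans
      (Nat.le_succ _)
  choose α hα using fun i => hN₀ i N (hNi i) hN0
  have hyB : ∀ i, ‖y i‖ ≤ B + 1 := by
    intro i
    have : ‖y i‖ ≤ ‖x i‖ + ‖x i - y i‖ := by
      have := norm_sub_le (x i) (x i - y i)
      simpa using this
    have h3 : ε₁ ≤ 1 := min_le_left _ _
    linarith [hxB i, hxy i]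
  have hVV := VV_norm ts h1 N hN0
  -- the two estimates
  have E1 : ∀ i ξ, ‖VV ts N (π (x i) ξ) - amp (α i) (VV ts N ξ)‖ ≤ η * ‖ξ‖ := by
    intro i ξ
    have e : VV ts N (π (x i) ξ) - amp (α i) (VV ts N ξ)
        = VV ts N (π (x i - y i) ξ) + (VV ts N (π (y i) ξ) - amp (α i) (VV ts N ξ)) := by
      rw [map_sub, sub_apply, VV_sub]
      abel
    rw [e]
    have b1 : ‖VV ts N (π (x i - y i) ξ)‖ ≤ ε₁ * ‖ξ‖ := by
      rw [hVV]
      exact (norm_map_le π _ ξ).trans (mul_le_mul_of_nonneg_right (hxy i) (norm_nonneg _))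
    have b2 := (hα i).e1 ξ
    have c1 : ε₁ ≤ η / 2 := by
      refine (min_le_right _ _).trans ?_
      rw [div_le_div_iff₀ (by positivity) (by norm_num)]
      nlinarith
    have c2 : ε₂ ≤ η / 2 := by
      rw [hε₂, div_le_div_iff₀ (by positivity) (by norm_num)]
      nlinarith
    calc _ ≤ ε₁ * ‖ξ‖ + ε₂ * ‖ξ‖ := (norm_add_le _ _).trans (add_le_add b1 b2)
      _ = (ε₁ + ε₂) * ‖ξ‖ := by ring
      _ ≤ η * ‖ξ‖ := mul_le_mul_of_nonneg_right (by linarith) (norm_nonneg _)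
  have E2 : ∀ i ξ, ‖VV ts N (π (star (x i) * x i) ξ) - amp ((α i)ᴴ * α i) (VV ts N ξ)‖
      ≤ η * ‖ξ‖ := by
    intro i ξ
    have e : VV ts N (π (star (x i) * x i) ξ) - amp ((α i)ᴴ * α i) (VV ts N ξ)
        = VV ts N (π (star (x i) * x i - star (y i) * y i) ξ)
          + (VV ts N (π (star (y i)) (π (y i) ξ)) - amp (α i)ᴴ (VV ts N (π (y i) ξ)))
          + amp (α i)ᴴ (VV ts N (π (y i) ξ) - amp (α i) (VV ts N ξ)) := by
      rw [map_sub, sub_apply, VV_sub, amp_sub, amp_mul,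
        map_mul π (star (y i)), mul_apply_eq_comp]
      abel
    rw [e]
    have b0 : ‖star (x i) * x i - star (y i) * y i‖ ≤ ε₁ * (2 * B + 1) := by
      have e' : star (x i) * x i - star (y i) * y i
          = star (x i) * (x i - y i) + star (x i - y i) * y i := by
        rw [star_sub]; noncomm_ring
      rw [e']
      refine (norm_add_le _ _).trans ?_
      have u1 : ‖star (x i) * (x i - y i)‖ ≤ B * ε₁ := by
        refine (norm_mul_le _ _).trans ?_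
        rw [norm_star]
        exact mul_le_mul (hxB i) (hxy i) (norm_nonneg _) hB0
      have u2 : ‖star (x i - y i) * y i‖ ≤ ε₁ * (B + 1) := by
        refine (norm_mul_le _ _).trans ?_
        rw [norm_star]
        exact mul_le_mul (hxy i) (hyB i) (norm_nonneg _) hε₁0.le
      linarith
    have b1 : ‖VV ts N (π (star (x i) * x i - star (y i) * y i) ξ)‖ ≤ ε₁ * (2 * B + 1) * ‖ξ‖ := by
      rw [hVV]
      exact (norm_map_le π _ ξ).trans (mul_le_mul_of_nonneg_right b0 (norm_nonneg _))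
    have b2 : ‖VV ts N (π (star (y i)) (π (y i) ξ)) - amp (α i)ᴴ (VV ts N (π (y i) ξ))‖
        ≤ ε₂ * ((B + 1) * ‖ξ‖) := by
      refine ((hα i).e2 _).trans (mul_le_mul_of_nonneg_left ?_ hε₂0.le)
      exact (norm_map_le π _ ξ).trans (mul_le_mul_of_nonneg_right (hyB i) (norm_nonneg _))
    have b3 : ‖amp (α i)ᴴ (VV ts N (π (y i) ξ) - amp (α i) (VV ts N ξ))‖ ≤ D * (ε₂ * ‖ξ‖) := by
      refine ((hα i).b2 _).trans ?_
      exact mul_le_mul (hCD i) ((hα i).e1 ξ) (norm_nonneg _) hD0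
    have c1 : ε₁ * (2 * B + 1) ≤ η / 2 := by
      have : ε₁ ≤ η / (2 * (2 * B + 2)) := min_le_right _ _
      calc ε₁ * (2 * B + 1) ≤ η / (2 * (2 * B + 2)) * (2 * B + 2) :=
            mul_le_mul this (by linarith) (by positivity) (by positivity)
        _ = η / 2 := by field_simp
    have c2 : ε₂ * (B + 1) + D * ε₂ ≤ η / 2 := by
      have : ε₂ * (B + 2 + D) = η / 2 := by rw [hε₂]; field_simp
      nlinarith
    calc _ ≤ ε₁ * (2 * B + 1) * ‖ξ‖ + ε₂ * ((B + 1) * ‖ξ‖) + D * (ε₂ * ‖ξ‖) :=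
          (norm_add_le _ _).trans (add_le_add ((norm_add_le _ _).trans (add_le_add b1 b2)) b3)
      _ = (ε₁ * (2 * B + 1) + (ε₂ * (B + 1) + D * ε₂)) * ‖ξ‖ := by ring
      _ ≤ η * ‖ξ‖ := mul_le_mul_of_nonneg_right (by linarith) (norm_nonneg _)
  -- reindexing
  set e : I N ≃ Fin (Fintype.card (I N)) := Fintype.equivFin (I N) with he
  refine ⟨Fintype.card (I N), fun i => (((Real.sqrt N)⁻¹ : ℝ) : ℂ) • W ts N (e.symm i),
    fun i => (α i).submatrix e.symm e.symm, ?_, ?_, ?_⟩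
  · intro ξ
    have := VV_norm_sq ts h1 N hN0 ξ
    rw [norm_sq_eq] at this
    rw [← this, ← e.symm.sum_comp]
    rfl
  · intro i ξ
    have h3 := pow_le_pow_left₀ (norm_nonneg _) (E1 i ξ) 2
    rw [norm_sq_eq, mul_pow] at h3
    refine le_trans (le_of_eq ?_) h3
    rw [← e.symm.sum_comp]
    refine Finset.sum_congr rfl fun a _ => ?_
    rw [PiLp.sub_apply, amp_apply, ← e.symm.sum_comp]
    rfl
  · intro i ξ
    have h3 := pow_le_pow_left₀ (norm_nonneg _) (E2 i ξ) 2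
    rw [norm_sq_eq, mul_pow] at h3
    refine le_trans (le_of_eq ?_) h3
    rw [← e.symm.sum_comp]
    refine Finset.sum_congr rfl fun a _ => ?_
    rw [PiLp.sub_apply, amp_apply, ← e.symm.sum_comp, Matrix.conjTranspose_submatrix,
      Matrix.submatrix_mul_equiv]
    rfl

end Crest.Agent.R073
private theorem rz_47f153f503 : type_of% @_root_.Crest.Agent.R073.Cuntz.W.eq_def := @_root_.Crest.Agent.R073.Cuntz.W.eq_def -- L98
private theorem rz_58df7d087b : type_of% @_root_.Crest.Agent.R073.Cuntz.W.eq_1 := @_root_.Crest.Agent.R073.Cuntz.W.eq_1 -- L98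
end

-- ▼ part R073/ExpAbs
section

/-!
Row 73, module M6d, abstract part: for isometries `u, v` of order `p` (prime, `p ≥ 64`) of an inner
product space with central commutator, the averaging projections satisfy
`2 Re ⟪Q_u ξ, Q_v ξ⟫ + (‖Q_u ξ‖² + ‖Q_v ξ‖²)/8 ≥ 0`.
-/

set_option autoImplicit false

namespace Crest.Agent.R073

open scoped ComplexConjugate InnerProductSpace
open Finset

noncomputable section

/-- group computation -/
theorem pow_mul_pow_of_cm {G : Type} [Group G] (x y : G) (hx : Commute (cm x y) x)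
    (hy : Commute (cm x y) y) (j k : ℕ) :
    x ^ j * y ^ k = cm x y ^ (j * k) * (y ^ k * x ^ j) := by
  have h1 : x * y = cm x y * (y * x) := by unfold cm; group
  have h2 : ∀ k : ℕ, x * y ^ k = cm x y ^ k * (y ^ k * x) := by
    intro k
    induction k with
    | zero => simp
    | succ k ih =>
      have hc : y ^ k * cm x y = cm x y * y ^ k := (hy.pow_right k).eq.symm
      calc x * y ^ (k + 1) = x * y ^ k * y := by rw [pow_succ, mul_assoc]
        _ = cm x y ^ k * (y ^ k * x) * y := by rw [ih]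
        _ = cm x y ^ k * (y ^ k * (x * y)) := by simp only [mul_assoc]
        _ = cm x y ^ k * (y ^ k * (cm x y * (y * x))) := by rw [h1]
        _ = cm x y ^ k * ((y ^ k * cm x y) * (y * x)) := by simp only [mul_assoc]
        _ = cm x y ^ k * ((cm x y * y ^ k) * (y * x)) := by rw [hc]
        _ = cm x y ^ (k + 1) * (y ^ (k + 1) * x) := by
            rw [pow_succ (cm x y), pow_succ y]; simp only [mul_assoc]
  induction j with
  | zero => simp
  | succ j ih =>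
    have hc : x ^ j * cm x y ^ k = cm x y ^ k * x ^ j := (hx.pow_pow k j).eq.symm
    calc x ^ (j + 1) * y ^ k = x ^ j * (x * y ^ k) := by rw [pow_succ, mul_assoc]
      _ = x ^ j * (cm x y ^ k * (y ^ k * x)) := by rw [h2]
      _ = (x ^ j * cm x y ^ k) * (y ^ k * x) := by simp only [mul_assoc]
      _ = cm x y ^ k * (x ^ j * y ^ k * x) := by rw [hc]; simp only [mul_assoc]
      _ = cm x y ^ k * (cm x y ^ (j * k) * (y ^ k * x ^ j) * x) := by rw [ih]
      _ = (cm x y ^ k * cm x y ^ (j * k)) * (y ^ k * (x ^ j * x)) := by simp only [mul_assoc]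
      _ = cm x y ^ ((j + 1) * k) * (y ^ k * x ^ (j + 1)) := by
          rw [← pow_add, ← pow_succ]
          congr 2
          ring

section Abs

variable {H : Type} [NormedAddCommGroup H] [InnerProductSpace ℂ H]

/-- inner product preserving endomorphism -/
def IsIso (u : Module.End ℂ H) : Prop := ∀ x y, ⟪u x, u y⟫_ℂ = ⟪x, y⟫_ℂ

/-- average over the powers -/
def av (p : ℕ) (u : Module.End ℂ H) : Module.End ℂ H := (p : ℂ)⁻¹ • ∑ k ∈ range p, u ^ k

lemma IsIso.pow {u : Module.End ℂ H} (hu : IsIso u) (k : ℕ) : IsIso (u ^ k) := by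
  induction k with
  | zero => intro x y; simp
  | succ k ih =>
    intro x y
    rw [pow_succ]
    simp only [Module.End.mul_apply]
    rw [ih, hu]

lemma mul_av {p : ℕ} {u : Module.End ℂ H} (hp : u ^ p = 1) : u * av p u = av p u := by
  unfold av
  rw [mul_smul_comm, Finset.mul_sum]
  congr 1
  have h1 : ∑ k ∈ range p, u * u ^ k = ∑ k ∈ range p, u ^ (k + 1) :=
    Finset.sum_congr rfl fun k _ => (pow_succ' u k).symm
  rw [h1]
  have h2 := Finset.sum_range_succ (fun k => u ^ k) p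
  have h3 := Finset.sum_range_succ' (fun k => u ^ k) p
  rw [h2, hp, pow_zero] at h3
  exact (add_right_cancel h3).symm

lemma pow_mul_av {p : ℕ} {u : Module.End ℂ H} (hp : u ^ p = 1) (j : ℕ) :
    u ^ j * av p u = av p u := by
  induction j with
  | zero => simp
  | succ j ih => rw [pow_succ, mul_assoc, mul_av hp, ih]

lemma pow_av_apply {p : ℕ} {u : Module.End ℂ H} (hp : u ^ p = 1) (j : ℕ) (x : H) :
    (u ^ j) (av p u x) = av p u x := by
  have := pow_mul_av hp j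
  exact congrArg (fun f => f x) this

lemma av_apply (p : ℕ) (u : Module.End ℂ H) (x : H) :
    av p u x = (p : ℂ)⁻¹ • ∑ k ∈ range p, (u ^ k) x := by
  unfold av
  simp [LinearMap.sum_apply]

lemma av_of_fix {p : ℕ} (hp0 : p ≠ 0) {u : Module.End ℂ H} {x : H} (hx : u x = x) :
    av p u x = x := by
  rw [av_apply]
  have h1 : ∀ k : ℕ, (u ^ k) x = x := by
    intro k
    induction k with
    | zero => simp
    | succ k ih => rw [pow_succ, Module.End.mul_apply, hx, ih]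
  rw [Finset.sum_congr rfl fun k _ => h1 k, Finset.sum_const, Finset.card_range,
    ← Nat.cast_smul_eq_nsmul ℂ, smul_smul, inv_mul_cancel₀ (by exact_mod_cast hp0), one_smul]

lemma av_av {p : ℕ} (hp0 : p ≠ 0) {u : Module.End ℂ H} (hp : u ^ p = 1) (x : H) :
    av p u (av p u x) = av p u x := by
  apply av_of_fix hp0
  have := pow_av_apply hp 1 x
  simpa using this

lemma inner_av_left {p : ℕ} (hp0 : p ≠ 0) {u : Module.End ℂ H} (hu : IsIso u) (hp : u ^ p = 1)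
    (x y : H) : ⟪av p u x, y⟫_ℂ = ⟪av p u x, av p u y⟫_ℂ := by
  have h1 : ∀ j : ℕ, ⟪av p u x, (u ^ j) y⟫_ℂ = ⟪av p u x, y⟫_ℂ := by
    intro j
    have h2 := hu.pow j (av p u x) y
    rw [pow_av_apply hp] at h2
    exact h2
  conv_rhs => rw [av_apply p u y]
  rw [inner_smul_right, inner_sum, Finset.sum_congr rfl fun j _ => h1 j, Finset.sum_const,
    Finset.card_range, nsmul_eq_mul, ← mul_assoc, inv_mul_cancel₀ (by exact_mod_cast hp0), one_mul]

lemma inner_av_right {p : ℕ} (hp0 : p ≠ 0) {u : Module.End ℂ H} (hu : IsIso u) (hp : u ^ p = 1)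
    (x y : H) : ⟪x, av p u y⟫_ℂ = ⟪av p u x, av p u y⟫_ℂ := by
  rw [← inner_conj_symm, inner_av_left hp0 hu hp, inner_conj_symm]

lemma inner_av_comm {p : ℕ} (hp0 : p ≠ 0) {u : Module.End ℂ H} (hu : IsIso u) (hp : u ^ p = 1)
    (x y : H) : ⟪av p u x, y⟫_ℂ = ⟪x, av p u y⟫_ℂ :=
  (inner_av_left hp0 hu hp x y).trans (inner_av_right hp0 hu hp x y).symm

lemma inner_co_left {p : ℕ} (hp0 : p ≠ 0) {u : Module.End ℂ H} (hu : IsIso u) (hp : u ^ p = 1)
    (x y : H) : ⟪x - av p u x, y⟫_ℂ = ⟪x - av p u x, y - av p u y⟫_ℂ := by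
  rw [inner_sub_right (x - av p u x) y, inner_sub_left x, inner_sub_left x,
    inner_av_right hp0 hu hp]
  simp

lemma inner_co_right {p : ℕ} (hp0 : p ≠ 0) {u : Module.End ℂ H} (hu : IsIso u) (hp : u ^ p = 1)
    (x y : H) : ⟪x, y - av p u y⟫_ℂ = ⟪x - av p u x, y - av p u y⟫_ℂ := by
  rw [← inner_conj_symm, inner_co_left hp0 hu hp, inner_conj_symm]

lemma norm_co_sq {p : ℕ} (hp0 : p ≠ 0) {u : Module.End ℂ H} (hu : IsIso u) (hp : u ^ p = 1)
    (x : H) : ‖x - av p u x‖ ^ 2 = ‖x‖ ^ 2 - ‖av p u x‖ ^ 2 := by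
  have h1 : RCLike.re ⟪x, av p u x⟫_ℂ = ‖av p u x‖ ^ 2 := by
    rw [inner_av_right hp0 hu hp, inner_self_eq_norm_sq_to_K]
    norm_cast
  rw [norm_sub_sq (𝕜 := ℂ), h1]; ring

lemma norm_sub_av_le {p : ℕ} (hp0 : p ≠ 0) {u : Module.End ℂ H} (hu : IsIso u) (x : H) :
    ‖x - av p u x‖ ≤ p * ‖u x - x‖ := by
  have hnorm : ∀ (v : Module.End ℂ H), IsIso v → ∀ z, ‖v z‖ = ‖z‖ := by
    intro v hv z
    have h1 := hv z z
    rw [inner_self_eq_norm_sq_to_K, inner_self_eq_norm_sq_to_K] at h1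
    have h2 : ‖v z‖ ^ 2 = ‖z‖ ^ 2 := by exact_mod_cast h1
    exact (sq_eq_sq₀ (norm_nonneg _) (norm_nonneg _)).mp h2
  have h1 : ∀ k : ℕ, ‖(u ^ k) x - x‖ ≤ k * ‖u x - x‖ := by
    intro k
    induction k with
    | zero => simp
    | succ k ih =>
      have h2 : (u ^ (k + 1)) x - x = (u ^ k) (u x - x) + ((u ^ k) x - x) := by
        rw [pow_succ, Module.End.mul_apply, map_sub]; abel
      rw [h2]
      calc _ ≤ ‖(u ^ k) (u x - x)‖ + ‖(u ^ k) x - x‖ := norm_add_le _ _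
        _ ≤ ‖u x - x‖ + k * ‖u x - x‖ := add_le_add (hnorm _ (hu.pow k) _).le ih
        _ = ((k + 1 : ℕ) : ℝ) * ‖u x - x‖ := by push_cast; ring
  have hpC : (p : ℂ) ≠ 0 := by exact_mod_cast hp0
  have h2 : x - av p u x = (p : ℂ)⁻¹ • ∑ k ∈ range p, (x - (u ^ k) x) := by
    rw [av_apply, Finset.sum_sub_distrib, smul_sub, Finset.sum_const, Finset.card_range,
      ← Nat.cast_smul_eq_nsmul ℂ, smul_smul, inv_mul_cancel₀ hpC, one_smul]
  rw [h2, norm_smul, norm_inv, Complex.norm_natCast]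
  have hpR : (0 : ℝ) < p := by exact_mod_cast Nat.pos_of_ne_zero hp0
  rw [inv_mul_le_iff₀ hpR]
  calc ‖∑ k ∈ range p, (x - (u ^ k) x)‖ ≤ ∑ k ∈ range p, ‖x - (u ^ k) x‖ := norm_sum_le _ _
    _ ≤ ∑ _k ∈ range p, (p : ℝ) * ‖u x - x‖ := by
        refine Finset.sum_le_sum fun k hk => ?_
        rw [norm_sub_rev]
        refine (h1 k).trans ?_
        have : (k : ℝ) ≤ p := by exact_mod_cast (Finset.mem_range.mp hk).le
        exact mul_le_mul_of_nonneg_right this (norm_nonneg _)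
    _ = p * (p * ‖u x - x‖) := by rw [Finset.sum_const, Finset.card_range, nsmul_eq_mul]

/-- relations of a Heisenberg pair on `H` -/
structure Heis (p : ℕ) (u v w : Module.End ℂ H) : Prop where
  iu : IsIso u
  iv : IsIso v
  iw : IsIso w
  pu : u ^ p = 1
  pv : v ^ p = 1
  pw : w ^ p = 1
  cu : Commute w u
  cv : Commute w v
  rel : ∀ j k : ℕ, u ^ j * v ^ k = w ^ (j * k) * (v ^ k * u ^ j)

lemma commute_av {p : ℕ} {w u : Module.End ℂ H} (h : Commute w u) : Commute (av p w) (av p u) := by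
  unfold av
  refine Commute.smul_left (Commute.smul_right ?_ _) _
  refine Commute.sum_left _ _ _ fun k _ => Commute.sum_right _ _ _ fun j _ => h.pow_pow k j

/-- the good part: `w ξ = ξ` -/
lemma heis_fix {p : ℕ} (hp0 : p ≠ 0) {u v w : Module.End ℂ H} (h : Heis p u v w) (ξ : H)
    (hξ : w ξ = ξ) : 0 ≤ RCLike.re ⟪ξ - av p u ξ, ξ - av p v ξ⟫_ℂ := by
  have hwk : ∀ k : ℕ, (w ^ k) ξ = ξ := by
    intro k
    induction k with
    | zero => simp
    | succ k ih => rw [pow_succ, Module.End.mul_apply, hξ, ih]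
  have hcomm : ∀ j k : ℕ, (u ^ j) ((v ^ k) ξ) = (v ^ k) ((u ^ j) ξ) := by
    intro j k
    have h1 := congrArg (fun f => f ξ) (h.rel j k)
    simp only [Module.End.mul_apply] at h1
    rw [h1]
    have h2 : Commute (w ^ (j * k)) (v ^ k * u ^ j) :=
      Commute.mul_right (h.cv.pow_pow _ _) (h.cu.pow_pow _ _)
    have h3 := congrArg (fun f => f ξ) h2.eq
    simp only [Module.End.mul_apply] at h3
    rw [h3, hwk]
  have hAB : av p u (av p v ξ) = av p v (av p u ξ) := by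
    rw [av_apply p v ξ, map_smul, map_sum]
    rw [av_apply p u ξ, map_smul, map_sum]
    simp only [av_apply]
    rw [← Finset.smul_sum, ← Finset.smul_sum, Finset.sum_comm]
    congr 2
    refine Finset.sum_congr rfl fun j _ => Finset.sum_congr rfl fun k _ => hcomm j k
  have e1 : (ξ - av p v ξ) - av p u (ξ - av p v ξ) = (ξ - av p u ξ) - av p v (ξ - av p u ξ) := by
    rw [map_sub, map_sub, hAB]; abel
  rw [inner_co_left hp0 h.iu h.pu ξ (ξ - av p v ξ), e1, inner_co_right hp0 h.iv h.pv,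
    inner_self_eq_norm_sq_to_K]
  norm_cast
  positivity

/-- the part orthogonal to the fixed vectors of `w` -/
lemma heis_orth {p : ℕ} (hp0 : p.Prime) (hp64 : 64 ≤ p) {u v w : Module.End ℂ H}
    (h : Heis p u v w) (ξ : H) (hξ : av p w ξ = 0) :
    0 ≤ 2 * RCLike.re ⟪ξ - av p u ξ, ξ - av p v ξ⟫_ℂ +
      1 / 8 * (‖ξ - av p u ξ‖ ^ 2 + ‖ξ - av p v ξ‖ ^ 2) := by
  have hp0' := hp0.ne_zero
  set α := av p u ξ with hα
  set β := av p v ξ with hβ
  have hZα : av p w α = 0 := by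
    have h1 := congrArg (fun f => f ξ) (commute_av (p := p) h.cu).eq
    simp only [Module.End.mul_apply] at h1
    rw [hα, h1, hξ, map_zero]
  have huα : ∀ j : ℕ, (u ^ j) α = α := fun j => pow_av_apply h.pu j ξ
  -- the off-diagonal coefficients vanish
  have hoff : ∀ k ∈ range p, k ≠ 0 → ⟪(v ^ k) α, α⟫_ℂ = 0 := by
    intro k hk hk0
    have hkp := Finset.mem_range.mp hk
    have hcop : k.Coprime p :=
      (Nat.coprime_of_lt_prime hk0 hkp hp0).symm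
    obtain ⟨j0, -, hj0⟩ := Nat.exists_mul_mod_eq_one_of_coprime hcop hp0.one_lt
    have hwj : w ^ (j0 * k) = w := by
      have h1 : j0 * k = p * (j0 * k / p) + 1 := by
        have := Nat.div_add_mod (j0 * k) p
        rw [mul_comm j0 k, hj0] at this
        rw [mul_comm j0 k]
        exact this.symm
      rw [h1, pow_add, pow_mul, h.pw, one_pow, one_mul, pow_one]
    have h2 : ∀ i : ℕ, ⟪(w ^ i) ((v ^ k) α), α⟫_ℂ = ⟪(v ^ k) α, α⟫_ℂ := by
      intro i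
      have h3 := h.iu.pow (j0 * i) ((v ^ k) α) α
      rw [huα] at h3
      have h4 := congrArg (fun f => f α) (h.rel (j0 * i) k)
      simp only [Module.End.mul_apply] at h4
      rw [huα] at h4
      have h5 : w ^ (j0 * i * k) = w ^ i := by
        have : j0 * i * k = (j0 * k) * i := by ring
        rw [this, pow_mul, hwj]
      rw [h5] at h4
      rw [← h4, h3]
    have h3 : ⟪(v ^ k) α, α⟫_ℂ = ⟪av p w ((v ^ k) α), α⟫_ℂ := by
      rw [av_apply, inner_smul_left, sum_inner, Finset.sum_congr rfl fun i _ => h2 i,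
        Finset.sum_const, Finset.card_range, nsmul_eq_mul, ← mul_assoc]
      rw [map_inv₀, Complex.conj_natCast, inv_mul_cancel₀ (by exact_mod_cast hp0'), one_mul]
    rw [h3, inner_av_comm hp0' h.iw h.pw, hZα, inner_zero_right]
  have hBα : ‖av p v α‖ ^ 2 = (p : ℝ)⁻¹ * ‖α‖ ^ 2 := by
    have h1 : ⟪av p v α, av p v α⟫_ℂ = (p : ℂ)⁻¹ * ⟪α, α⟫_ℂ := by
      rw [← inner_av_left hp0' h.iv h.pv, av_apply, inner_smul_left, sum_inner,
        map_inv₀, Complex.conj_natCast]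
      congr 1
      rw [Finset.sum_eq_single 0]
      · simp
      · intro k hk hk0; exact hoff k hk hk0
      · intro h0; exact absurd (Finset.mem_range.mpr hp0.pos) h0
    rw [inner_self_eq_norm_sq_to_K, inner_self_eq_norm_sq_to_K] at h1
    have h2 : ((‖av p v α‖ ^ 2 : ℝ) : ℂ) = (((p : ℝ)⁻¹ * ‖α‖ ^ 2 : ℝ) : ℂ) := by
      push_cast
      exact h1
    exact Complex.ofReal_injective h2
  -- Re ⟪α, β⟫ is small
  have hr : 2 * RCLike.re ⟪α, β⟫_ℂ ≤ 1 / 8 * (‖α‖ ^ 2 + ‖β‖ ^ 2) := by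
    have h1 : ⟪α, β⟫_ℂ = ⟪av p v α, β⟫_ℂ := by
      rw [hβ, inner_av_comm hp0' h.iv h.pv, av_av hp0' h.pv]
    have h2 : ‖av p v α‖ ≤ 1 / 8 * ‖α‖ := by
      have h3 : ‖av p v α‖ ^ 2 ≤ (1 / 8 * ‖α‖) ^ 2 := by
        rw [hBα]
        have h4 : (p : ℝ)⁻¹ ≤ 1 / 64 := by
          rw [inv_le_comm₀ (by exact_mod_cast hp0.pos) (by norm_num)]
          norm_num
          exact_mod_cast hp64
        nlinarith [sq_nonneg ‖α‖]
      exact (pow_le_pow_iff_left₀ (norm_nonneg _) (by positivity) two_ne_zero).mp h3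
    have h3 : RCLike.re ⟪av p v α, β⟫_ℂ ≤ ‖av p v α‖ * ‖β‖ := re_inner_le_norm _ _
    rw [h1]
    nlinarith [norm_nonneg β, norm_nonneg α, sq_nonneg (‖α‖ - ‖β‖),
      mul_le_mul_of_nonneg_right h2 (norm_nonneg β)]
  -- Cauchy-Schwarz
  have ha : RCLike.re ⟪ξ, α⟫_ℂ = ‖α‖ ^ 2 := by
    rw [hα, inner_av_right hp0' h.iu h.pu, inner_self_eq_norm_sq_to_K]; norm_cast
  have hb : RCLike.re ⟪ξ, β⟫_ℂ = ‖β‖ ^ 2 := by
    rw [hβ, inner_av_right hp0' h.iv h.pv, inner_self_eq_norm_sq_to_K]; norm_cast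
  have hab : ‖α + β‖ ^ 2 = ‖α‖ ^ 2 + 2 * RCLike.re ⟪α, β⟫_ℂ + ‖β‖ ^ 2 := norm_add_sq (𝕜 := ℂ) _ _
  have hcs : (‖α‖ ^ 2 + ‖β‖ ^ 2) ^ 2 ≤ ‖ξ‖ ^ 2 * ‖α + β‖ ^ 2 := by
    have h1 : RCLike.re ⟪ξ, α + β⟫_ℂ = ‖α‖ ^ 2 + ‖β‖ ^ 2 := by
      rw [inner_add_right, map_add, ha, hb]
    have h2 : RCLike.re ⟪ξ, α + β⟫_ℂ ≤ ‖ξ‖ * ‖α + β‖ := re_inner_le_norm _ _
    rw [h1] at h2
    calc (‖α‖ ^ 2 + ‖β‖ ^ 2) ^ 2 ≤ (‖ξ‖ * ‖α + β‖) ^ 2 := pow_le_pow_left₀ (by positivity) h2 2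
      _ = _ := by ring
  have hcross : RCLike.re ⟪ξ - α, ξ - β⟫_ℂ = ‖ξ‖ ^ 2 - ‖α‖ ^ 2 - ‖β‖ ^ 2 + RCLike.re ⟪α, β⟫_ℂ := by
    rw [inner_sub_left, inner_sub_right, inner_sub_right, map_sub, map_sub, map_sub, hb]
    have h1 : RCLike.re ⟪α, ξ⟫_ℂ = ‖α‖ ^ 2 := by rw [inner_re_symm, ha]
    have h2 : RCLike.re ⟪ξ, ξ⟫_ℂ = ‖ξ‖ ^ 2 := by
      rw [inner_self_eq_norm_sq_to_K]; norm_cast
    rw [h1, h2]; ring
  rw [hcross, hα, hβ, norm_co_sq hp0' h.iu h.pu, norm_co_sq hp0' h.iv h.pv, ← hα, ← hβ]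
  rw [hab] at hcs
  set a := ‖α‖ ^ 2
  set b := ‖β‖ ^ 2
  set n := ‖ξ‖ ^ 2
  set r := RCLike.re ⟪α, β⟫_ℂ
  have ha0 : 0 ≤ a := by positivity
  have hb0 : 0 ≤ b := by positivity
  have hn0 : 0 ≤ n := by positivity
  have hs0 : 0 ≤ a + 2 * r + b := by rw [← hab]; positivity
  -- goal: 0 ≤ 2 * (n - a - b + r) + 1/8 * (n - a + (n - b))
  by_contra hneg
  push Not at hneg
  rcases (lt_or_eq_of_le hs0) with hs | hs
  · nlinarith [mul_pos hs (neg_pos.mpr hneg), mul_nonneg (by linarith : 0 ≤ 1 / 8 * (a + b) - 2 * r)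
      (by nlinarith : 0 ≤ (a + b) - 2 * r)]
  · rw [← hs, mul_zero] at hcs
    have h1 : a + b = 0 := by nlinarith
    have h2 : r = 0 := by linarith
    nlinarith

/-- the inequality for a Heisenberg pair -/
theorem heis_pair {p : ℕ} (hp0 : p.Prime) (hp64 : 64 ≤ p) {u v w : Module.End ℂ H}
    (h : Heis p u v w) (ξ : H) :
    0 ≤ 2 * RCLike.re ⟪ξ - av p u ξ, ξ - av p v ξ⟫_ℂ +
      1 / 8 * (‖ξ - av p u ξ‖ ^ 2 + ‖ξ - av p v ξ‖ ^ 2) := by
  have hp0' := hp0.ne_zero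
  set ξ0 := av p w ξ with hξ0
  set ξ1 := ξ - av p w ξ with hξ1
  have hsum : ξ = ξ0 + ξ1 := by rw [hξ0, hξ1]; abel
  have hw0 : w ξ0 = ξ0 := by
    have := pow_av_apply h.pw 1 ξ
    simpa using this
  have hz1 : av p w ξ1 = 0 := by
    rw [hξ1, map_sub, av_av hp0' h.pw, sub_self]
  have hcu : ∀ x, av p w (av p u x) = av p u (av p w x) := fun x =>
    congrArg (fun f => f x) (commute_av (p := p) h.cu).eq
  have hcv : ∀ x, av p w (av p v x) = av p v (av p w x) := fun x =>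
    congrArg (fun f => f x) (commute_av (p := p) h.cv).eq
  have horth : ∀ x y, av p w x = x → av p w y = 0 → ⟪x, y⟫_ℂ = 0 := by
    intro x y hx hy
    rw [← hx, inner_av_comm hp0' h.iw h.pw, hy, inner_zero_right]
  have horth' : ∀ x y, av p w x = x → av p w y = 0 → ⟪y, x⟫_ℂ = 0 := by
    intro x y hx hy
    rw [← inner_conj_symm, horth x y hx hy, map_zero]
  have h00 : av p w ξ0 = ξ0 := av_of_fix hp0' hw0
  have hu0 : av p w (ξ0 - av p u ξ0) = ξ0 - av p u ξ0 := by rw [map_sub, hcu, h00]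
  have hv0 : av p w (ξ0 - av p v ξ0) = ξ0 - av p v ξ0 := by rw [map_sub, hcv, h00]
  have hu1 : av p w (ξ1 - av p u ξ1) = 0 := by rw [map_sub, hcu, hz1, map_zero, sub_zero]
  have hv1 : av p w (ξ1 - av p v ξ1) = 0 := by rw [map_sub, hcv, hz1, map_zero, sub_zero]
  have eu : ξ - av p u ξ = (ξ0 - av p u ξ0) + (ξ1 - av p u ξ1) := by
    conv_lhs => rw [hsum]
    rw [map_add]; abel
  have ev : ξ - av p v ξ = (ξ0 - av p v ξ0) + (ξ1 - av p v ξ1) := by
    conv_lhs => rw [hsum]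
    rw [map_add]; abel
  have e1 : RCLike.re ⟪ξ - av p u ξ, ξ - av p v ξ⟫_ℂ =
      RCLike.re ⟪ξ0 - av p u ξ0, ξ0 - av p v ξ0⟫_ℂ +
      RCLike.re ⟪ξ1 - av p u ξ1, ξ1 - av p v ξ1⟫_ℂ := by
    rw [eu, ev, inner_add_left, inner_add_right, inner_add_right, horth _ _ hu0 hv1,
      horth' _ _ hv0 hu1, add_zero, zero_add, map_add]
  have e2 : ‖ξ - av p u ξ‖ ^ 2 = ‖ξ0 - av p u ξ0‖ ^ 2 + ‖ξ1 - av p u ξ1‖ ^ 2 := by
    rw [eu, norm_add_sq (𝕜 := ℂ), horth _ _ hu0 hu1]; simp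
  have e3 : ‖ξ - av p v ξ‖ ^ 2 = ‖ξ0 - av p v ξ0‖ ^ 2 + ‖ξ1 - av p v ξ1‖ ^ 2 := by
    rw [ev, norm_add_sq (𝕜 := ℂ), horth _ _ hv0 hv1]; simp
  have h0 := heis_fix hp0' h ξ0 hw0
  have h1 := heis_orth hp0 hp64 h ξ1 hz1
  rw [e1, e2, e3]
  nlinarith [sq_nonneg ‖ξ0 - av p u ξ0‖, sq_nonneg ‖ξ0 - av p v ξ0‖]

/-- the inequality for a commuting pair -/
theorem comm_pair {p : ℕ} (hp0 : p ≠ 0) {u v : Module.End ℂ H} (iu : IsIso u) (iv : IsIso v)
    (pu : u ^ p = 1) (pv : v ^ p = 1) (h : Commute u v) (ξ : H) :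
    0 ≤ RCLike.re ⟪ξ - av p u ξ, ξ - av p v ξ⟫_ℂ := by
  have hH : Heis p u v 1 :=
    { iu := iu
      iv := iv
      iw := fun x y => by simp
      pu := pu
      pv := pv
      pw := one_pow p
      cu := Commute.one_left _
      cv := Commute.one_left _
      rel := fun j k => by rw [one_pow, one_mul]; exact (h.pow_pow j k).eq }
  exact heis_fix hp0 hH ξ (by simp)

end Abs

end

end Crest.Agent.R073
end

-- ▼ part R073/Expander

/-!
Row 73, module M6d: `StmtExpander p`.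
-/

set_option autoImplicit false

namespace Crest.Agent.R073

open scoped ComplexConjugate InnerProductSpace Matrix ComplexOrder
open Finset

noncomputable section

section Abs

variable {H : Type} [NormedAddCommGroup H] [InnerProductSpace ℂ H]

lemma norm_add4_sq (a b c d : H) :
    ‖a + b + c + d‖ ^ 2 = ‖a‖ ^ 2 + ‖b‖ ^ 2 + ‖c‖ ^ 2 + ‖d‖ ^ 2 +
      2 * RCLike.re ⟪a, b⟫_ℂ + 2 * RCLike.re ⟪b, c⟫_ℂ + 2 * RCLike.re ⟪c, a⟫_ℂ +
      2 * RCLike.re ⟪b, d⟫_ℂ + 2 * RCLike.re ⟪a, d⟫_ℂ + 2 * RCLike.re ⟪c, d⟫_ℂ := by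
  rw [norm_add_sq (𝕜 := ℂ), norm_add_sq (𝕜 := ℂ), norm_add_sq (𝕜 := ℂ), inner_add_left,
    inner_add_left, inner_add_left, map_add, map_add, map_add, inner_re_symm a c]
  ring

lemma heis_of_cm {p : ℕ} {G : Type} [Group G] (ρ : G →* Module.End ℂ H)
    (hρ : ∀ g, IsIso (ρ g)) {x y : G} (px : x ^ p = 1) (py : y ^ p = 1)
    (h : Commute (cm x y) x ∧ Commute (cm x y) y) :
    Heis p (ρ x) (ρ y) (ρ (cm x y)) where
  iu := hρ _
  iv := hρ _
  iw := hρ _
  pu := by rw [← map_pow, px, map_one]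
  pv := by rw [← map_pow, py, map_one]
  pw := by
    have h1 := pow_mul_pow_of_cm x y h.1 h.2 p 1
    rw [px, one_mul, mul_one, mul_one, pow_one] at h1
    have h2 : cm x y ^ p = 1 := by
      have : 1 * y = cm x y ^ p * y := by rw [one_mul]; exact h1
      exact (mul_right_cancel this).symm
    rw [← map_pow, h2, map_one]
  cu := h.1.map ρ
  cv := h.2.map ρ
  rel := fun j k => by
    rw [← map_pow, ← map_pow, ← map_pow, ← map_mul, ← map_mul, ← map_mul]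
    rw [pow_mul_pow_of_cm x y h.1 h.2 j k]

theorem gap4 {p : ℕ} (hp0 : p.Prime) (hp64 : 64 ≤ p) {G : Type} [Group G]
    (ρ : G →* Module.End ℂ H) (hρ : ∀ g, IsIso (ρ g)) (x : Fin 4 → G) (hx : PairRel p x) (ξ : H) :
    5 / 8 * ∑ s, ‖ξ - av p (ρ (x s)) ξ‖ ^ 2 ≤ ‖∑ s, (ξ - av p (ρ (x s)) ξ)‖ ^ 2 := by
  rw [Fin.sum_univ_four, Fin.sum_univ_four, norm_add4_sq]
  have h01 := heis_pair hp0 hp64 (heis_of_cm ρ hρ (hx.pow 0) (hx.pow 1) hx.h01) ξ
  have h12 := heis_pair hp0 hp64 (heis_of_cm ρ hρ (hx.pow 1) (hx.pow 2) hx.h12) ξ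
  have h20 := heis_pair hp0 hp64 (heis_of_cm ρ hρ (hx.pow 2) (hx.pow 0) hx.h20) ξ
  have h13 := heis_pair hp0 hp64 (heis_of_cm ρ hρ (hx.pow 1) (hx.pow 3) hx.h13) ξ
  have hpw : ∀ s, ρ (x s) ^ p = 1 := fun s => by rw [← map_pow, hx.pow, map_one]
  have c03 := comm_pair hp0.ne_zero (hρ (x 0)) (hρ (x 3)) (hpw 0) (hpw 3) (hx.c03.map ρ) ξ
  have c23 := comm_pair hp0.ne_zero (hρ (x 2)) (hρ (x 3)) (hpw 2) (hpw 3) (hx.c23.map ρ) ξ
  have n0 := sq_nonneg ‖ξ - av p (ρ (x 0)) ξ‖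
  have n2 := sq_nonneg ‖ξ - av p (ρ (x 2)) ξ‖
  have n3 := sq_nonneg ‖ξ - av p (ρ (x 3)) ξ‖
  linarith

/-- spectral step -/
theorem spectral_gap [FiniteDimensional ℂ H] {κ : ℝ} (T : Module.End ℂ H)
    (hT : LinearMap.IsSymmetric T) (hpos : ∀ ξ, 0 ≤ RCLike.re ⟪T ξ, ξ⟫_ℂ)
    (hgap : ∀ ξ, κ * RCLike.re ⟪T ξ, ξ⟫_ℂ ≤ ‖T ξ‖ ^ 2) (ξ : H)
    (hξ : ∀ η, T η = 0 → ⟪η, ξ⟫_ℂ = 0) : κ * ‖ξ‖ ^ 2 ≤ RCLike.re ⟪T ξ, ξ⟫_ℂ := by
  set n := Module.finrank ℂ H with hn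
  set e := hT.eigenvectorBasis hn.symm with he
  set lam := hT.eigenvalues hn.symm with hlam
  have hTe : ∀ i, T (e i) = (lam i : ℂ) • e i := fun i => hT.apply_eigenvectorBasis hn.symm i
  have hne : ∀ i, ‖e i‖ = 1 := fun i => e.orthonormal.1 i
  have hinner : ∀ i, RCLike.re ⟪T (e i), e i⟫_ℂ = lam i := by
    intro i
    rw [hTe, inner_smul_left, inner_self_eq_norm_sq_to_K, hne]
    simp
  have hnorm : ∀ i, ‖T (e i)‖ ^ 2 = lam i ^ 2 := by
    intro i
    rw [hTe, norm_smul, hne, mul_one, Complex.norm_real, Real.norm_eq_abs, sq_abs]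
  have hl : ∀ i, 0 ≤ lam i ∧ (lam i = 0 ∨ κ ≤ lam i) := by
    intro i
    have h1 := hpos (e i)
    have h2 := hgap (e i)
    rw [hinner] at h1 h2
    rw [hnorm] at h2
    refine ⟨h1, ?_⟩
    rcases h1.eq_or_lt with h3 | h3
    · left; exact h3.symm
    · right
      by_contra hc
      push Not at hc
      nlinarith
  have hexp : RCLike.re ⟪T ξ, ξ⟫_ℂ = ∑ i, lam i * ‖⟪e i, ξ⟫_ℂ‖ ^ 2 := by
    have h1 : ⟪T ξ, ξ⟫_ℂ = ((∑ i, lam i * ‖⟪e i, ξ⟫_ℂ‖ ^ 2 : ℝ) : ℂ) := by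
      rw [← e.sum_inner_mul_inner (T ξ) ξ]
      push_cast
      refine Finset.sum_congr rfl fun i _ => ?_
      rw [hT ξ (e i), hTe, inner_smul_right, mul_assoc]
      congr 1
      rw [← inner_conj_symm ξ (e i), Complex.conj_mul']
    rw [h1]
    exact Complex.ofReal_re _
  rw [hexp, ← e.sum_sq_norm_inner_right ξ, Finset.mul_sum]
  refine Finset.sum_le_sum fun i _ => ?_
  rcases (hl i).2 with h0 | h0
  · have h1 : T (e i) = 0 := by rw [hTe, h0]; simp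
    rw [hξ _ h1]; simp
  · exact mul_le_mul_of_nonneg_right h0 (sq_nonneg _)

/-- the gap for an isometric representation on a finite dimensional space -/
theorem gap_of_rep [FiniteDimensional ℂ H] {p : ℕ} (hp0 : p.Prime) (hp64 : 64 ≤ p) {G : Type}
    [Group G] (ρ : G →* Module.End ℂ H) (hρ : ∀ g, IsIso (ρ g)) (x : Fin 4 → G)
    (hx : PairRel p x) (ξ : H) (hξ : ∀ η, (∀ s, ρ (x s) η = η) → ⟪η, ξ⟫_ℂ = 0) :
    5 / 8 * ‖ξ‖ ^ 2 ≤ (p : ℝ) ^ 2 * ∑ s, ‖ρ (x s) ξ - ξ‖ ^ 2 := by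
  have hp0' := hp0.ne_zero
  have hpw : ∀ s, ρ (x s) ^ p = 1 := fun s => by rw [← map_pow, hx.pow, map_one]
  set T : Module.End ℂ H := ∑ s, (1 - av p (ρ (x s))) with hT
  have hTa : ∀ ξ, T ξ = ∑ s, (ξ - av p (ρ (x s)) ξ) := by
    intro ξ
    rw [hT, LinearMap.sum_apply]
    rfl
  have hself : ∀ ξ, ⟪T ξ, ξ⟫_ℂ = ((∑ s, ‖ξ - av p (ρ (x s)) ξ‖ ^ 2 : ℝ) : ℂ) := by
    intro ξ
    rw [hTa, sum_inner]
    push_cast
    refine Finset.sum_congr rfl fun s _ => ?_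
    rw [inner_co_left hp0' (hρ _) (hpw s), inner_self_eq_norm_sq_to_K]
    rfl
  have hre : ∀ ξ, RCLike.re ⟪T ξ, ξ⟫_ℂ = ∑ s, ‖ξ - av p (ρ (x s)) ξ‖ ^ 2 := by
    intro ξ
    rw [hself]
    exact Complex.ofReal_re _
  have hsym : LinearMap.IsSymmetric T := by
    intro a b
    rw [hTa, hTa, sum_inner, inner_sum]
    refine Finset.sum_congr rfl fun s _ => ?_
    exact (inner_co_left hp0' (hρ _) (hpw s) a b).trans (inner_co_right hp0' (hρ _) (hpw s) a b).symm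
  have h1 := spectral_gap (κ := 5 / 8) T hsym
    (fun ξ => by rw [hre]; exact Finset.sum_nonneg fun s _ => sq_nonneg _)
    (fun ξ => by rw [hre, hTa]; exact gap4 hp0 hp64 ρ hρ x hx ξ) ξ ?_
  · refine h1.trans ?_
    rw [hre, Finset.mul_sum]
    refine Finset.sum_le_sum fun s _ => ?_
    have h2 := norm_sub_av_le hp0' (hρ (x s)) ξ
    calc ‖ξ - av p (ρ (x s)) ξ‖ ^ 2 ≤ (p * ‖ρ (x s) ξ - ξ‖) ^ 2 :=
          pow_le_pow_left₀ (norm_nonneg _) h2 2
      _ = _ := by ring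
  · intro η hη
    refine hξ η fun s => ?_
    have h3 : ∑ s, ‖η - av p (ρ (x s)) η‖ ^ 2 = 0 := by
      rw [← hre, hη, inner_zero_left, map_zero]
    have h4 := (Finset.sum_eq_zero_iff_of_nonneg (fun s _ => sq_nonneg _)).mp h3 s (Finset.mem_univ s)
    have h5 : η = av p (ρ (x s)) η := by
      have := pow_eq_zero_iff two_ne_zero |>.mp h4
      rw [norm_eq_zero] at this
      exact sub_eq_zero.mp this
    have h6 := pow_av_apply (hpw s) 1 η
    rw [← h5] at h6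
    simpa using h6

end Abs

section Mat

variable {ι : Type} [Fintype ι] [DecidableEq ι]

/-- the Frobenius inner product -/
@[reducible] def matCore (ι : Type) [Fintype ι] [DecidableEq ι] : InnerProductSpace.Core ℂ (Matrix ι ι ℂ) where
  inner X Y := (Xᴴ * Y).trace
  conj_inner_symm X Y := by
    change star ((Yᴴ * X).trace) = (Xᴴ * Y).trace
    rw [← Matrix.trace_conjTranspose, Matrix.conjTranspose_mul, Matrix.conjTranspose_conjTranspose]
  re_inner_nonneg X := by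
    change 0 ≤ ((Xᴴ * X).trace).re
    rw [Matrix.trace, Complex.re_sum]
    refine Finset.sum_nonneg fun i _ => ?_
    rw [Matrix.diag_apply, Matrix.mul_apply, Complex.re_sum]
    refine Finset.sum_nonneg fun j _ => ?_
    rw [Matrix.conjTranspose_apply, Complex.star_def, Complex.conj_mul']
    norm_cast
    positivity
  add_left X Y Z := by
    change ((X + Y)ᴴ * Z).trace = (Xᴴ * Z).trace + (Yᴴ * Z).trace
    rw [Matrix.conjTranspose_add, Matrix.add_mul, Matrix.trace_add]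
  smul_left X Y r := by
    change ((r • X)ᴴ * Y).trace = conj r * (Xᴴ * Y).trace
    rw [Matrix.conjTranspose_smul, Matrix.smul_mul, Matrix.trace_smul]
    rfl
  definite X hX := Matrix.trace_conjTranspose_mul_self_eq_zero_iff.mp hX

/-- conjugation representation -/
def conjRep (ι : Type) [Fintype ι] [DecidableEq ι] :
    Matrix.unitaryGroup ι ℂ →* Module.End ℂ (Matrix ι ι ℂ) where
  toFun g :=
    { toFun := fun X => (g : Matrix ι ι ℂ) * X * star (g : Matrix ι ι ℂ)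
      map_add' := fun X Y => by rw [mul_add, add_mul]
      map_smul' := fun c X => by simp }
  map_one' := by ext1 X; simp
  map_mul' g h := by
    refine LinearMap.ext fun X => ?_
    simp only [LinearMap.coe_mk, AddHom.coe_mk, Module.End.mul_apply, Submonoid.coe_mul,
      star_mul, mul_assoc]

theorem stmtExpander (p : ℕ) [hp : Fact p.Prime] (hp101 : 101 ≤ p) : StmtExpander p := by
  intro ι _ _ _ U hU hirr R
  let _ : NormedAddCommGroup (Matrix ι ι ℂ) := (matCore ι).toNormedAddCommGroup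
  let _ : InnerProductSpace ℂ (Matrix ι ι ℂ) := InnerProductSpace.ofCore (matCore ι).toCore
  have hinner : ∀ X Y : Matrix ι ι ℂ, ⟪X, Y⟫_ℂ = (Xᴴ * Y).trace := fun _ _ => rfl
  have hfrob : ∀ X : Matrix ι ι ℂ, ‖X‖ ^ 2 = frob X := by
    intro X
    have h1 : ((‖X‖ ^ 2 : ℝ) : ℂ) = (frob X : ℂ) := by
      have h2 := inner_self_eq_norm_sq_to_K (𝕜 := ℂ) X
      rw [hinner] at h2
      push_cast
      refine h2.symm.trans ?_
      unfold frob
      rw [Matrix.trace, Finset.sum_comm]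
      push_cast
      refine Finset.sum_congr rfl fun i _ => ?_
      rw [Matrix.diag_apply, Matrix.mul_apply]
      refine Finset.sum_congr rfl fun j _ => ?_
      rw [Matrix.conjTranspose_apply, Complex.star_def, Complex.conj_mul']
    exact Complex.ofReal_injective h1
  have hiso : ∀ g, IsIso (conjRep ι g) := by
    intro g X Y
    rw [hinner, hinner]
    change (((g : Matrix ι ι ℂ) * X * star (g : Matrix ι ι ℂ))ᴴ *
      ((g : Matrix ι ι ℂ) * Y * star (g : Matrix ι ι ℂ))).trace = _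
    have hg : star (g : Matrix ι ι ℂ) * (g : Matrix ι ι ℂ) = 1 := Unitary.star_mul_self_of_mem g.2
    have e1 : ((g : Matrix ι ι ℂ) * X * star (g : Matrix ι ι ℂ))ᴴ *
        ((g : Matrix ι ι ℂ) * Y * star (g : Matrix ι ι ℂ)) =
        (g : Matrix ι ι ℂ) * (Xᴴ * Y * star (g : Matrix ι ι ℂ)) := by
      rw [← Matrix.star_eq_conjTranspose, star_mul, star_mul, star_star]
      calc (g : Matrix ι ι ℂ) * (star X * star (g : Matrix ι ι ℂ)) *
            ((g : Matrix ι ι ℂ) * Y * star (g : Matrix ι ι ℂ))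
          = (g : Matrix ι ι ℂ) * (star X * (star (g : Matrix ι ι ℂ) * (g : Matrix ι ι ℂ)) * Y *
              star (g : Matrix ι ι ℂ)) := by simp only [mul_assoc]
        _ = _ := by rw [hg, mul_one, ← Matrix.star_eq_conjTranspose]
    rw [e1, Matrix.trace_mul_comm, mul_assoc, hg, mul_one]
  set N : ℝ := (Fintype.card ι : ℝ) with hN
  have hN0 : 0 < N := by rw [hN]; exact_mod_cast Fintype.card_pos
  set X : Matrix ι ι ℂ := R - ((N : ℂ)⁻¹ * R.trace) • (1 : Matrix ι ι ℂ) with hX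
  have hNC : (N : ℂ) ≠ 0 := by exact_mod_cast hN0.ne'
  have htr1 : (1 : Matrix ι ι ℂ).trace = (N : ℂ) := by
    rw [Matrix.trace_one, hN]; push_cast; rfl
  have htrX : X.trace = 0 := by
    rw [hX, Matrix.trace_sub, Matrix.trace_smul, htr1, smul_eq_mul]
    field_simp
    ring
  have horth : ∀ c : ℂ, ⟪c • (1 : Matrix ι ι ℂ), X⟫_ℂ = 0 := by
    intro c
    rw [inner_smul_left, hinner, Matrix.conjTranspose_one, one_mul, htrX, mul_zero]
  have hnormX : ‖X‖ ^ 2 = frob R - ‖R.trace‖ ^ 2 / N := by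
    have h1 : R = X + ((N : ℂ)⁻¹ * R.trace) • (1 : Matrix ι ι ℂ) := by rw [hX]; abel
    have h2 : frob R = ‖X‖ ^ 2 + ‖((N : ℂ)⁻¹ * R.trace) • (1 : Matrix ι ι ℂ)‖ ^ 2 := by
      rw [← hfrob]
      conv_lhs => rw [h1]
      rw [norm_add_sq (𝕜 := ℂ), inner_re_symm, horth]
      simp
    have h3 : ‖(1 : Matrix ι ι ℂ)‖ ^ 2 = N := by
      have h4 := inner_self_eq_norm_sq_to_K (𝕜 := ℂ) (1 : Matrix ι ι ℂ)
      rw [hinner, Matrix.conjTranspose_one, one_mul, htr1] at h4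
      have h5 : ((‖(1 : Matrix ι ι ℂ)‖ ^ 2 : ℝ) : ℂ) = (N : ℂ) := by
        push_cast; exact h4.symm
      exact Complex.ofReal_injective h5
    rw [h2, norm_smul, mul_pow, h3, norm_mul, norm_inv, Complex.norm_real, Real.norm_eq_abs,
      abs_of_pos hN0]
    field_simp
    ring
  have hcomm : ∀ s, ‖conjRep ι (U s) X - X‖ ^ 2 =
      frob ((U s : Matrix ι ι ℂ) * R - R * (U s : Matrix ι ι ℂ)) := by
    intro s
    set g := U s with hgd
    have hg : star (g : Matrix ι ι ℂ) * (g : Matrix ι ι ℂ) = 1 := Unitary.star_mul_self_of_mem g.2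
    have hg' : (g : Matrix ι ι ℂ) * star (g : Matrix ι ι ℂ) = 1 := Unitary.mul_star_self_of_mem g.2
    have e1 : conjRep ι g X - X =
        ((g : Matrix ι ι ℂ) * R - R * (g : Matrix ι ι ℂ)) * star (g : Matrix ι ι ℂ) := by
      change (g : Matrix ι ι ℂ) * X * star (g : Matrix ι ι ℂ) - X = _
      rw [hX, mul_sub, sub_mul, mul_smul_comm, mul_one, smul_mul_assoc, hg', sub_mul, mul_assoc R,
        hg', mul_one]
      abel
    rw [e1, ← hfrob]
    -- right multiplication by a unitary preserves the norm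
    have h2 : ∀ Y : Matrix ι ι ℂ, ‖Y * star (g : Matrix ι ι ℂ)‖ ^ 2 = ‖Y‖ ^ 2 := by
      intro Y
      have h4 := inner_self_eq_norm_sq_to_K (𝕜 := ℂ) (Y * star (g : Matrix ι ι ℂ))
      have h5 := inner_self_eq_norm_sq_to_K (𝕜 := ℂ) Y
      rw [hinner] at h4 h5
      have h6 : ((Y * star (g : Matrix ι ι ℂ))ᴴ * (Y * star (g : Matrix ι ι ℂ))).trace =
          (Yᴴ * Y).trace := by
        rw [← Matrix.star_eq_conjTranspose, star_mul, star_star, Matrix.trace_mul_comm]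
        calc (Y * star (g : Matrix ι ι ℂ) * ((g : Matrix ι ι ℂ) * star Y)).trace
            = (Y * (star (g : Matrix ι ι ℂ) * (g : Matrix ι ι ℂ)) * star Y).trace := by
              simp only [mul_assoc]
          _ = _ := by rw [hg, mul_one, Matrix.trace_mul_comm, ← Matrix.star_eq_conjTranspose]
      rw [h6, h5] at h4
      exact_mod_cast h4.symm
    exact h2 _
  have hmain := gap_of_rep hp.out (by omega) (conjRep ι) hiso U hU X ?_
  · rw [hnormX] at hmain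
    rw [Finset.sum_congr rfl fun s _ => hcomm s] at hmain
    exact hmain
  · intro η hη
    obtain ⟨c, hc⟩ := hirr η fun s => by
      have h1 : (U s : Matrix ι ι ℂ) * η * star (U s : Matrix ι ι ℂ) = η := hη s
      have hg : star (U s : Matrix ι ι ℂ) * (U s : Matrix ι ι ℂ) = 1 :=
        Unitary.star_mul_self_of_mem (U s).2
      calc (U s : Matrix ι ι ℂ) * η = (U s : Matrix ι ι ℂ) * η *
            (star (U s : Matrix ι ι ℂ) * (U s : Matrix ι ι ℂ)) := by rw [hg, mul_one]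
        _ = ((U s : Matrix ι ι ℂ) * η * star (U s : Matrix ι ι ℂ)) * (U s : Matrix ι ι ℂ) := by
            simp only [mul_assoc]
        _ = η * (U s : Matrix ι ι ℂ) := by rw [h1]
    rw [hc]
    exact horth c

end Mat

end

end Crest.Agent.R073
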