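import Crest.Agent.R073.Stmts

-- ▼ part R073/Main1
section

/-!
Row 73 (S0098): assembly, part 1: the chain of almost intertwiners.
-/

set_option autoImplicit false

namespace Crest.Agent.R073

open scoped Matrix ComplexConjugate Pointwise
open Filter Crest.AnalysisR.CStarEmbedding

noncomputable section

/-! ### words -/

theorem wd_finite {G : Type} [Group G] {p : ℕ} (hp : 0 < p) (x : Fin 4 → G)
    (hx : ∀ i, x i ^ p = 1) (m : ℕ) : (Wd x m).Finite := by
  induction m with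
  | zero =>
    refine (Set.finite_singleton (1 : G)).subset ?_
    rintro g ⟨l, hl, rfl⟩
    have : l = [] := List.eq_nil_of_length_eq_zero (Nat.le_zero.mp hl)
    simp [this]
  | succ m ih =>
    have hP : (Set.range fun q : Fin 4 × Fin p => x q.1 ^ (q.2 : ℕ)).Finite := Set.finite_range _
    have h1 : ((Set.range fun q : Fin 4 × Fin p => x q.1 ^ (q.2 : ℕ)) * Wd x m).Finite := hP.mul ih
    refine ((Set.finite_singleton (1 : G)).union h1).subset ?_
    rintro g ⟨l, hl, rfl⟩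
    cases l with
    | nil => left; simp
    | cons q l =>
      right
      refine ⟨x q.1 ^ q.2, ⟨(q.1, ⟨q.2 % p, Nat.mod_lt _ hp⟩), ?_⟩,
        (l.map fun q => x q.1 ^ q.2).prod, ⟨l, ?_, rfl⟩, ?_⟩
      · exact (pow_eq_pow_mod q.2 (hx q.1)).symm
      · simpa using hl
      · simp

/-- the tuple of the group `G × U` -/
def pairx {G : Type} [Group G] {M : Type} [Group M] (x : Fin 4 → G) (y : Fin 4 → M) :
    Fin 4 → G × M := fun i => (x i, y i)

theorem PairRel.prod {p : ℕ} {G : Type} [Group G] {M : Type} [Group M] {x : Fin 4 → G}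
    {y : Fin 4 → M} (hx : PairRel p x) (hy : PairRel p y) : PairRel p (pairx x y) where
  pow i := Prod.ext (hx.pow i) (hy.pow i)
  h01 := ⟨Prod.ext hx.h01.1 hy.h01.1, Prod.ext hx.h01.2 hy.h01.2⟩
  h12 := ⟨Prod.ext hx.h12.1 hy.h12.1, Prod.ext hx.h12.2 hy.h12.2⟩
  h20 := ⟨Prod.ext hx.h20.1 hy.h20.1, Prod.ext hx.h20.2 hy.h20.2⟩
  h13 := ⟨Prod.ext hx.h13.1 hy.h13.1, Prod.ext hx.h13.2 hy.h13.2⟩
  c03 := Prod.ext hx.c03 hy.c03
  c23 := Prod.ext hx.c23 hy.c23

theorem wd_pairx {G : Type} [Group G] {M : Type} [Group M] (x : Fin 4 → G) (y : Fin 4 → M)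
    (m : ℕ) : Wd (pairx x y) m ⊆ {g | g.1 ∈ Wd x m} := by
  rintro g ⟨l, hl, rfl⟩
  refine ⟨l, hl, ?_⟩
  have := map_list_prod (MonoidHom.fst G M) (l.map fun q => pairx x y q.1 ^ q.2)
  simp only [MonoidHom.coe_fst, List.map_map] at this
  rw [this]
  congr 1

/-! ### relations of the generators -/

theorem KGroup.pairRel {p : ℕ} {G : Type} [Group G] (K : KGroup p G) : PairRel p K.gen := by
  have hDc : ∀ m m' : V3 p, K.D (Multiplicative.ofAdd m) * K.D (Multiplicative.ofAdd m')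
      = K.D (Multiplicative.ofAdd m') * K.D (Multiplicative.ofAdd m) := by
    intro m m'
    rw [← map_mul K.D, ← map_mul K.D, mul_comm (Multiplicative.ofAdd m)]
  have hb := K.bD ![0, 0, 1]
  have hcm : cm K.b (K.D (Multiplicative.ofAdd ![0, 0, 1]))
      = K.D (Multiplicative.ofAdd ![0, 1, 0]) := by
    unfold cm
    rw [hb]
    have : K.D (Multiplicative.ofAdd (e23 ![0, 0, 1]))
        = K.D (Multiplicative.ofAdd ![0, 1, 0]) * K.D (Multiplicative.ofAdd (![0, 0, 1] : V3 p)) := by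
      rw [← map_mul, ← ofAdd_add]
      congr 2
      funext i
      fin_cases i <;> simp [e23]
    rw [this]
    group
  refine ⟨?_, ?_, ?_, ?_, ?_, ?_, ?_⟩
  · intro i
    fin_cases i
    · exact K.a_pow
    · exact K.b_pow
    · exact K.c_pow
    · show K.D (Multiplicative.ofAdd ![0, 0, 1]) ^ p = 1
      rw [← map_pow, ← ofAdd_nsmul]
      have : p • (![0, 0, 1] : V3 p) = 0 := by
        funext i
        simp
      rw [this]
      simp
  · exact K.hab
  · exact K.hbc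
  · exact K.hca
  · show Commute (cm K.b (K.D (Multiplicative.ofAdd ![0, 0, 1]))) K.b ∧
      Commute (cm K.b (K.D (Multiplicative.ofAdd ![0, 0, 1]))) (K.D (Multiplicative.ofAdd ![0, 0, 1]))
    rw [hcm]
    constructor
    · have h := K.bD ![0, 1, 0]
      have he : (e23 (![0, 1, 0] : V3 p)) = ![0, 1, 0] := by
        funext i
        fin_cases i <;> simp [e23]
      rw [he] at h
      exact h.symm
    · exact hDc _ _
  · show Commute K.a (K.D (Multiplicative.ofAdd ![0, 0, 1]))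
    have h := K.aD ![0, 0, 1]
    have he : (e12 (![0, 0, 1] : V3 p)) = ![0, 0, 1] := by
      funext i
      fin_cases i <;> simp [e12]
    rw [he] at h
    exact h
  · show Commute K.c (K.D (Multiplicative.ofAdd ![0, 0, 1]))
    have h := K.cDt ![0, 0, 1]
    have he : (![0, 0, (![0, 0, 1] : V3 p) 0] : V3 p) = 0 := by
      funext i
      fin_cases i <;> simp
    rw [he] at h
    simp only [ofAdd_zero, map_one, mul_one] at h
    rw [mul_assoc _ K.t K.c, K.tc, ← mul_assoc] at h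
    exact mul_right_cancel h

/-! ### the chain -/

theorem AlmostRep.mono {G : Type} [Group G] {L : Type} [NormedAddCommGroup L]
    [InnerProductSpace ℂ L] [CompleteSpace L] {v : G → L →L[ℂ] L} {F F' : Set G} {δ : ℝ}
    (h : AlmostRep v F' δ) (hF : F ⊆ F') : AlmostRep v F δ where
  mul g hg k hk := h.mul g (hF hg) k (hF hk)
  star g hg := h.star g (hF hg)
  one := h.one
  norm g hg := h.norm g (hF hg)

/-- the character `χ` -/
def chi (p : ℕ) [Fact p.Prime] : Fin 4 → ℂ := ![1, 1, 1, psi p 1]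

theorem norm_chi (p : ℕ) [Fact p.Prime] (s : Fin 4) : ‖chi p s‖ = 1 := by
  fin_cases s
  · simp [chi]
  · simp [chi]
  · simp [chi]
  · exact norm_psi p 1

theorem tens_zero_apply {p : ℕ} [Fact p.Prime] {H : Type} [NormedAddCommGroup H]
    [InnerProductSpace ℂ H] (E : H →L[ℂ] H) (s : Fin 4) (T : PiLp 2 (fun _ : Y p 0 => H))
    (i : Y p 0) :
    tens E (sigmaU p 0 s : Matrix (Y p 0) (Y p 0) ℂ) T i = conj (chi p s) • E (T i) := by
  rw [tens_apply]
  have hsum : ∀ f : Y p 0 → H, ∑ j, f j = f i := by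
    intro f
    have : ∀ j : Y p 0, j = i := fun j => by
      change Unit at i j
      rfl
    rw [Finset.sum_eq_single i]
    · intro b _ hb
      exact absurd (this b) hb
    · simp
  rw [hsum]
  congr 2
  have e0 : ∀ σ : Equiv.Perm (Y p 0), σ i = i := fun σ => rfl
  fin_cases s
  · show (monoM (permA p 0) (fun _ => 1)) i i = chi p 0
    simp [monoM, chi, e0]
  · show (monoM (permB p 0) (fun _ => 1)) i i = chi p 1
    simp [monoM, chi, e0]
  · show (monoM (permC p 0) (fun _ => 1)) i i = chi p 2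
    simp [monoM, chi, e0]
  · show (monoM (Equiv.refl _) (fun y : Y p 0 => psi p (hd y 2))) i i = chi p 3
    simp [monoM, chi, hd]

theorem chain (p : ℕ) [Fact p.Prime] (hQ : StmtQuant p) (hT : StmtTens) (hS : StmtStep p)
    (hσ : StmtSigma p) (G : Type) [Group G] (K : KGroup p G) :
    ∃ (F : Set G) (C : ℝ), F.Finite ∧ 1 ≤ C ∧
      ∀ (H : Type) [NormedAddCommGroup H] [InnerProductSpace ℂ H] [CompleteSpace H]
        (w : G → H →L[ℂ] H) (δ : ℝ), 0 < δ → C * δ ≤ 1 → AlmostRep w F δ →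
        ∀ ζ : H, ‖ζ‖ = 1 → (∀ s, ‖w (K.gen s) ζ - chi p s • ζ‖ ≤ 1 / C) →
        ∀ n, ∃ T : PiLp 2 (fun _ : Y p n => H), ‖T‖ = 1 ∧
          ∀ s, ‖tens (w (K.gen s)) (sigmaU p n s : Matrix (Y p n) (Y p n) ℂ) T - T‖
            ≤ C * Real.sqrt δ := by
  obtain ⟨CQ, hCQ, hQ⟩ := hQ
  obtain ⟨FS, CS, hFS, hCS, hS⟩ := hS G K
  have hp : 0 < p := (Fact.out : p.Prime).pos
  refine ⟨FS ∪ Wd K.gen 8, (CQ * CS * (CQ + 1)) ^ 2, hFS.union (wd_finite hp _ K.pairRel.pow 8),
    ?_, ?_⟩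
  · have : 1 ≤ CQ * CS * (CQ + 1) := by nlinarith [mul_le_mul hCQ hCS zero_le_one (by linarith)]
    nlinarith
  intro H _ _ _ w δ hδ hCδ hw ζ hζ hζs
  have hCS0 : (0 : ℝ) < CS := by linarith
  have hCQ0 : (0 : ℝ) < CQ := by linarith
  set D := CQ * CS * (CQ + 1) with hD
  have hD1 : 1 ≤ CQ * CS := by nlinarith [mul_le_mul hCQ hCS zero_le_one (by linarith)]
  have hDCQ : CQ + 1 ≤ D := by
    rw [hD]
    nlinarith
  have hDge1 : 1 ≤ D := by linarith
  have hD0 : 0 < D := by linarith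
  have hsq : D * Real.sqrt δ ≤ 1 := by
    have h1 : (D * Real.sqrt δ) ^ 2 ≤ 1 := by
      rw [mul_pow, Real.sq_sqrt hδ.le]
      exact hCδ
    have h0 : 0 ≤ D * Real.sqrt δ := by positivity
    nlinarith
  have hδ1 : δ ≤ 1 := by nlinarith [hCδ, sq_nonneg (D - 1)]
  have hsqrtδ : δ ≤ Real.sqrt δ := by
    have := Real.sqrt_nonneg δ
    have h2 := Real.sq_sqrt hδ.le
    have h3 : Real.sqrt δ ≤ 1 := by
      exact Real.sqrt_le_one.mpr hδ1
    nlinarith
  have hD2 : CQ ≤ D ^ 2 := by nlinarith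
  -- quantisation at level `n`
  have hquant : ∀ n, (∃ T : PiLp 2 (fun _ : Y p n => H), ‖T‖ = 1 ∧
      ∀ s, ‖tens (w (K.gen s)) (sigmaU p n s : Matrix (Y p n) (Y p n) ℂ) T - T‖ ≤ 1 / CQ) →
      ∃ T : PiLp 2 (fun _ : Y p n => H), ‖T‖ = 1 ∧
        ∀ s, ‖tens (w (K.gen s)) (sigmaU p n s : Matrix (Y p n) (Y p n) ℂ) T - T‖
          ≤ CQ * Real.sqrt δ := by
    intro n hn
    have hrel := K.pairRel.prod (hσ n).1
    refine hQ (G × Matrix.unitaryGroup (Y p n) ℂ) (PiLp 2 (fun _ : Y p n => H))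
      (pairx K.gen (sigmaU p n)) hrel
      (fun g => tens (w g.1) (g.2 : Matrix (Y p n) (Y p n) ℂ))
      {g | g.1 ∈ Wd K.gen 8} δ (wd_pairx _ _ 8) hδ (by nlinarith) ?_ hn
    exact hT G H w (Wd K.gen 8) δ hδ.le (hw.mono Set.subset_union_right) (Y p n)
  have key : ∀ n, ∃ T : PiLp 2 (fun _ : Y p n => H), ‖T‖ = 1 ∧
      ∀ s, ‖tens (w (K.gen s)) (sigmaU p n s : Matrix (Y p n) (Y p n) ℂ) T - T‖
        ≤ CQ * Real.sqrt δ := by
    intro n
    induction n with
    | zero =>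
      apply hquant
      refine ⟨WithLp.toLp 2 (fun _ => ζ), ?_, fun s => ?_⟩
      · rw [PiLp.norm_eq_of_L2]
        have : (∑ x : Y p 0, ‖(WithLp.toLp 2 (fun _ : Y p 0 => ζ)) x‖ ^ 2) = 1 := by
          simp only [hζ, one_pow, Finset.sum_const, Finset.card_univ]
          have : Fintype.card (Y p 0) = 1 := by simpa using (hσ 0).2.2
          rw [this]
          simp
        rw [this, Real.sqrt_one]
      · have hle : ‖tens (w (K.gen s)) (sigmaU p 0 s : Matrix (Y p 0) (Y p 0) ℂ)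
            (WithLp.toLp 2 (fun _ => ζ)) - WithLp.toLp 2 (fun _ => ζ)‖
            = ‖w (K.gen s) ζ - chi p s • ζ‖ := by
          rw [PiLp.norm_eq_of_L2]
          have h1 : ∀ i : Y p 0, ‖((tens (w (K.gen s)) (sigmaU p 0 s : Matrix (Y p 0) (Y p 0) ℂ)
            (WithLp.toLp 2 (fun _ => ζ)) : PiLp 2 (fun _ : Y p 0 => H))
              - WithLp.toLp 2 (fun _ => ζ) : PiLp 2 (fun _ : Y p 0 => H)) i‖ ^ 2
              = ‖w (K.gen s) ζ - chi p s • ζ‖ ^ 2 := by
            intro i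
            rw [PiLp.sub_apply, tens_zero_apply]
            congr 1
            have h2 : conj (chi p s) • (w (K.gen s) ζ) - ζ
                = conj (chi p s) • (w (K.gen s) ζ - chi p s • ζ) := by
              rw [smul_sub, smul_smul]
              have : conj (chi p s) * chi p s = 1 := by
                rw [mul_comm, Complex.mul_conj, Complex.normSq_eq_norm_sq, norm_chi]
                simp
              rw [this, one_smul]
            show ‖conj (chi p s) • (w (K.gen s) ζ) - ζ‖ = _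
            rw [h2, norm_smul, RCLike.norm_conj, norm_chi, one_mul]
          rw [Finset.sum_congr rfl (fun i _ => h1 i)]
          simp only [Finset.sum_const, Finset.card_univ]
          have : Fintype.card (Y p 0) = 1 := by simpa using (hσ 0).2.2
          rw [this, one_smul, Real.sqrt_sq (norm_nonneg _)]
        rw [hle]
        refine (hζs s).trans ?_
        exact one_div_le_one_div_of_le hCQ0 hD2
    | succ n ih =>
      apply hquant
      have h1 : CQ * Real.sqrt δ ≤ 1 := by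
        refine le_trans ?_ hsq
        exact mul_le_mul_of_nonneg_right (by linarith) (Real.sqrt_nonneg _)
      obtain ⟨T, hT1, hT2⟩ := hS H w δ hδ.le
        (by
          have : CS ≤ D ^ 2 := by
            have : CS ≤ D := by rw [hD]; nlinarith
            nlinarith
          nlinarith)
        (hw.mono Set.subset_union_left) n (CQ * Real.sqrt δ) (by positivity) h1 ih
      refine ⟨T, hT1, fun s => (hT2 s).trans ?_⟩
      rw [le_div_iff₀ hCQ0]
      have h2 : CS * (CQ * Real.sqrt δ + δ) * CQ ≤ CS * (CQ * Real.sqrt δ + Real.sqrt δ) * CQ := by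
        gcongr
      refine h2.trans (le_trans (le_of_eq ?_) hsq)
      rw [hD]
      ring
  intro n
  obtain ⟨T, hT1, hT2⟩ := key n
  refine ⟨T, hT1, fun s => (hT2 s).trans ?_⟩
  exact mul_le_mul_of_nonneg_right hD2 (Real.sqrt_nonneg _)

end

end Crest.Agent.R073
end

-- ▼ part R073/Main2
section

/-!
Row 73 (S0098): assembly, part 2: no infinite chain in the Cuntz algebra; the final theorem
from the frozen statements.
-/

set_option autoImplicit false

namespace Crest.Agent.R073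

open scoped Matrix ComplexConjugate
open Filter Topology Crest.AnalysisR.CStarEmbedding

noncomputable section

theorem noChain (p : ℕ) [Fact p.Prime] (hC : StmtCuntz) (hE : StmtExpander p) (hM : StmtMat p)
    (hSl : StmtSlice) (hσ : StmtSigma p) :
    ∃ η : ℝ, 0 < η ∧ ∀ (O : Type) [CStarAlgebra O] (s₁ s₂ : O), IsCuntzTwo O s₁ s₂ →
      ∀ (H : Type) [NormedAddCommGroup H] [InnerProductSpace ℂ H] [CompleteSpace H]
      (π : O →⋆ₐ[ℂ] (H →L[ℂ] H)) (x : Fin 4 → O), (∀ s, ‖star (x s) * x s - 1‖ ≤ η) →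
      ¬ (∀ n, ∃ T : PiLp 2 (fun _ : Y p n => H), ‖T‖ = 1 ∧
          ∀ s, ‖tens (π (x s)) (sigmaU p n s : Matrix (Y p n) (Y p n) ℂ) T - T‖ ≤ η) := by
  obtain ⟨C, hC1, hM⟩ := hM
  have hC0 : 0 < C := by linarith
  refine ⟨1 / (48 * C), by positivity, ?_⟩
  intro O _ s₁ s₂ hO H _ _ _ π x hx hall
  set η := 1 / (48 * C) with hη
  have hη0 : 0 < η := by positivity
  have hη1 : 12 * η ≤ 1 := by
    rw [hη, ← mul_div_assoc, div_le_one (by positivity)]
    linarith
  obtain ⟨k, V, α, hV, hα, hα2⟩ := hC O s₁ s₂ hO.1 hO.2.1 hO.2.2.1 hO.2.2.2.1 H π x η hη0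
  -- the third hypothesis of slicing
  have h3 : ∀ (s : Fin 4) (ξ : H), ∑ i, ‖V i ξ - ∑ j, ((α s)ᴴ * α s) i j • V j ξ‖ ^ 2
      ≤ (2 * η) ^ 2 * ‖ξ‖ ^ 2 := by
    intro s ξ
    have hπ : ‖ξ - π (star (x s) * x s) ξ‖ ≤ η * ‖ξ‖ := by
      have h1 : ξ - π (star (x s) * x s) ξ = (π (1 - star (x s) * x s)) ξ := by
        rw [map_sub, map_one]
        rfl
      rw [h1]
      refine ((π (1 - star (x s) * x s)).le_opNorm ξ).trans ?_
      gcongr
      refine (NonUnitalStarAlgHom.norm_apply_le π _).trans ?_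
      rw [norm_sub_rev]
      exact hx s
    have hsum : ∑ i, ‖V i (ξ - π (star (x s) * x s) ξ)‖ ^ 2 ≤ η ^ 2 * ‖ξ‖ ^ 2 := by
      rw [hV, ← mul_pow]
      gcongr
    have hle : ∀ i, ‖V i ξ - ∑ j, ((α s)ᴴ * α s) i j • V j ξ‖ ^ 2
        ≤ 2 * ‖V i (ξ - π (star (x s) * x s) ξ)‖ ^ 2
          + 2 * ‖V i (π (star (x s) * x s) ξ) - ∑ j, ((α s)ᴴ * α s) i j • V j ξ‖ ^ 2 := by
      intro i
      have e : V i ξ - ∑ j, ((α s)ᴴ * α s) i j • V j ξ
          = V i (ξ - π (star (x s) * x s) ξ)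
            + (V i (π (star (x s) * x s) ξ) - ∑ j, ((α s)ᴴ * α s) i j • V j ξ) := by
        rw [map_sub]
        abel
      rw [e]
      have := norm_add_le (V i (ξ - π (star (x s) * x s) ξ))
        (V i (π (star (x s) * x s) ξ) - ∑ j, ((α s)ᴴ * α s) i j • V j ξ)
      have h2 : ‖V i (ξ - π (star (x s) * x s) ξ)
            + (V i (π (star (x s) * x s) ξ) - ∑ j, ((α s)ᴴ * α s) i j • V j ξ)‖ ^ 2
          ≤ (‖V i (ξ - π (star (x s) * x s) ξ)‖
            + ‖V i (π (star (x s) * x s) ξ) - ∑ j, ((α s)ᴴ * α s) i j • V j ξ‖) ^ 2 := by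
        gcongr
      refine h2.trans ?_
      nlinarith [sq_nonneg (‖V i (ξ - π (star (x s) * x s) ξ)‖
            - ‖V i (π (star (x s) * x s) ξ) - ∑ j, ((α s)ᴴ * α s) i j • V j ξ‖)]
    refine (Finset.sum_le_sum fun i _ => hle i).trans ?_
    rw [Finset.sum_add_distrib, ← Finset.mul_sum, ← Finset.mul_sum]
    have := hα2 s ξ
    nlinarith
  have h2 : ∀ (s : Fin 4) (ξ : H), ∑ i, ‖V i (π (x s) ξ) - ∑ j, α s i j • V j ξ‖ ^ 2
      ≤ (2 * η) ^ 2 * ‖ξ‖ ^ 2 := by
    intro s ξ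
    refine (hα s ξ).trans ?_
    have : 0 ≤ ‖ξ‖ ^ 2 := by positivity
    nlinarith [sq_nonneg η]
  have hmain : ∀ n, (1 : ℝ) - (k : ℝ) / (p : ℝ) ^ (3 * n) ≤ 1 / 4 := by
    intro n
    obtain ⟨T, hT, hTs⟩ := hall n
    obtain ⟨T', hT', hT1, hT2⟩ := hSl H k V α (fun s => π (x s)) (2 * η) (by positivity) hV h2 h3
      (Y p n) (sigmaU p n) T hT (fun s => (hTs s).trans (by linarith))
    have := hM k (Y p n) (sigmaU p n) (hE (Y p n) (sigmaU p n) (hσ n).1 (hσ n).2.1) T' α (12 * η)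
      (by positivity) hη1 hT' (fun s => (hT1 s).trans (by ring_nf; rfl))
      (fun s => (hT2 s).trans (by ring_nf; rfl))
    rw [(hσ n).2.2] at this
    push_cast at this
    refine this.trans (le_of_eq ?_)
    rw [hη]
    field_simp
    norm_num
  have hp2 : (2 : ℝ) ≤ p := by exact_mod_cast (Fact.out : p.Prime).two_le
  have hlim : Tendsto (fun n : ℕ => (k : ℝ) / (p : ℝ) ^ (3 * n)) atTop (𝓝 0) := by
    have h1 : Tendsto (fun n : ℕ => ((p : ℝ) ^ 3) ^ n) atTop atTop :=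
      tendsto_pow_atTop_atTop_of_one_lt (by nlinarith [sq_nonneg (p : ℝ)])
    have h2 := h1.const_div_atTop (k : ℝ)
    refine h2.congr fun n => ?_
    rw [pow_mul]
  have hlt : ∀ᶠ n in atTop, (k : ℝ) / (p : ℝ) ^ (3 * n) < 3 / 4 :=
    hlim.eventually_lt_const (by norm_num)
  obtain ⟨n, hn⟩ := hlt.exists
  have := hmain n
  linarith

/-- near equality in the triangle inequality -/
theorem near_of_sum {H : Type} [NormedAddCommGroup H] [InnerProductSpace ℂ H] (z₀ z r : H)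
    (ε : ℝ) (hε : 0 ≤ ε) (hε1 : ε ≤ 1) (h0 : ‖z₀‖ ≤ 1 + ε) (h1 : ‖z‖ ≤ 1 + ε)
    (hr : ‖r‖ ≤ 3 * (1 + ε)) (hs : 5 - ε ≤ ‖z₀ + z + r‖) : ‖z - z₀‖ ^ 2 ≤ 40 * ε := by
  have h2 : 2 - 4 * ε ≤ ‖z₀ + z‖ := by
    have := norm_add_le (z₀ + z) r
    linarith
  have hpar := parallelogram_law_with_norm ℂ z z₀
  have hcomm : ‖z₀ + z‖ = ‖z + z₀‖ := by rw [add_comm]
  rw [hcomm] at h2
  by_cases hcase : 2 - 4 * ε ≤ 0
  · have : ‖z - z₀‖ ≤ 2 * (1 + ε) := by
      have := norm_sub_le z z₀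
      linarith
    have h3 : ‖z - z₀‖ ^ 2 ≤ (2 * (1 + ε)) ^ 2 := by gcongr
    nlinarith
  · push Not at hcase
    have h3 : (2 - 4 * ε) ^ 2 ≤ ‖z + z₀‖ ^ 2 := by
      have : 0 ≤ 2 - 4 * ε := hcase.le
      gcongr
    have h4 : ‖z‖ ^ 2 ≤ (1 + ε) ^ 2 := by gcongr
    have h5 : ‖z₀‖ ^ 2 ≤ (1 + ε) ^ 2 := by gcongr
    nlinarith

end

end Crest.Agent.R073
end

-- ▼ part R073/Main3

/-!
Row 73 (S0098): assembly, part 3: the final theorem from the frozen statements.
-/

set_option autoImplicit false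

namespace Crest.Agent.R073

open scoped Matrix ComplexConjugate
open Filter Topology Crest.AnalysisR.CStarEmbedding

noncomputable section

/-- the conditions at one index of the ultrapower -/
theorem contradiction_at (p : ℕ) [Fact p.Prime] (hR : StmtRep)
    {G : Type} [Group G] (K : KGroup p G) (F : Set G) (C η : ℝ) (hC1 : 1 ≤ C)
    (hchain : ∀ (H : Type) [NormedAddCommGroup H] [InnerProductSpace ℂ H] [CompleteSpace H]
        (w : G → H →L[ℂ] H) (δ : ℝ), 0 < δ → C * δ ≤ 1 → AlmostRep w F δ →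
        ∀ ζ : H, ‖ζ‖ = 1 → (∀ s, ‖w (K.gen s) ζ - chi p s • ζ‖ ≤ 1 / C) →
        ∀ n, ∃ T : PiLp 2 (fun _ : Y p n => H), ‖T‖ = 1 ∧
          ∀ s, ‖tens (w (K.gen s)) (sigmaU p n s : Matrix (Y p n) (Y p n) ℂ) T - T‖
            ≤ C * Real.sqrt δ)
    {O : Type} [CStarAlgebra O]
    (hno : ∀ (H : Type) [NormedAddCommGroup H] [InnerProductSpace ℂ H] [CompleteSpace H]
      (π : O →⋆ₐ[ℂ] (H →L[ℂ] H)) (x : Fin 4 → O), (∀ s, ‖star (x s) * x s - 1‖ ≤ η) →
      ¬ (∀ n, ∃ T : PiLp 2 (fun _ : Y p n => H), ‖T‖ = 1 ∧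
          ∀ s, ‖tens (π (x s)) (sigmaU p n s : Matrix (Y p n) (Y p n) ℂ) T - T‖ ≤ η))
    (δ : ℝ) (hδ : 0 < δ) (hδ1 : δ ≤ 1) (hCδ : C * Real.sqrt δ ≤ η) (hδη : 4 * δ ≤ η)
    (hδC : 160 * C ^ 2 * δ ≤ 1)
    (f : G → O) (e h : O)
    (hmul : ∀ g ∈ F ∪ Set.range K.gen ∪ (Set.range K.gen)⁻¹,
      ∀ k ∈ F ∪ Set.range K.gen ∪ (Set.range K.gen)⁻¹, ‖f g * f k - f (g * k)‖ ≤ δ)
    (hstar : ∀ g ∈ F ∪ Set.range K.gen ∪ (Set.range K.gen)⁻¹, ‖star (f g) - f g⁻¹‖ ≤ δ)
    (hone : ‖f 1 - 1‖ ≤ δ) (he : ‖e - 1‖ ≤ δ)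
    (hnorm : ∀ g ∈ F ∪ Set.range K.gen ∪ (Set.range K.gen)⁻¹, ‖f g‖ ≤ 1 + δ)
    (hh : 5 - δ / 2 ≤ ‖h‖)
    (hh2 : ‖h - (e + ∑ s, conj (chi p s) • f (K.gen s))‖ ≤ δ / 2) : False := by
  have hnt : Nontrivial O := by
    by_contra hcon
    rw [not_nontrivial_iff_subsingleton] at hcon
    have : h = 0 := Subsingleton.elim _ _
    rw [this, norm_zero] at hh
    linarith
  obtain ⟨H, _, _, _, π, ζ, hζ, hπζ⟩ := hR O h
  have hgenmem : ∀ s, K.gen s ∈ F ∪ Set.range K.gen ∪ (Set.range K.gen)⁻¹ := fun s =>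
    Or.inl (Or.inr ⟨s, rfl⟩)
  have hgeninv : ∀ s, (K.gen s)⁻¹ ∈ F ∪ Set.range K.gen ∪ (Set.range K.gen)⁻¹ := fun s =>
    Or.inr (by simp)
  have hπle : ∀ y : O, ‖π y‖ ≤ ‖y‖ := fun y => NonUnitalStarAlgHom.norm_apply_le π y
  -- almost representation
  have hw : AlmostRep (fun g => π (f g)) F δ := by
    refine ⟨fun g hg k hk => ?_, fun g hg => ?_, ?_, fun g hg => ?_⟩
    · have : (π (f g) ∘L π (f k)) - π (f (g * k)) = π (f g * f k - f (g * k)) := by
        rw [map_sub, map_mul]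
        rfl
      rw [this]
      exact (hπle _).trans (hmul g (Or.inl (Or.inl hg)) k (Or.inl (Or.inl hk)))
    · have : ContinuousLinearMap.adjoint (π (f g)) - π (f g⁻¹) = π (star (f g) - f g⁻¹) := by
        rw [map_sub, map_star]
        rfl
      rw [this]
      exact (hπle _).trans (hstar g (Or.inl (Or.inl hg)))
    · have : π (f 1) - 1 = π (f 1 - 1) := by rw [map_sub, map_one]
      rw [this]
      exact (hπle _).trans hone
    · exact (hπle _).trans (hnorm g (Or.inl (Or.inl hg)))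
  -- near eigenvector
  set z₀ : H := π e ζ with hz₀
  set z : Fin 4 → H := fun s => conj (chi p s) • π (f (K.gen s)) ζ with hz
  have hz0n : ‖z₀ - ζ‖ ≤ δ := by
    have : z₀ - ζ = (π (e - 1)) ζ := by
      rw [map_sub, map_one]
      rfl
    rw [this]
    calc ‖(π (e - 1)) ζ‖ ≤ ‖π (e - 1)‖ * ‖ζ‖ := (π (e - 1)).le_opNorm ζ
      _ ≤ δ * 1 := by
        rw [hζ]
        gcongr
        exact (hπle _).trans he
      _ = δ := mul_one δ
  have hz0' : ‖z₀‖ ≤ 1 + δ := by
    have := norm_add_le (z₀ - ζ) ζ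
    rw [sub_add_cancel, hζ] at this
    linarith
  have hzn : ∀ s, ‖z s‖ ≤ 1 + δ := by
    intro s
    rw [hz]
    simp only
    rw [norm_smul, RCLike.norm_conj, norm_chi, one_mul]
    calc ‖(π (f (K.gen s))) ζ‖ ≤ ‖π (f (K.gen s))‖ * ‖ζ‖ := (π (f (K.gen s))).le_opNorm ζ
      _ ≤ (1 + δ) * 1 := by
        rw [hζ]
        gcongr
        exact (hπle _).trans (hnorm _ (hgenmem s))
      _ = 1 + δ := mul_one _
  have hsum : 5 - δ ≤ ‖z₀ + ∑ s, z s‖ := by
    have h1 : π h ζ = (z₀ + ∑ s, z s) + (π (h - (e + ∑ s, conj (chi p s) • f (K.gen s)))) ζ := by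
      have h2 : (π (e + ∑ s, conj (chi p s) • f (K.gen s))) ζ = z₀ + ∑ s, z s := by
        rw [map_add, map_sum]
        simp only [map_smul]
        rw [add_apply, sum_apply]
        rfl
      rw [map_sub, sub_apply, h2]
      abel
    have h3 : ‖(π (h - (e + ∑ s, conj (chi p s) • f (K.gen s)))) ζ‖ ≤ δ / 2 := by
      refine ((π _).le_opNorm ζ).trans ?_
      rw [hζ, mul_one]
      exact (hπle _).trans hh2
    have h4 := norm_add_le (z₀ + ∑ s, z s)
      ((π (h - (e + ∑ s, conj (chi p s) • f (K.gen s)))) ζ)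
    rw [← h1, hπζ] at h4
    linarith
  have hnear : ∀ s, ‖z s - z₀‖ ^ 2 ≤ 40 * δ := by
    intro s
    have hsplit : z₀ + ∑ t, z t = z₀ + z s + ∑ t ∈ Finset.univ.erase s, z t := by
      rw [add_assoc, Finset.add_sum_erase _ _ (Finset.mem_univ s)]
    refine near_of_sum z₀ (z s) (∑ t ∈ Finset.univ.erase s, z t) δ hδ.le hδ1 hz0' (hzn s) ?_ ?_
    · refine (norm_sum_le _ _).trans ?_
      refine (Finset.sum_le_sum fun t _ => hzn t).trans ?_
      rw [Finset.sum_const, Finset.card_erase_of_mem (Finset.mem_univ s), Finset.card_univ,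
        Fintype.card_fin, nsmul_eq_mul]
      norm_num
    · rw [← hsplit]
      exact hsum
  have hC0 : 0 < C := by linarith
  have heig : ∀ s, ‖π (f (K.gen s)) ζ - chi p s • ζ‖ ≤ 1 / C := by
    intro s
    have h1 : ‖π (f (K.gen s)) ζ - chi p s • ζ‖ = ‖z s - ζ‖ := by
      have h2 : z s - ζ = conj (chi p s) • (π (f (K.gen s)) ζ - chi p s • ζ) := by
        rw [smul_sub, smul_smul]
        have : conj (chi p s) * chi p s = 1 := by
          rw [mul_comm, Complex.mul_conj, Complex.normSq_eq_norm_sq, norm_chi]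
          simp
        rw [this, one_smul]
      rw [h2, norm_smul, RCLike.norm_conj, norm_chi, one_mul]
    rw [h1]
    have h3 : ‖z s - z₀‖ ≤ 1 / (2 * C) := by
      have h4 : ‖z s - z₀‖ ^ 2 ≤ (1 / (2 * C)) ^ 2 := by
        refine (hnear s).trans ?_
        rw [div_pow, one_pow, le_div_iff₀ (by positivity)]
        nlinarith
      exact le_of_sq_le_sq h4 (by positivity)
    have h5 : δ ≤ 1 / (2 * C) := by
      rw [le_div_iff₀ (by positivity)]
      nlinarith [mul_le_mul_of_nonneg_left hC1 hC0.le]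
    have h6 : ‖z s - ζ‖ ≤ ‖z s - z₀‖ + ‖z₀ - ζ‖ := by
      have := norm_add_le (z s - z₀) (z₀ - ζ)
      rwa [sub_add_sub_cancel] at this
    have h7 : (1 : ℝ) / C = 1 / (2 * C) + 1 / (2 * C) := by
      field_simp
      norm_num
    rw [h7]
    linarith
  have hCδ1 : C * δ ≤ 1 := by nlinarith [mul_le_mul_of_nonneg_left hC1 hC0.le]
  have hall := hchain H (fun g => π (f g)) δ hδ hCδ1 hw ζ hζ heig
  refine hno H π (fun s => f (K.gen s)) (fun s => ?_) (fun n => ?_)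
  · -- star x * x ≈ 1
    have h1 : star (f (K.gen s)) * f (K.gen s) - 1
        = (star (f (K.gen s)) - f (K.gen s)⁻¹) * f (K.gen s)
          + (f (K.gen s)⁻¹ * f (K.gen s) - f ((K.gen s)⁻¹ * K.gen s)) + (f 1 - 1) := by
      rw [inv_mul_cancel]
      noncomm_ring
    rw [h1]
    have a1 := hstar _ (hgenmem s)
    have a2 := hmul _ (hgeninv s) _ (hgenmem s)
    have a3 := hnorm _ (hgenmem s)
    have a4 : ‖(star (f (K.gen s)) - f (K.gen s)⁻¹) * f (K.gen s)‖ ≤ δ * (1 + δ) := by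
      refine (norm_mul_le _ _).trans ?_
      gcongr
    refine (norm_add₃_le).trans ?_
    nlinarith
  · obtain ⟨T, hT, hTs⟩ := hall n
    exact ⟨T, hT, fun s => (hTs s).trans hCδ⟩

end

end Crest.Agent.R073
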