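import Crest.Agent.R073.Main3
import Crest.Agent.R073.Stmts
import Crest.Agent.R73.UnivInst
import Crest.Agent.R073.Defs
import Crest.Agent.R073.Sos

-- ▼ part R073/Main4
section

/-!
Row 73 (S0098): assembly, part 4: the final theorem from the frozen statements.
-/

set_option autoImplicit false

namespace Crest.Agent.R073

open scoped Matrix ComplexConjugate
open Filter Topology Crest.AnalysisR.CStarEmbedding

noncomputable section

/-- additivity of asymptotic approximation -/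
theorem tendsto_add_aux {A O : Type} [CStarAlgebra A] [CStarAlgebra O] (ω : Ultrafilter ℕ)
    (φ : ℕ → A → O) (hadd : ∀ a b, Tendsto (fun n => ‖φ n (a + b) - (φ n a + φ n b)‖)
      (ω : Filter ℕ) (𝓝 0)) (a b : A) (X W : ℕ → O)
    (ha : Tendsto (fun n => ‖φ n a - X n‖) (ω : Filter ℕ) (𝓝 0))
    (hb : Tendsto (fun n => ‖φ n b - W n‖) (ω : Filter ℕ) (𝓝 0)) :
    Tendsto (fun n => ‖φ n (a + b) - (X n + W n)‖) (ω : Filter ℕ) (𝓝 0) := by
  have h := ((hadd a b).add ha).add hb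
  simp only [add_zero] at h
  refine squeeze_zero (fun n => norm_nonneg _) (fun n => ?_) h
  have e : φ n (a + b) - (X n + W n)
      = (φ n (a + b) - (φ n a + φ n b)) + (φ n a - X n) + (φ n b - W n) := by abel
  rw [e]
  exact norm_add₃_le

theorem main_of_stmts (p : ℕ) [Fact p.Prime] (hFull : StmtFull) (hO2 : StmtO2) (hR : StmtRep)
    (hC : StmtCuntz) (hE : StmtExpander p) (hM : StmtMat p) (hSl : StmtSlice) (hσ : StmtSigma p)
    (hQ : StmtQuant p) (hT : StmtTens) (hS : StmtStep p) (hG : StmtGroup p) :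
    ∃ (Γ : Type) (_ : Group Γ) (_ : Countable Γ) (A : Type) (_ : CStarAlgebra A)
      (u : Γ →* unitary A), IsFullGroupCStar A u ∧
      ∃ (O : Type) (_ : CStarAlgebra O) (s₁ s₂ : O), IsCuntzTwo O s₁ s₂ ∧
        ∀ ω : Ultrafilter ℕ, (∀ n : ℕ, (ω : Filter ℕ) ≠ pure n) →
          ¬ ∃ φ : ℕ → A → O, IsUltrapowerEmbedding ω A O φ := by
  obtain ⟨G, _, _, K, hbase⟩ := hG
  obtain ⟨A, _, u, hA⟩ := hFull G
  obtain ⟨O, _, s₁, s₂, hO⟩ := hO2
  refine ⟨G, _, ‹_›, A, _, u, hA, O, _, s₁, s₂, hO, ?_⟩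
  rintro ω - ⟨φ, hbd, hadd, hsmul, hmul, hstar, hone, hnorm⟩
  obtain ⟨F, C, hF, hC1, hchain⟩ := chain p hQ hT hS hσ G K
  obtain ⟨η, hη, hno⟩ := noChain p hC hE hM hSl hσ
  have hC0 : 0 < C := by linarith
  -- choice of `δ`
  obtain ⟨δ, hδ, hδ1, hδ2, hδ3, hδ4⟩ : ∃ δ : ℝ, 0 < δ ∧ δ ≤ 1 ∧ C * Real.sqrt δ ≤ η ∧
      4 * δ ≤ η ∧ 160 * C ^ 2 * δ ≤ 1 := by
    refine ⟨min 1 (min ((η / C) ^ 2) (min (η / 4) (1 / (160 * C ^ 2)))), ?_, ?_, ?_, ?_, ?_⟩
    · positivity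
    · exact min_le_left _ _
    · have h1 : min 1 (min ((η / C) ^ 2) (min (η / 4) (1 / (160 * C ^ 2)))) ≤ (η / C) ^ 2 :=
        (min_le_right _ _).trans (min_le_left _ _)
      have h2 := Real.sqrt_le_sqrt h1
      rw [Real.sqrt_sq (by positivity)] at h2
      calc C * Real.sqrt _ ≤ C * (η / C) := by gcongr
        _ = η := by field_simp
    · have h1 : min 1 (min ((η / C) ^ 2) (min (η / 4) (1 / (160 * C ^ 2)))) ≤ η / 4 :=
        (min_le_right _ _).trans ((min_le_right _ _).trans (min_le_left _ _))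
      linarith
    · have h1 : min 1 (min ((η / C) ^ 2) (min (η / 4) (1 / (160 * C ^ 2)))) ≤ 1 / (160 * C ^ 2) :=
        (min_le_right _ _).trans ((min_le_right _ _).trans (min_le_right _ _))
      calc 160 * C ^ 2 * _ ≤ 160 * C ^ 2 * (1 / (160 * C ^ 2)) := by gcongr
        _ = 1 := by field_simp
  set F' : Set G := F ∪ Set.range K.gen ∪ (Set.range K.gen)⁻¹ with hF'
  have hF'fin : F'.Finite := (hF.union (Set.finite_range _)).union (Set.finite_range _).inv
  -- the almost representations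
  have E1 : ∀ᶠ n in (ω : Filter ℕ), ∀ g ∈ F', ∀ k ∈ F',
      ‖φ n (u g : A) * φ n (u k : A) - φ n (u (g * k) : A)‖ ≤ δ := by
    rw [eventually_all_finite hF'fin]
    intro g _
    rw [eventually_all_finite hF'fin]
    intro k _
    filter_upwards [(hmul (u g : A) (u k : A)).eventually_le_const hδ] with n hn
    rw [norm_sub_rev]
    simpa using hn
  have E2 : ∀ᶠ n in (ω : Filter ℕ), ∀ g ∈ F',
      ‖star (φ n (u g : A)) - φ n (u g⁻¹ : A)‖ ≤ δ := by
    rw [eventually_all_finite hF'fin]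
    intro g _
    filter_upwards [(hstar (u g : A)).eventually_le_const hδ] with n hn
    rw [norm_sub_rev]
    have : (star (u g : A)) = (u g⁻¹ : A) := by
      rw [map_inv]
      rfl
    rw [this] at hn
    exact hn
  have E3 : ∀ᶠ n in (ω : Filter ℕ), ‖φ n 1 - 1‖ ≤ δ := hone.eventually_le_const hδ
  have E4 : ∀ᶠ n in (ω : Filter ℕ), ∀ g ∈ F', ‖φ n (u g : A)‖ ≤ 1 + δ := by
    rw [eventually_all_finite hF'fin]
    intro g _
    have hle : ‖(u g : A)‖ ≤ 1 := by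
      rcases subsingleton_or_nontrivial A with h | h
      · have : (u g : A) = 0 := Subsingleton.elim _ _
        rw [this, norm_zero]
        exact zero_le_one
      · exact (CStarRing.norm_of_mem_unitary (u g).2).le
    exact (hnorm (u g : A)).eventually_le_const (by linarith)
  -- the test element
  set h0 : A := (1 : A) + (u K.a : A) + (u K.b : A) + (u K.c : A)
        + conj (psi p 1) • (u (K.D (Multiplicative.ofAdd ![0, 0, 1])) : A) with hh0
  have hh05 : 5 ≤ ‖h0‖ := hbase A u hA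
  have E5 : ∀ᶠ n in (ω : Filter ℕ), 5 - δ / 2 ≤ ‖φ n h0‖ :=
    (hnorm h0).eventually_const_le (by linarith)
  have hself : ∀ a : A, Tendsto (fun n => ‖φ n a - φ n a‖) (ω : Filter ℕ) (𝓝 0) := by
    intro a
    simp
  have hlast : Tendsto (fun n => ‖φ n h0 - (φ n 1 + φ n (u K.a : A) + φ n (u K.b : A)
      + φ n (u K.c : A) + conj (psi p 1) •
        φ n (u (K.D (Multiplicative.ofAdd ![0, 0, 1])) : A))‖) (ω : Filter ℕ) (𝓝 0) := by
    refine tendsto_add_aux ω φ hadd _ _ _ _ ?_ (hsmul _ _)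
    refine tendsto_add_aux ω φ hadd _ _ _ _ ?_ (hself _)
    refine tendsto_add_aux ω φ hadd _ _ _ _ ?_ (hself _)
    exact tendsto_add_aux ω φ hadd _ _ _ _ (hself _) (hself _)
  have E6 : ∀ᶠ n in (ω : Filter ℕ), ‖φ n h0 - (φ n 1 + φ n (u K.a : A) + φ n (u K.b : A)
      + φ n (u K.c : A) + conj (psi p 1) •
        φ n (u (K.D (Multiplicative.ofAdd ![0, 0, 1])) : A))‖ ≤ δ / 2 :=
    hlast.eventually_le_const (by positivity)
  obtain ⟨m, e1, e2, e3, e4, e5, e6⟩ :=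
    (E1.and (E2.and (E3.and (E4.and (E5.and E6))))).exists
  refine contradiction_at p hR K F C η hC1 hchain (O := O) (fun H _ _ _ π x => hno O s₁ s₂ hO H π x)
    δ hδ hδ1 hδ2 hδ3 hδ4 (fun g => φ m (u g : A)) (φ m 1) (φ m h0) e1 e2 ?_ e3 e4 e5 ?_
  · simpa using e3
  · have hsum : φ m 1 + ∑ s, conj (chi p s) • φ m (u (K.gen s) : A)
        = (φ m 1 + φ m (u K.a : A) + φ m (u K.b : A)
      + φ m (u K.c : A) + conj (psi p 1) •
        φ m (u (K.D (Multiplicative.ofAdd ![0, 0, 1])) : A)) := by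
      rw [Fin.sum_univ_four]
      simp only [chi, KGroup.gen, Matrix.cons_val_zero, Matrix.cons_val_one, Matrix.cons_val,
        map_one, one_smul]
      abel
    rw [hsum]
    exact e6

end

end Crest.Agent.R073
end

-- ▼ part R073/Univ
section

/-! Row 73, module M1 in the frozen form. -/

set_option autoImplicit false

namespace Crest.Agent.R073

theorem stmtFull : StmtFull := fun G _ _ => Crest.Agent.R73.exists_fullGroupCStar G

theorem stmtO2 : StmtO2 := Crest.Agent.R73.exists_cuntzTwo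

end Crest.Agent.R073
end

-- ▼ part R073/Slice
section

/-!
Row 73 (S0098), module M4a: slicing of an approximately intertwining operator.
-/

set_option autoImplicit false

namespace Crest.Agent.R073

open scoped Matrix ComplexConjugate InnerProductSpace

noncomputable section

namespace Slice

/-- pigeonhole for weighted sums -/
theorem exists_good {β : Type} [Fintype β] (f g : β → ℝ) (hf : ∀ b, 0 ≤ f b) (hg : ∀ b, 0 ≤ g b)
    (c : ℝ) (hsum : ∑ b, f b = 1) (hle : ∑ b, g b ≤ c) : ∃ b, 0 < f b ∧ g b ≤ c * f b := by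
  by_contra hcon
  push Not at hcon
  obtain ⟨b₀, hb₀⟩ : ∃ b, 0 < f b := by
    by_contra h
    push Not at h
    have : ∑ b, f b ≤ 0 := Finset.sum_nonpos fun b _ => h b
    linarith
  have h1 : ∑ b, c * f b < ∑ b, g b := by
    apply Finset.sum_lt_sum
    · intro b _
      rcases (hf b).lt_or_eq with h | h
      · exact (hcon b h).le
      · rw [← h]; simpa using hg b
    · exact ⟨b₀, Finset.mem_univ _, hcon b₀ hb₀⟩
  rw [← Finset.mul_sum, hsum, mul_one] at h1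
  linarith

theorem frob_nonneg {m n : Type} [Fintype m] [Fintype n] (X : Matrix m n ℂ) : 0 ≤ frob X := by
  unfold frob; positivity

theorem frob_smul {m n : Type} [Fintype m] [Fintype n] (c : ℂ) (X : Matrix m n ℂ) :
    frob (c • X) = ‖c‖ ^ 2 * frob X := by
  unfold frob
  simp only [Matrix.smul_apply, smul_eq_mul, norm_mul, mul_pow, Finset.mul_sum]

/-- finite dimensional subspace and Parseval -/
theorem exists_slices {H : Type} [NormedAddCommGroup H] [InnerProductSpace ℂ H] {κ : Type}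
    [Finite κ] (W : κ → H) :
    ∃ (N : ℕ) (φ : Fin N → H →ₗ[ℂ] ℂ), ∀ x ∈ Submodule.span ℂ (Set.range W),
      ∑ b, ‖φ b x‖ ^ 2 = ‖x‖ ^ 2 := by
  classical
  set S : Submodule ℂ H := Submodule.span ℂ (Set.range W) with hS
  have : FiniteDimensional ℂ S := FiniteDimensional.span_of_finite ℂ (Set.finite_range _)
  let e := stdOrthonormalBasis ℂ S
  refine ⟨Module.finrank ℂ S, fun b => innerₛₗ ℂ ((e b : S) : H), fun x hx => ?_⟩
  have := e.sum_sq_norm_inner_right ⟨x, hx⟩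
  simpa using this

theorem unitary_sum {H : Type} [NormedAddCommGroup H] [InnerProductSpace ℂ H] {ι : Type}
    [Fintype ι] [DecidableEq ι] (U : Matrix.unitaryGroup ι ℂ) (R : ι → H) :
    ∑ y, ‖∑ z, (U : Matrix ι ι ℂ) z y • R z‖ ^ 2 = ∑ y, ‖R y‖ ^ 2 := by
  have hU : (U : Matrix ι ι ℂ) * star (U : Matrix ι ι ℂ) = 1 :=
    Matrix.mem_unitaryGroup_iff.mp U.2
  have key : ∀ z z', ∑ y, conj ((U : Matrix ι ι ℂ) z y) * (U : Matrix ι ι ℂ) z' y
      = if z' = z then 1 else 0 := by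
    intro z z'
    have := congrFun (congrFun hU z') z
    rw [Matrix.mul_apply, Matrix.one_apply] at this
    rw [← this]
    refine Finset.sum_congr rfl fun y _ => ?_
    rw [Matrix.star_apply, mul_comm]; rfl
  have h1 : ∀ y, ((‖∑ z, (U : Matrix ι ι ℂ) z y • R z‖ ^ 2 : ℝ) : ℂ)
      = ∑ z, ∑ z', (conj ((U : Matrix ι ι ℂ) z y) * (U : Matrix ι ι ℂ) z' y) * ⟪R z, R z'⟫_ℂ := by
    intro y
    have := inner_self_eq_norm_sq_to_K (𝕜 := ℂ) (∑ z, (U : Matrix ι ι ℂ) z y • R z)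
    rw [Complex.ofReal_pow]
    refine Eq.trans this.symm ?_
    rw [sum_inner]
    refine Finset.sum_congr rfl fun z _ => ?_
    rw [inner_sum]
    refine Finset.sum_congr rfl fun z' _ => ?_
    rw [inner_smul_left, inner_smul_right]; ring
  have h2 : ((∑ y, ‖∑ z, (U : Matrix ι ι ℂ) z y • R z‖ ^ 2 : ℝ) : ℂ)
      = ((∑ y, ‖R y‖ ^ 2 : ℝ) : ℂ) := by
    rw [Complex.ofReal_sum, Complex.ofReal_sum]
    simp only [h1]
    rw [Finset.sum_comm]
    refine Finset.sum_congr rfl fun z _ => ?_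
    rw [Finset.sum_comm]
    simp only [← Finset.sum_mul, key]
    simp only [ite_mul, one_mul, zero_mul, Finset.sum_ite_eq', Finset.mem_univ, if_true]
    refine (inner_self_eq_norm_sq_to_K (𝕜 := ℂ) (R z)).trans ?_
    simp
  exact_mod_cast h2

theorem norm_add_sq_le {H : Type} [NormedAddCommGroup H] (a b : H) :
    ‖a + b‖ ^ 2 ≤ 2 * (‖a‖ ^ 2 + ‖b‖ ^ 2) := by
  have := norm_add_le a b
  nlinarith [sq_nonneg (‖a‖ - ‖b‖), norm_nonneg (a + b), norm_nonneg a, norm_nonneg b]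

end Slice

open Slice

theorem stmtSlice : StmtSlice := by
  intro H _ _ _ k V α E η hη hV hα hα' ι _ _ _ U T hT hTU
  classical
  let W : Fin k → ι → H := fun i y => V i (T y)
  obtain ⟨N, φ, hφ⟩ := exists_slices (fun q : Fin k × ι => W q.1 q.2)
  set S := Submodule.span ℂ (Set.range fun q : Fin k × ι => W q.1 q.2) with hS
  have hWS : ∀ i y, W i y ∈ S := fun i y => Submodule.subset_span ⟨(i, y), rfl⟩
  -- norm of T
  have hT2 : ∑ y, ‖T y‖ ^ 2 = 1 := by
    rw [← PiLp.norm_sq_eq_of_L2, hT]; norm_num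
  -- residual of the intertwining relation
  have hres : ∀ s, ∑ y, ‖E s (T y) - ∑ z, (U s : Matrix ι ι ℂ) z y • T z‖ ^ 2 ≤ η ^ 2 := by
    intro s
    have hU : star (U s : Matrix ι ι ℂ) * (U s : Matrix ι ι ℂ) = 1 :=
      Matrix.mem_unitaryGroup_iff'.mp (U s).2
    have h1 : ‖tens (E s) (U s : Matrix ι ι ℂ) T - T‖ ^ 2 ≤ η ^ 2 :=
      pow_le_pow_left₀ (norm_nonneg _) (hTU s) 2
    rw [PiLp.norm_sq_eq_of_L2, ← unitary_sum (U s)] at h1
    refine le_trans (le_of_eq ?_) h1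
    refine Finset.sum_congr rfl fun y _ => ?_
    congr 2
    simp only [PiLp.sub_apply, tens_apply, smul_sub, Finset.sum_sub_distrib]
    congr 1
    simp only [Finset.smul_sum, smul_smul]
    rw [Finset.sum_comm]
    simp only [← Finset.sum_smul]
    have key : ∀ j, ∑ z, (U s : Matrix ι ι ℂ) z y * conj ((U s : Matrix ι ι ℂ) z j)
        = if j = y then 1 else 0 := by
      intro j
      have := congrFun (congrFun hU j) y
      rw [Matrix.mul_apply, Matrix.one_apply] at this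
      rw [← this]
      refine Finset.sum_congr rfl fun z _ => ?_
      rw [Matrix.star_apply, mul_comm]; rfl
    simp only [key, ite_smul, one_smul, zero_smul, Finset.sum_ite_eq', Finset.mem_univ, if_true]
  -- the two families of vectors
  let P : Fin 4 → Fin k → ι → H := fun s i y =>
    ∑ j, α s i j • W j y - ∑ z, (U s : Matrix ι ι ℂ) z y • W i z
  let Q : Fin 4 → Fin k → ι → H := fun s i y =>
    ∑ j, ((α s)ᴴ * α s) i j • W j y - W i y
  have hPS : ∀ s i y, P s i y ∈ S := fun s i y =>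
    S.sub_mem (S.sum_mem fun j _ => S.smul_mem _ (hWS j y))
      (S.sum_mem fun z _ => S.smul_mem _ (hWS i z))
  have hQS : ∀ s i y, Q s i y ∈ S := fun s i y =>
    S.sub_mem (S.sum_mem fun j _ => S.smul_mem _ (hWS j y)) (hWS i y)
  have hW1 : ∑ i, ∑ y, ‖W i y‖ ^ 2 = 1 := by
    rw [Finset.sum_comm]
    simp only [W, hV]
    exact hT2
  have hP1 : ∀ s, ∑ i, ∑ y, ‖P s i y‖ ^ 2 ≤ 4 * η ^ 2 := by
    intro s
    have hdec : ∀ i y, P s i y = -(V i (E s (T y)) - ∑ j, α s i j • V j (T y))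
        + V i (E s (T y) - ∑ z, (U s : Matrix ι ι ℂ) z y • T z) := by
      intro i y
      simp only [P, W, map_sub, map_sum, map_smul]
      abel
    have hle : ∀ i y, ‖P s i y‖ ^ 2 ≤ 2 * (‖V i (E s (T y)) - ∑ j, α s i j • V j (T y)‖ ^ 2
        + ‖V i (E s (T y) - ∑ z, (U s : Matrix ι ι ℂ) z y • T z)‖ ^ 2) := by
      intro i y
      rw [hdec]
      refine (norm_add_sq_le _ _).trans ?_
      rw [norm_neg]
    calc ∑ i, ∑ y, ‖P s i y‖ ^ 2
        ≤ ∑ i, ∑ y, 2 * (‖V i (E s (T y)) - ∑ j, α s i j • V j (T y)‖ ^ 2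
        + ‖V i (E s (T y) - ∑ z, (U s : Matrix ι ι ℂ) z y • T z)‖ ^ 2) :=
          Finset.sum_le_sum fun i _ => Finset.sum_le_sum fun y _ => hle i y
      _ = 2 * (∑ y, ∑ i, ‖V i (E s (T y)) - ∑ j, α s i j • V j (T y)‖ ^ 2
          + ∑ y, ∑ i, ‖V i (E s (T y) - ∑ z, (U s : Matrix ι ι ℂ) z y • T z)‖ ^ 2) := by
          rw [Finset.sum_comm]
          simp only [← Finset.mul_sum, Finset.sum_add_distrib]
      _ ≤ 2 * (∑ y, η ^ 2 * ‖T y‖ ^ 2
          + ∑ y, ‖E s (T y) - ∑ z, (U s : Matrix ι ι ℂ) z y • T z‖ ^ 2) := by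
          gcongr with y _ y _
          · exact hα s (T y)
          · exact (hV _).le
      _ ≤ 2 * (η ^ 2 + η ^ 2) := by
          rw [← Finset.mul_sum, hT2, mul_one]
          gcongr
          exact hres s
      _ = 4 * η ^ 2 := by ring
  have hQ1 : ∀ s, ∑ i, ∑ y, ‖Q s i y‖ ^ 2 ≤ η ^ 2 := by
    intro s
    calc ∑ i, ∑ y, ‖Q s i y‖ ^ 2
        = ∑ y, ∑ i, ‖V i (T y) - ∑ j, ((α s)ᴴ * α s) i j • V j (T y)‖ ^ 2 := by
          rw [Finset.sum_comm]
          refine Finset.sum_congr rfl fun y _ => Finset.sum_congr rfl fun i _ => ?_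
          rw [norm_sub_rev]
      _ ≤ ∑ y, η ^ 2 * ‖T y‖ ^ 2 := Finset.sum_le_sum fun y _ => hα' s (T y)
      _ = η ^ 2 := by rw [← Finset.mul_sum, hT2, mul_one]
  -- slices
  let Wb : Fin N → Matrix (Fin k) ι ℂ := fun b => Matrix.of fun i y => φ b (W i y)
  have hPb : ∀ s b, frob (α s * Wb b - Wb b * (U s : Matrix ι ι ℂ))
      = ∑ i, ∑ y, ‖φ b (P s i y)‖ ^ 2 := by
    intro s b
    unfold frob
    refine Finset.sum_congr rfl fun i _ => Finset.sum_congr rfl fun y _ => ?_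
    congr 2
    simp only [P, Wb, Matrix.sub_apply, Matrix.mul_apply, Matrix.of_apply, map_sub, map_sum,
      map_smul, smul_eq_mul]
    congr 1
    exact Finset.sum_congr rfl fun z _ => mul_comm _ _
  have hQb : ∀ s b, frob (((α s)ᴴ * α s - 1) * Wb b) = ∑ i, ∑ y, ‖φ b (Q s i y)‖ ^ 2 := by
    intro s b
    unfold frob
    refine Finset.sum_congr rfl fun i _ => Finset.sum_congr rfl fun y _ => ?_
    congr 2
    rw [Matrix.sub_mul, Matrix.one_mul]
    simp only [Q, Wb, Matrix.sub_apply, Matrix.mul_apply (M := (α s)ᴴ * α s), Matrix.of_apply,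
      map_sub, map_sum, map_smul, smul_eq_mul]
  have hslice : ∀ Z : Fin k → ι → H, (∀ i y, Z i y ∈ S) →
      ∑ b, ∑ i, ∑ y, ‖φ b (Z i y)‖ ^ 2 = ∑ i, ∑ y, ‖Z i y‖ ^ 2 := by
    intro Z hZ
    rw [Finset.sum_comm]
    refine Finset.sum_congr rfl fun i _ => ?_
    rw [Finset.sum_comm]
    exact Finset.sum_congr rfl fun y _ => hφ _ (hZ i y)
  have hsumW : ∑ b, frob (Wb b) = 1 := by
    rw [← hW1, ← hslice W hWS]
    rfl
  let g : Fin N → ℝ := fun b => ∑ s, (frob (α s * Wb b - Wb b * (U s : Matrix ι ι ℂ))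
    + frob (((α s)ᴴ * α s - 1) * Wb b))
  have hg : ∑ b, g b ≤ 20 * η ^ 2 := by
    have h1 : ∑ b, g b = ∑ s, (∑ i, ∑ y, ‖P s i y‖ ^ 2 + ∑ i, ∑ y, ‖Q s i y‖ ^ 2) := by
      simp only [g]
      rw [Finset.sum_comm]
      refine Finset.sum_congr rfl fun s _ => ?_
      rw [Finset.sum_add_distrib]
      simp only [hPb, hQb]
      rw [hslice _ (hPS s), hslice _ (hQS s)]
    rw [h1]
    calc ∑ s : Fin 4, (∑ i, ∑ y, ‖P s i y‖ ^ 2 + ∑ i, ∑ y, ‖Q s i y‖ ^ 2)
        ≤ ∑ _s : Fin 4, (4 * η ^ 2 + η ^ 2) := Finset.sum_le_sum fun s _ =>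
          add_le_add (hP1 s) (hQ1 s)
      _ = 20 * η ^ 2 := by simp; ring
  obtain ⟨b, hb0, hb⟩ := exists_good (fun b => frob (Wb b)) g (fun b => frob_nonneg _)
    (fun b => Finset.sum_nonneg fun s _ => add_nonneg (frob_nonneg _) (frob_nonneg _))
    (20 * η ^ 2) hsumW hg
  -- normalise
  set f := frob (Wb b) with hf
  let c : ℂ := ((Real.sqrt f)⁻¹ : ℝ)
  have hc : ‖c‖ ^ 2 = f⁻¹ := by
    simp only [c, Complex.norm_real, norm_inv, Real.norm_eq_abs, inv_pow, sq_abs]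
    rw [Real.sq_sqrt hb0.le]
  have hfin : ∀ x, x ≤ 20 * η ^ 2 * f → ‖c‖ ^ 2 * x ≤ (6 * η) ^ 2 := by
    intro x hx
    rw [hc]
    have : f⁻¹ * x ≤ f⁻¹ * (20 * η ^ 2 * f) := mul_le_mul_of_nonneg_left hx (inv_nonneg.mpr hb0.le)
    have h2 : f⁻¹ * (20 * η ^ 2 * f) = 20 * η ^ 2 := by
      field_simp
    nlinarith [sq_nonneg η]
  refine ⟨c • Wb b, ?_, fun s => ?_, fun s => ?_⟩
  · rw [frob_smul, hc, ← hf, inv_mul_cancel₀ hb0.ne']
  · have h1 : α s * (c • Wb b) - (c • Wb b) * (U s : Matrix ι ι ℂ)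
        = c • (α s * Wb b - Wb b * (U s : Matrix ι ι ℂ)) := by
      rw [Matrix.mul_smul, Matrix.smul_mul, smul_sub]
    rw [h1, frob_smul]
    apply hfin
    refine le_trans ?_ hb
    refine le_trans ?_ (Finset.single_le_sum
      (f := fun s => frob (α s * Wb b - Wb b * (U s : Matrix ι ι ℂ))
        + frob (((α s)ᴴ * α s - 1) * Wb b))
      (fun s _ => add_nonneg (frob_nonneg _) (frob_nonneg _)) (Finset.mem_univ s))
    exact le_add_of_nonneg_right (frob_nonneg _)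
  · rw [Matrix.mul_smul, frob_smul]
    apply hfin
    refine le_trans ?_ hb
    refine le_trans ?_ (Finset.single_le_sum
      (f := fun s => frob (α s * Wb b - Wb b * (U s : Matrix ι ι ℂ))
        + frob (((α s)ᴴ * α s - 1) * Wb b))
      (fun s _ => add_nonneg (frob_nonneg _) (frob_nonneg _)) (Finset.mem_univ s))
    exact le_add_of_nonneg_left (frob_nonneg _)

end

end Crest.Agent.R073
end

-- ▼ part R073/Ev
section

/-!
Row 73, M6: evaluation of real group algebra elements in an almost representation.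
-/

set_option autoImplicit false

namespace Crest.Agent.R073.Quant

open MonoidAlgebra Finset

noncomputable section

variable {G : Type} [Group G] {L : Type} [NormedAddCommGroup L] [InnerProductSpace ℂ L]

/-- evaluation of a group algebra element at a map `v : G → B(L)` -/
def ev (v : G → L →L[ℂ] L) (f : MonoidAlgebra ℝ G) : L →L[ℂ] L :=
  f.coeff.sum fun g r => (r : ℂ) • v g

lemma ev_single (v : G → L →L[ℂ] L) (g : G) (r : ℝ) :
    ev v (single g r) = (r : ℂ) • v g := by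
  unfold ev
  rw [MonoidAlgebra.coeff_single, Finsupp.sum_single_index]
  simp

lemma ev_zero (v : G → L →L[ℂ] L) : ev v 0 = 0 := by
  unfold ev
  rw [MonoidAlgebra.coeff_zero, Finsupp.sum_zero_index]

lemma ev_add (v : G → L →L[ℂ] L) (f f' : MonoidAlgebra ℝ G) :
    ev v (f + f') = ev v f + ev v f' := by
  unfold ev
  rw [MonoidAlgebra.coeff_add, Finsupp.sum_add_index']
  · intro g; simp
  · intro g r s; push_cast; rw [add_smul]

/-- `ev` as an additive hom -/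
def evHom (v : G → L →L[ℂ] L) : MonoidAlgebra ℝ G →+ (L →L[ℂ] L) where
  toFun := ev v
  map_zero' := ev_zero v
  map_add' := ev_add v

lemma ev_sum {ι : Type} (s : Finset ι) (v : G → L →L[ℂ] L) (f : ι → MonoidAlgebra ℝ G) :
    ev v (∑ i ∈ s, f i) = ∑ i ∈ s, ev v (f i) := map_sum (evHom v) f s

lemma ev_sub (v : G → L →L[ℂ] L) (f f' : MonoidAlgebra ℝ G) :
    ev v (f - f') = ev v f - ev v f' := map_sub (evHom v) f f'

lemma ev_smul (v : G → L →L[ℂ] L) (c : ℝ) (f : MonoidAlgebra ℝ G) :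
    ev v (c • f) = (c : ℂ) • ev v f := by
  induction f using MonoidAlgebra.induction_linear with
  | zero => rw [smul_zero, ev_zero, smul_zero]
  | add f g hf hg => rw [smul_add, ev_add, ev_add, smul_add, hf, hg]
  | single g r =>
    rw [MonoidAlgebra.smul_single, ev_single, ev_single, smul_smul]
    simp

lemma ev_one (v : G → L →L[ℂ] L) : ev v 1 = v 1 := by
  rw [MonoidAlgebra.one_def, ev_single]; simp

/-- `f = ∑ r_i g_i`, `f' = ∑ r_i g_i⁻¹`, `g_i ∈ H`, `∑ |r_i| ≤ M`. -/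
def RA (H : Subgroup G) (M : ℝ) (f f' : MonoidAlgebra ℝ G) : Prop :=
  ∃ (ι : Type) (_ : Fintype ι) (r : ι → ℝ) (g : ι → G),
    f = ∑ i, single (g i) (r i) ∧ f' = ∑ i, single (g i)⁻¹ (r i) ∧ (∀ i, g i ∈ H) ∧
      ∑ i, |r i| ≤ M

variable {H : Subgroup G} {M M' : ℝ} {f f' k k' : MonoidAlgebra ℝ G}

lemma RA.mono (h : RA H M f f') (hM : M ≤ M') : RA H M' f f' := by
  obtain ⟨ι, _, r, g, h1, h2, h3, h4⟩ := h
  exact ⟨ι, _, r, g, h1, h2, h3, h4.trans hM⟩

lemma RA.symm (h : RA H M f f') : RA H M f' f := by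
  obtain ⟨ι, _, r, g, h1, h2, h3, h4⟩ := h
  exact ⟨ι, _, r, fun i => (g i)⁻¹, h2, by simpa using h1, fun i => H.inv_mem (h3 i), h4⟩

lemma RA.single {g : G} (hg : g ∈ H) (r : ℝ) : RA H |r| (single g r) (single g⁻¹ r) :=
  ⟨Unit, inferInstance, fun _ => r, fun _ => g, by simp, by simp, fun _ => hg, by simp⟩

lemma RA.one : RA H 1 1 (1 : MonoidAlgebra ℝ G) := by
  have := RA.single (H := H) (H.one_mem) (1 : ℝ)
  simpa [MonoidAlgebra.one_def] using this

lemma RA.add (h : RA H M f f') (h' : RA H M' k k') : RA H (M + M') (f + k) (f' + k') := by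
  obtain ⟨ι, _, r, g, h1, h2, h3, h4⟩ := h
  obtain ⟨κ, _, s, l, e1, e2, e3, e4⟩ := h'
  refine ⟨ι ⊕ κ, inferInstance, Sum.elim r s, Sum.elim g l, ?_, ?_, ?_, ?_⟩
  · rw [Fintype.sum_sum_type, h1, e1]; simp
  · rw [Fintype.sum_sum_type, h2, e2]; simp
  · rintro (i | j)
    · exact h3 i
    · exact e3 j
  · rw [Fintype.sum_sum_type]; simpa using add_le_add h4 e4

lemma RA.smul (c : ℝ) (h : RA H M f f') : RA H (|c| * M) (c • f) (c • f') := by
  obtain ⟨ι, hι, r, g, h1, h2, h3, h4⟩ := h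
  refine ⟨ι, hι, fun i => c * r i, g, ?_, ?_, h3, ?_⟩
  · rw [h1, Finset.smul_sum]; simp [MonoidAlgebra.smul_single]
  · rw [h2, Finset.smul_sum]; simp [MonoidAlgebra.smul_single]
  · simp only [abs_mul, ← Finset.mul_sum]
    exact mul_le_mul_of_nonneg_left h4 (abs_nonneg c)

lemma RA.sub (h : RA H M f f') (h' : RA H M' k k') : RA H (M + M') (f - k) (f' - k') := by
  have := h.add (h'.smul (-1))
  simpa [sub_eq_add_neg] using this

lemma RA.mul (h : RA H M f f') (h' : RA H M' k k') : RA H (M * M') (f * k) (k' * f') := by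
  obtain ⟨ι, _, r, g, h1, h2, h3, h4⟩ := h
  obtain ⟨κ, _, s, l, e1, e2, e3, e4⟩ := h'
  have hM : 0 ≤ M := le_trans (Finset.sum_nonneg fun _ _ => abs_nonneg _) h4
  refine ⟨ι × κ, inferInstance, fun q => r q.1 * s q.2, fun q => g q.1 * l q.2, ?_, ?_, ?_, ?_⟩
  · rw [h1, e1, Finset.sum_mul_sum, Fintype.sum_prod_type]
    simp [MonoidAlgebra.single_mul_single]
  · rw [h2, e2, Finset.sum_mul_sum, Fintype.sum_prod_type, Finset.sum_comm]
    simp [MonoidAlgebra.single_mul_single, mul_comm]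
  · rintro ⟨i, j⟩
    exact H.mul_mem (h3 i) (e3 j)
  · rw [Fintype.sum_prod_type]
    simp only [abs_mul, ← Finset.mul_sum, ← Finset.sum_mul]
    exact mul_le_mul h4 e4 (Finset.sum_nonneg fun _ _ => abs_nonneg _) hM

lemma RA.nonneg (h : RA H M f f') : 0 ≤ M := by
  obtain ⟨ι, _, r, g, h1, h2, h3, h4⟩ := h
  exact le_trans (Finset.sum_nonneg fun _ _ => abs_nonneg _) h4

/-- the average of a cyclic group of order `p` is self-adjoint with `ℓ¹`-norm `1` -/
lemma RA.avg {p : ℕ} (hp : 0 < p) {x : G} (hx : x ^ p = 1) (hxH : x ∈ H) :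
    RA H 1 (Sos.avg p (MonoidAlgebra.single x (1 : ℝ)))
      (Sos.avg p (MonoidAlgebra.single x (1 : ℝ))) := by
  have key : ∀ y : G, Sos.avg p (MonoidAlgebra.single y (1 : ℝ)) =
      ∑ i : Fin p, MonoidAlgebra.single (y ^ (i : ℕ)) ((p : ℝ)⁻¹) := by
    intro y
    unfold Sos.avg
    rw [Finset.smul_sum, Finset.sum_range]
    simp [MonoidAlgebra.single_pow, MonoidAlgebra.smul_single]
  refine ⟨Fin p, inferInstance, fun _ => (p : ℝ)⁻¹, fun i => x ^ (i : ℕ), key x, ?_,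
    fun i => H.pow_mem hxH _, ?_⟩
  · have h1 : ∀ i : Fin p, (x ^ (i : ℕ))⁻¹ = x * x ^ (p - 1 - (i : ℕ)) := by
      intro i
      have hi := i.2
      rw [inv_eq_iff_mul_eq_one, ← pow_succ', ← pow_add]
      have : (i : ℕ) + (p - 1 - (i : ℕ) + 1) = p := by omega
      rw [this, hx]
    have h2 : ∑ i : Fin p, MonoidAlgebra.single (x ^ (i : ℕ))⁻¹ ((p : ℝ)⁻¹) =
        ∑ i ∈ range p, MonoidAlgebra.single (x * x ^ (p - 1 - i)) ((p : ℝ)⁻¹) := by
      rw [Finset.sum_range]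
      exact Finset.sum_congr rfl fun i _ => by rw [h1]
    rw [h2, Finset.sum_range_reflect (fun j => MonoidAlgebra.single (x * x ^ j) ((p : ℝ)⁻¹)) p]
    have h3 : (MonoidAlgebra.single x (1 : ℝ)) ^ p = 1 := by
      rw [MonoidAlgebra.single_pow, hx, one_pow, MonoidAlgebra.one_def]
    rw [← Sos.avg_mul_self_left hp h3]
    unfold Sos.avg
    rw [mul_smul_comm, Finset.mul_sum, Finset.smul_sum]
    apply Finset.sum_congr rfl
    intro i _
    rw [MonoidAlgebra.single_pow, MonoidAlgebra.single_mul_single, MonoidAlgebra.smul_single]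
    simp
  · simp only [Finset.sum_const, card_univ, Fintype.card_fin, nsmul_eq_mul]
    have : (0 : ℝ) < p := by exact_mod_cast hp
    rw [abs_of_pos (by positivity), mul_inv_cancel₀ this.ne']

section Approx

variable [CompleteSpace L] {v : G → L →L[ℂ] L} {F : Set G} {δ : ℝ}

lemma norm_coe_smul (r : ℝ) (A : L →L[ℂ] L) : ‖(r : ℂ) • A‖ = |r| * ‖A‖ := by
  rw [norm_smul, Complex.norm_real, Real.norm_eq_abs]

lemma ev_norm (hv : AlmostRep v F δ) (hH : (H : Set G) ⊆ F) (h : RA H M f f') :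
    ‖ev v f‖ ≤ M * (1 + δ) := by
  obtain ⟨ι, _, r, g, h1, h2, h3, h4⟩ := h
  have hδ : 0 ≤ 1 + δ := le_trans (norm_nonneg _) (hv.norm 1 (hH H.one_mem))
  rw [h1, ev_sum]
  refine (norm_sum_le _ _).trans ?_
  refine le_trans (Finset.sum_le_sum (g := fun i => |r i| * (1 + δ)) ?_) ?_
  · intro i _
    rw [ev_single, norm_coe_smul]
    exact mul_le_mul_of_nonneg_left (hv.norm _ (hH (h3 i))) (abs_nonneg _)
  · rw [← Finset.sum_mul]
    exact mul_le_mul_of_nonneg_right h4 hδ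

lemma delta_nonneg (hv : AlmostRep v F δ) : 0 ≤ δ := le_trans (norm_nonneg _) hv.one

lemma ev_mul (hv : AlmostRep v F δ) (hH : (H : Set G) ⊆ F) (h : RA H M f f')
    (h' : RA H M' k k') : ‖ev v f * ev v k - ev v (f * k)‖ ≤ δ * (M * M') := by
  have hM := h.nonneg
  obtain ⟨ι, _, r, g, h1, h2, h3, h4⟩ := h
  obtain ⟨κ, _, s, l, e1, e2, e3, e4⟩ := h'
  have hδ := delta_nonneg hv
  have e : ev v f * ev v k - ev v (f * k) =
      ∑ i, ∑ j, ((r i * s j : ℝ) : ℂ) • (v (g i) ∘L v (l j) - v (g i * l j)) := by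
    rw [h1, e1, Finset.sum_mul_sum]
    simp only [ev_sum, ev_single, MonoidAlgebra.single_mul_single]
    rw [Finset.sum_mul_sum, ← Finset.sum_sub_distrib]
    apply Finset.sum_congr rfl
    intro i _
    rw [← Finset.sum_sub_distrib]
    apply Finset.sum_congr rfl
    intro j _
    rw [smul_mul_smul_comm, smul_sub]
    push_cast
    rfl
  rw [e]
  refine (norm_sum_le _ _).trans ?_
  refine le_trans (Finset.sum_le_sum (g := fun i => ∑ j, |r i| * |s j| * δ) ?_) ?_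
  · intro i _
    refine (norm_sum_le _ _).trans (Finset.sum_le_sum ?_)
    intro j _
    rw [norm_coe_smul, abs_mul]
    exact mul_le_mul_of_nonneg_left (hv.mul _ (hH (h3 i)) _ (hH (e3 j))) (by positivity)
  · simp only [← Finset.mul_sum, ← Finset.sum_mul]
    rw [mul_comm δ]
    apply mul_le_mul_of_nonneg_right _ hδ
    exact mul_le_mul h4 e4 (Finset.sum_nonneg fun _ _ => abs_nonneg _) hM

lemma ev_adj (hv : AlmostRep v F δ) (hH : (H : Set G) ⊆ F) (h : RA H M f f') :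
    ‖ContinuousLinearMap.adjoint (ev v f) - ev v f'‖ ≤ δ * M := by
  obtain ⟨ι, _, r, g, h1, h2, h3, h4⟩ := h
  have hδ := delta_nonneg hv
  have e : ContinuousLinearMap.adjoint (ev v f) - ev v f' =
      ∑ i, ((r i : ℝ) : ℂ) • (ContinuousLinearMap.adjoint (v (g i)) - v (g i)⁻¹) := by
    rw [h1, h2]
    simp only [ev_sum, ev_single]
    rw [map_sum, ← Finset.sum_sub_distrib]
    apply Finset.sum_congr rfl
    intro i _
    rw [map_smulₛₗ, smul_sub, Complex.conj_ofReal]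
  rw [e]
  refine (norm_sum_le _ _).trans ?_
  refine le_trans (Finset.sum_le_sum (g := fun i => |r i| * δ) ?_) ?_
  · intro i _
    rw [norm_coe_smul]
    exact mul_le_mul_of_nonneg_left (hv.star _ (hH (h3 i))) (abs_nonneg _)
  · rw [← Finset.sum_mul, mul_comm δ]
    exact mul_le_mul_of_nonneg_right h4 hδ

open scoped InnerProductSpace in
/-- `ev (f' f)` is almost positive; more precisely it is `‖ev f T‖²` up to `3 δ M²`. -/
lemma ev_pos (hv : AlmostRep v F δ) (hH : (H : Set G) ⊆ F) (hδ1 : δ ≤ 1) (h : RA H M f f')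
    (T : L) : |(⟪T, ev v (f' * f) T⟫_ℂ).re - ‖ev v f T‖ ^ 2| ≤ 3 * δ * M ^ 2 * ‖T‖ ^ 2 := by
  have hM := h.nonneg
  have hδ := delta_nonneg hv
  have h1 : ‖(ev v (f' * f) - ContinuousLinearMap.adjoint (ev v f) * ev v f)‖ ≤ 3 * δ * M ^ 2 := by
    have e : ev v (f' * f) - ContinuousLinearMap.adjoint (ev v f) * ev v f =
        -(ev v f' * ev v f - ev v (f' * f)) -
          (ContinuousLinearMap.adjoint (ev v f) - ev v f') * ev v f := by
      noncomm_ring
    rw [e]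
    refine (norm_sub_le _ _).trans ?_
    rw [norm_neg]
    have a1 := ev_mul hv hH h.symm h
    have a2 : ‖(ContinuousLinearMap.adjoint (ev v f) - ev v f') * ev v f‖ ≤
        (δ * M) * (M * (1 + δ)) :=
      (norm_mul_le _ _).trans (mul_le_mul (ev_adj hv hH h) (ev_norm hv hH h) (norm_nonneg _)
        (by positivity))
    have a3 : (δ * M) * (M * (1 + δ)) ≤ 2 * δ * M ^ 2 := by
      nlinarith [mul_nonneg hδ (mul_nonneg hM hM)]
    nlinarith [a1, a2, a3]
  have h2 : (⟪T, ev v (f' * f) T⟫_ℂ).re - ‖ev v f T‖ ^ 2 =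
      (⟪T, (ev v (f' * f) - ContinuousLinearMap.adjoint (ev v f) * ev v f) T⟫_ℂ).re := by
    rw [ContinuousLinearMap.sub_apply, inner_sub_right, Complex.sub_re]
    congr 1
    have : ((ContinuousLinearMap.adjoint (ev v f) * ev v f) T) =
        ContinuousLinearMap.adjoint (ev v f) (ev v f T) := rfl
    rw [this, ContinuousLinearMap.adjoint_inner_right]
    exact (inner_self_eq_norm_sq (𝕜 := ℂ) (ev v f T)).symm
  rw [h2]
  refine (Complex.abs_re_le_norm _).trans ?_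
  refine (norm_inner_le_norm _ _).trans ?_
  have h3 := ContinuousLinearMap.le_opNorm
    (ev v (f' * f) - ContinuousLinearMap.adjoint (ev v f) * ev v f) T
  calc ‖T‖ * ‖(ev v (f' * f) - ContinuousLinearMap.adjoint (ev v f) * ev v f) T‖
      ≤ ‖T‖ * ((3 * δ * M ^ 2) * ‖T‖) := by
        apply mul_le_mul_of_nonneg_left _ (norm_nonneg _)
        exact h3.trans (mul_le_mul_of_nonneg_right h1 (norm_nonneg _))
    _ = 3 * δ * M ^ 2 * ‖T‖ ^ 2 := by ring

end Approx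

end

end Crest.Agent.R073.Quant
end

-- ▼ part R073/Pair
section

/-!
Row 73, M6: robust inequality for a Heisenberg pair.
-/

set_option autoImplicit false

namespace Crest.Agent.R073.Quant

open MonoidAlgebra Finset
open scoped InnerProductSpace

noncomputable section

variable {G : Type} [Group G] {L : Type} [NormedAddCommGroup L] [InnerProductSpace ℂ L]
  [CompleteSpace L]

/-- average of the powers of `x` in the real group algebra -/
def av (p : ℕ) (x : G) : MonoidAlgebra ℝ G := Sos.avg p (MonoidAlgebra.single x (1 : ℝ))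

lemma abs_re_inner_le (A B : L →L[ℂ] L) (T : L) {c : ℝ} (h : ‖A - B‖ ≤ c) :
    |(⟪T, A T⟫_ℂ).re - (⟪T, B T⟫_ℂ).re| ≤ c * ‖T‖ ^ 2 := by
  have e : (⟪T, A T⟫_ℂ).re - (⟪T, B T⟫_ℂ).re = (⟪T, (A - B) T⟫_ℂ).re := by
    rw [ContinuousLinearMap.sub_apply, inner_sub_right, Complex.sub_re]
  rw [e]
  refine (Complex.abs_re_le_norm _).trans ?_
  refine (norm_inner_le_norm _ _).trans ?_
  have h3 := ContinuousLinearMap.le_opNorm (A - B) T
  calc ‖T‖ * ‖(A - B) T‖ ≤ ‖T‖ * (c * ‖T‖) := by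
        apply mul_le_mul_of_nonneg_left _ (norm_nonneg _)
        exact h3.trans (mul_le_mul_of_nonneg_right h (norm_nonneg _))
    _ = c * ‖T‖ ^ 2 := by ring

section heis

variable {p : ℕ} {x y : G}

lemma cm_eq (x y : G) : x * y = cm x y * y * x := by
  unfold cm; group

lemma cm_pow (hx : x ^ p = 1) (h1 : Commute (cm x y) x) (h2 : Commute (cm x y) y) :
    (cm x y) ^ p = 1 := by
  have key : ∀ n : ℕ, x ^ n * y = (cm x y) ^ n * y * x ^ n := by
    intro n
    induction n with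
    | zero => simp
    | succ n ih =>
      calc x ^ (n + 1) * y = x ^ n * (x * y) := by rw [pow_succ, mul_assoc]
        _ = x ^ n * (cm x y * y * x) := by rw [← cm_eq]
        _ = (x ^ n * cm x y) * y * x := by group
        _ = (cm x y * x ^ n) * y * x := by rw [(h1.pow_right n).eq]
        _ = cm x y * (x ^ n * y) * x := by group
        _ = cm x y * ((cm x y) ^ n * y * x ^ n) * x := by rw [ih]
        _ = (cm x y * (cm x y) ^ n) * y * (x ^ n * x) := by group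
        _ = (cm x y) ^ (n + 1) * y * x ^ (n + 1) := by rw [← pow_succ', ← pow_succ]
  have h := key p
  rw [hx, one_mul, mul_one] at h
  exact (mul_eq_right.1 h.symm)

/-- `z^k = x^k y x^{-k} y^{-1}` -/
lemma cm_pow_eq (h1 : Commute (cm x y) x) (k : ℕ) :
    (cm x y) ^ k = x ^ k * y * (x ^ k)⁻¹ * y⁻¹ := by
  induction k with
  | zero => simp
  | succ n ih =>
    have e : cm x y * y = x * y * x⁻¹ := by unfold cm; group
    calc (cm x y) ^ (n + 1) = (cm x y) ^ n * cm x y := pow_succ _ _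
      _ = x ^ n * y * (x ^ n)⁻¹ * y⁻¹ * cm x y := by rw [ih]
      _ = x ^ n * y * (x ^ n)⁻¹ * y⁻¹ * cm x y := rfl
      _ = x ^ (n + 1) * y * (x ^ (n + 1))⁻¹ * y⁻¹ := by
        have h4 : (cm x y) ^ n * cm x y = cm x y * (cm x y) ^ n := (Commute.refl _).pow_left n
        have h5 : x ^ n * y * (x ^ n)⁻¹ * y⁻¹ * cm x y = cm x y * (x ^ n * y * (x ^ n)⁻¹ * y⁻¹) := by
          rw [← ih]; exact h4
        rw [h5]
        have h6 : cm x y * x ^ n = x ^ n * cm x y := (h1.pow_right n).eq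
        calc cm x y * (x ^ n * y * (x ^ n)⁻¹ * y⁻¹)
            = (cm x y * x ^ n) * y * (x ^ n)⁻¹ * y⁻¹ := by group
          _ = x ^ n * (cm x y * y) * (x ^ n)⁻¹ * y⁻¹ := by rw [h6]; group
          _ = x ^ n * (x * y * x⁻¹) * (x ^ n)⁻¹ * y⁻¹ := by rw [e]
          _ = x ^ (n + 1) * y * (x ^ (n + 1))⁻¹ * y⁻¹ := by
            rw [pow_succ x n, mul_inv_rev]; group

/-- normal form of elements of the group generated by `x, y` -/
def NF (x y g : G) : Prop := ∃ i j k : ℕ, g = x ^ i * y ^ j * (cm x y) ^ k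

lemma NF.mul (hp : 0 < p) (hx : x ^ p = 1) (h1 : Commute (cm x y) x)
    (h2 : Commute (cm x y) y) {g h : G} (hg : NF x y g) (hh : NF x y h) : NF x y (g * h) := by
  obtain ⟨i, j, k, rfl⟩ := hg
  obtain ⟨i', j', k', rfl⟩ := hh
  have hz := cm_pow hx h1 h2
  -- y^j x^i' = z^{(p-1) i' j} x^i' y^j
  have key : y ^ j * x ^ i' = (cm x y) ^ ((p - 1) * (i' * j)) * x ^ i' * y ^ j := by
    have h3 : x ^ i' * y ^ j = (cm x y) ^ (i' * j) * y ^ j * x ^ i' := by
      have := Sos.heis_pow (𝒜 := MonoidAlgebra ℝ G) (x := MonoidAlgebra.single x (1 : ℝ))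
        (y := MonoidAlgebra.single y (1 : ℝ)) (z := MonoidAlgebra.single (cm x y) (1 : ℝ))
        (by
          show _ * _ = _ * _
          rw [MonoidAlgebra.single_mul_single, MonoidAlgebra.single_mul_single, h1.eq])
        (by
          show _ * _ = _ * _
          rw [MonoidAlgebra.single_mul_single, MonoidAlgebra.single_mul_single, h2.eq])
        (by
          simp only [MonoidAlgebra.single_mul_single, mul_one]
          rw [← cm_eq]) i' j
      simp only [MonoidAlgebra.single_pow, one_pow, MonoidAlgebra.single_mul_single,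
        mul_one] at this
      have h7 := MonoidAlgebra.single_left_injective (R := ℝ) (r := (1 : ℝ)) one_ne_zero this
      exact h7
    have h4 : (cm x y) ^ ((p - 1) * (i' * j)) * (cm x y) ^ (i' * j) = 1 := by
      rw [← pow_add]
      have : (p - 1) * (i' * j) + i' * j = p * (i' * j) := by
        obtain ⟨q, rfl⟩ : ∃ q, p = q + 1 := ⟨p - 1, by omega⟩
        simp; ring
      rw [this, pow_mul, hz, one_pow]
    calc y ^ j * x ^ i' = ((cm x y) ^ ((p - 1) * (i' * j)) * (cm x y) ^ (i' * j)) *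
          (y ^ j * x ^ i') := by rw [h4, one_mul]
      _ = (cm x y) ^ ((p - 1) * (i' * j)) * ((cm x y) ^ (i' * j) * y ^ j * x ^ i') := by
          group
      _ = (cm x y) ^ ((p - 1) * (i' * j)) * (x ^ i' * y ^ j) := by rw [h3]
      _ = _ := by rw [mul_assoc]
  refine ⟨i + i', j + j', (p - 1) * (i' * j) + k + k', ?_⟩
  have cx : ∀ a b : ℕ, (cm x y) ^ a * x ^ b = x ^ b * (cm x y) ^ a := fun a b =>
    ((h1.pow_left a).pow_right b).eq
  have cy : ∀ a b : ℕ, (cm x y) ^ a * y ^ b = y ^ b * (cm x y) ^ a := fun a b =>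
    ((h2.pow_left a).pow_right b).eq
  calc x ^ i * y ^ j * (cm x y) ^ k * (x ^ i' * y ^ j' * (cm x y) ^ k')
      = x ^ i * y ^ j * ((cm x y) ^ k * x ^ i') * y ^ j' * (cm x y) ^ k' := by
        simp only [mul_assoc]
    _ = x ^ i * (y ^ j * x ^ i') * ((cm x y) ^ k * y ^ j') * (cm x y) ^ k' := by
        rw [cx]; simp only [mul_assoc]
    _ = x ^ i * ((cm x y) ^ ((p - 1) * (i' * j)) * x ^ i' * y ^ j) *
          (y ^ j' * (cm x y) ^ k) * (cm x y) ^ k' := by rw [key, cy]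
    _ = x ^ i * (x ^ i' * ((cm x y) ^ ((p - 1) * (i' * j)) * y ^ j)) *
          (y ^ j' * (cm x y) ^ k) * (cm x y) ^ k' := by
        rw [cx]; simp only [mul_assoc]
    _ = (x ^ i * x ^ i') * y ^ j * ((cm x y) ^ ((p - 1) * (i' * j)) * y ^ j') *
          ((cm x y) ^ k * (cm x y) ^ k') := by
        rw [cy]; simp only [mul_assoc]
    _ = (x ^ i * x ^ i') * (y ^ j * y ^ j') * ((cm x y) ^ ((p - 1) * (i' * j)) *
          ((cm x y) ^ k * (cm x y) ^ k')) := by
        rw [cy]; simp only [mul_assoc]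
    _ = x ^ (i + i') * y ^ (j + j') * (cm x y) ^ ((p - 1) * (i' * j) + k + k') := by
        rw [← pow_add, ← pow_add, ← pow_add, ← pow_add, add_assoc]

lemma pow_inv_eq {p : ℕ} (hp : 0 < p) {x : G} (hx : x ^ p = 1) (i : ℕ) :
    (x ^ i)⁻¹ = x ^ ((p - 1) * i) := by
  rw [inv_eq_iff_mul_eq_one, ← pow_add]
  have : i + (p - 1) * i = p * i := by
    obtain ⟨q, rfl⟩ : ∃ q, p = q + 1 := ⟨p - 1, by omega⟩
    simp; ring
  rw [this, pow_mul, hx, one_pow]

lemma NF_closure (hp : 0 < p) (hx : x ^ p = 1) (hy : y ^ p = 1) (h1 : Commute (cm x y) x)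
    (h2 : Commute (cm x y) y) {g : G} (hg : g ∈ Subgroup.closure ({x, y} : Set G)) :
    NF x y g := by
  have hz := cm_pow hx h1 h2
  induction hg using Subgroup.closure_induction with
  | mem g hg =>
    rcases hg with rfl | hg
    · exact ⟨1, 0, 0, by simp⟩
    · rw [Set.mem_singleton_iff] at hg
      subst hg
      exact ⟨0, 1, 0, by simp⟩
  | one => exact ⟨0, 0, 0, by simp⟩
  | mul g h _ _ hg hh => exact hg.mul hp hx h1 h2 hh
  | inv g _ hg =>
    obtain ⟨i, j, k, rfl⟩ := hg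
    rw [mul_inv_rev, mul_inv_rev, pow_inv_eq hp hz, pow_inv_eq hp hx, pow_inv_eq hp hy]
    have a1 : NF x y ((cm x y) ^ ((p - 1) * k)) := ⟨0, 0, _, by simp; rfl⟩
    have a2 : NF x y (y ^ ((p - 1) * j)) := ⟨0, (p - 1) * j, 0, by simp⟩
    have a3 : NF x y (x ^ ((p - 1) * i)) := ⟨(p - 1) * i, 0, 0, by simp⟩
    exact a1.mul hp hx h1 h2 (a2.mul hp hx h1 h2 a3)

lemma closure_sub_Wd (hp : 0 < p) {X : Fin 4 → G} {i j : Fin 4} (hx : X i ^ p = 1)
    (hy : X j ^ p = 1) (h1 : Commute (cm (X i) (X j)) (X i))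
    (h2 : Commute (cm (X i) (X j)) (X j)) :
    ((Subgroup.closure ({X i, X j} : Set G) : Subgroup G) : Set G) ⊆ Wd X 8 := by
  intro g hg
  obtain ⟨a, b, k, rfl⟩ := NF_closure hp hx hy h1 h2 hg
  rw [cm_pow_eq h1, pow_inv_eq hp hx]
  have hyi : (X j)⁻¹ = (X j) ^ ((p - 1) * 1) := by
    rw [← pow_inv_eq hp hy, pow_one]
  rw [hyi]
  refine ⟨[(i, a), (j, b), (i, k), (j, 1), (i, (p - 1) * k), (j, (p - 1) * 1)], by simp, ?_⟩
  simp [mul_assoc]

end heis

variable {v : G → L →L[ℂ] L} {F : Set G} {δ : ℝ} {p : ℕ} {x y : G}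

lemma RA.av {H : Subgroup G} (hp : 0 < p) (hx : x ^ p = 1) (hxH : x ∈ H) :
    RA H 1 (av p x) (av p x) := RA.avg hp hx hxH

lemma single_pow_one (hx : x ^ p = 1) : (MonoidAlgebra.single x (1 : ℝ)) ^ p = 1 := by
  rw [MonoidAlgebra.single_pow, hx, one_pow, MonoidAlgebra.one_def]

set_option maxHeartbeats 1000000 in
/-- robust inequality for one pair -/
theorem pair_ineq (hp : p.Prime) (hp101 : 101 ≤ p) (hx : x ^ p = 1) (hy : y ^ p = 1)
    (h1 : Commute (cm x y) x) (h2 : Commute (cm x y) y)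
    (hv : AlmostRep v F δ) (hF : ((Subgroup.closure ({x, y} : Set G) : Subgroup G) : Set G) ⊆ F)
    (hδ1 : δ ≤ 1) (T : L) :
    -(100000 * δ) * ‖T‖ ^ 2 ≤
      (⟪T, (ev v (1 - av p x) * ev v (1 - av p y) + ev v (1 - av p y) * ev v (1 - av p x)) T⟫_ℂ).re
      + 1 / 8 * ((⟪T, ev v (1 - av p x) T⟫_ℂ).re + (⟪T, ev v (1 - av p y) T⟫_ℂ).re) := by
  set H : Subgroup G := Subgroup.closure ({x, y} : Set G) with hH
  have hδ := delta_nonneg hv
  have hxH : x ∈ H := Subgroup.subset_closure (by simp)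
  have hyH : y ∈ H := Subgroup.subset_closure (by simp)
  have hzH : cm x y ∈ H := by
    unfold cm
    exact H.mul_mem (H.mul_mem (H.mul_mem hxH hyH) (H.inv_mem hxH)) (H.inv_mem hyH)
  have hz := cm_pow hx h1 h2
  set A := av p x with hA
  set B := av p y with hB
  set Z := av p (cm x y) with hZ
  have sx := single_pow_one hx
  have sy := single_pow_one hy
  have sz := single_pow_one hz
  have cxz : Commute (MonoidAlgebra.single x (1 : ℝ)) (MonoidAlgebra.single (cm x y) (1 : ℝ)) := by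
    show _ * _ = _ * _
    rw [MonoidAlgebra.single_mul_single, MonoidAlgebra.single_mul_single, h1.eq]
  have cyz : Commute (MonoidAlgebra.single y (1 : ℝ)) (MonoidAlgebra.single (cm x y) (1 : ℝ)) := by
    show _ * _ = _ * _
    rw [MonoidAlgebra.single_mul_single, MonoidAlgebra.single_mul_single, h2.eq]
  have exy : MonoidAlgebra.single x (1 : ℝ) * MonoidAlgebra.single y (1 : ℝ) =
      MonoidAlgebra.single (cm x y) (1 : ℝ) * MonoidAlgebra.single y (1 : ℝ) *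
        MonoidAlgebra.single x (1 : ℝ) := by
    simp only [MonoidAlgebra.single_mul_single, mul_one]
    rw [← cm_eq]
  -- the reversed commutation relation, with `z⁻¹`
  have hABA : (1 - Z) * (A * B * A) = ((p : ℝ)⁻¹) • ((1 - Z) * A) :=
    Sos.D_ABA hp sx sz cxz cyz exy
  have hBAB : (1 - Z) * (B * A * B) = ((p : ℝ)⁻¹) • ((1 - Z) * B) := by
    -- use z' = z⁻¹ : y x = z' x y
    have hz' : (cm x y)⁻¹ ^ p = 1 := by rw [inv_pow, hz, inv_one]
    have sz' := single_pow_one hz'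
    have cxz' : Commute (MonoidAlgebra.single x (1 : ℝ))
        (MonoidAlgebra.single (cm x y)⁻¹ (1 : ℝ)) := by
      show _ * _ = _ * _
      rw [MonoidAlgebra.single_mul_single, MonoidAlgebra.single_mul_single, h1.inv_left.eq]
    have cyz' : Commute (MonoidAlgebra.single y (1 : ℝ))
        (MonoidAlgebra.single (cm x y)⁻¹ (1 : ℝ)) := by
      show _ * _ = _ * _
      rw [MonoidAlgebra.single_mul_single, MonoidAlgebra.single_mul_single, h2.inv_left.eq]
    have eyx : MonoidAlgebra.single y (1 : ℝ) * MonoidAlgebra.single x (1 : ℝ) =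
        MonoidAlgebra.single (cm x y)⁻¹ (1 : ℝ) * MonoidAlgebra.single x (1 : ℝ) *
          MonoidAlgebra.single y (1 : ℝ) := by
      simp only [MonoidAlgebra.single_mul_single, mul_one]
      congr 1
      rw [mul_assoc, cm_eq x y]; group
    have hZ' : av p (cm x y)⁻¹ = Z := by
      have r1 := RA.av (H := (⊤ : Subgroup G)) hp.pos hz (Subgroup.mem_top _)
      unfold av at *
      rw [hZ]
      unfold Sos.avg
      congr 1
      have e1 : ∀ i ∈ range p, (MonoidAlgebra.single (cm x y)⁻¹ (1 : ℝ)) ^ i =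
          MonoidAlgebra.single (cm x y) (1 : ℝ) *
            (MonoidAlgebra.single (cm x y) (1 : ℝ)) ^ (p - 1 - i) := by
        intro i hi
        have hi' := mem_range.1 hi
        simp only [MonoidAlgebra.single_pow, one_pow, MonoidAlgebra.single_mul_single, mul_one]
        congr 1
        rw [inv_pow, inv_eq_iff_mul_eq_one, ← pow_succ', ← pow_add]
        have : i + (p - 1 - i + 1) = p := by omega
        rw [this, hz]
      rw [Finset.sum_congr rfl e1, ← Finset.mul_sum,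
        Finset.sum_range_reflect (fun j => (MonoidAlgebra.single (cm x y) (1 : ℝ)) ^ j) p]
      have e2 := Sos.avg_mul_self_left hp.pos sz
      unfold Sos.avg at e2
      rw [mul_smul_comm] at e2
      have hpne : ((p : ℝ)⁻¹) ≠ 0 := by
        have : (0 : ℝ) < p := by exact_mod_cast hp.pos
        positivity
      exact smul_right_injective _ hpne e2
    have := Sos.D_ABA hp sy sz' cyz' cxz' eyx
    rw [show Sos.avg p (MonoidAlgebra.single (cm x y)⁻¹ (1 : ℝ)) = Z from hZ'] at this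
    exact this
  have hZAB : Z * (A * B) = Z * (B * A) := Sos.Z_comm hp sz cxz cyz exy
  have hAA : A * A = A := Sos.avg_idem hp.pos sx
  have hBB : B * B = B := Sos.avg_idem hp.pos sy
  have hZZ : Z * Z = Z := Sos.avg_idem hp.pos sz
  have hZA : Z * A = A * Z :=
    ((Sos.avg_commute ((Sos.avg_commute (p := p) cxz).symm))).eq
  have hZB : Z * B = B * Z :=
    ((Sos.avg_commute ((Sos.avg_commute (p := p) cyz).symm))).eq
  have hpR : (101 : ℝ) ≤ p := by exact_mod_cast hp101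
  have hr0 : 0 < (p : ℝ)⁻¹ := by positivity
  have hr1 : (p : ℝ)⁻¹ ≤ 1 / 101 := by
    rw [inv_eq_one_div]
    exact one_div_le_one_div_of_le (by norm_num) hpR
  set r : ℝ := (p : ℝ)⁻¹ with hr
  have hr2 : 1 - r ≠ 0 := by linarith
  -- the polynomials
  set N := A + B with hN
  set X := A * B + B * A with hX
  set Fp := (1 - r)⁻¹ • (N - X) with hFp
  set M := N - Fp with hM
  set D := 1 - Z with hD
  have hsos := Sos.sos_abstract (A := A) (B := B) (Z := Z) (r := r) (s := 1 / 10) (e := 1 / 8)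
    hr2 (by norm_num) hAA hBB hZZ hZA hZB hZAB hABA hBAB hN hX hFp hM hD
  have rA : RA H 1 A A := RA.av hp.pos hx hxH
  have rB : RA H 1 B B := RA.av hp.pos hy hyH
  have rZ : RA H 1 Z Z := RA.av hp.pos hz hzH
  have r1 : RA H 1 1 (1 : MonoidAlgebra ℝ G) := RA.one
  have r1A : RA H 2 (1 - A) (1 - A) := (r1.sub rA).mono (by norm_num)
  have r1B : RA H 2 (1 - B) (1 - B) := (r1.sub rB).mono (by norm_num)
  have rN : RA H 2 N N := (rA.add rB).mono (by norm_num)
  have rX : RA H 2 X X := by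
    have := (rA.mul rB).add (rB.mul rA)
    have h' : RA H (1 * 1 + 1 * 1) (A * B + B * A) (A * B + B * A) := by
      rw [add_comm (B * A) (A * B)] at this
      exact this
    exact h'.mono (by norm_num)
  have hinv : (1 - r)⁻¹ ≤ 5 / 4 := by
    rw [inv_le_comm₀ (by linarith) (by norm_num)]
    linarith
  have hinv0 : 0 ≤ (1 - r)⁻¹ := inv_nonneg.2 (by linarith)
  have rF : RA H 5 Fp Fp := ((rN.sub rX).smul _).mono (by
    rw [abs_of_nonneg hinv0]; linarith)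
  have rM : RA H 7 M M := (rN.sub rF).mono (by norm_num)
  have rD : RA H 2 D D := (r1.sub rZ).mono (by norm_num)
  have rG : RA H 8 ((1 / 10 : ℝ) • Fp - M) ((1 / 10 : ℝ) • Fp - M) :=
    ((rF.smul (1 / 10)).sub rM).mono (by
      rw [abs_of_nonneg (by norm_num : (0 : ℝ) ≤ 1 / 10)]; norm_num)
  have t1 := ev_pos hv hF hδ1 ((rZ.mul r1A).mul r1B) T
  have t2 := ev_pos hv hF hδ1 (rZ.mul r1A) T
  have t3 := ev_pos hv hF hδ1 (rZ.mul r1B) T
  have t4 := ev_pos hv hF hδ1 (rD.mul (r1.sub rN)) T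
  have t5 := ev_pos hv hF hδ1 (rD.mul (r1.sub rF)) T
  have t6 := ev_pos hv hF hδ1 (rD.mul rF) T
  have t7 := ev_pos hv hF hδ1 (rD.mul rG) T
  -- evaluate the identity
  have hev := congrArg (fun f => (⟪T, ev v f T⟫_ℂ).re) hsos
  simp only [ev_add, ev_smul, ContinuousLinearMap.add_apply, ContinuousLinearMap.smul_apply,
    inner_add_right, inner_smul_right, Complex.add_re, Complex.re_ofReal_mul] at hev
  have m1 := abs_re_inner_le (ev v (1 - A) * ev v (1 - B)) (ev v ((1 - A) * (1 - B))) T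
    (ev_mul hv hF r1A r1B)
  have m2 := abs_re_inner_le (ev v (1 - B) * ev v (1 - A)) (ev v ((1 - B) * (1 - A))) T
    (ev_mul hv hF r1B r1A)
  rw [ContinuousLinearMap.add_apply, inner_add_right, Complex.add_re]
  have hT : 0 ≤ ‖T‖ ^ 2 := by positivity
  have hδT : 0 ≤ δ * ‖T‖ ^ 2 := mul_nonneg hδ hT
  rw [mul_assoc (1 - B) (1 - A) Z] at hev
  have hc6 : 0 ≤ (1 / 8 : ℝ) - (1 + 1 / 8) * (((1 / 10) ^ 2 + r) / (2 * (1 / 10))) := by
    have : ((1 / 10 : ℝ) ^ 2 + r) / (2 * (1 / 10)) = 5 * (1 / 100 + r) := by ring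
    rw [this]; linarith
  have hc6' : (1 / 8 : ℝ) - (1 + 1 / 8) * (((1 / 10) ^ 2 + r) / (2 * (1 / 10))) ≤ 1 := by
    have : ((1 / 10 : ℝ) ^ 2 + r) / (2 * (1 / 10)) = 5 * (1 / 100 + r) := by ring
    rw [this]; linarith
  have bd : ∀ {u w c : ℝ}, |u - w ^ 2| ≤ c → -c ≤ u := by
    intro u w c h
    have := (abs_le.1 h).1
    nlinarith [sq_nonneg w]
  have b1 := bd t1
  have b2 := bd t2
  have b3 := bd t3
  have b4 := bd t4
  have b5 := bd t5
  have b6' := bd t6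
  have b7 := bd t7
  clear t1 t2 t3 t4 t5 t6 t7
  have m1' := (abs_le.1 m1).1
  have m2' := (abs_le.1 m2).1
  set c6 := (1 / 8 : ℝ) - (1 + 1 / 8) * (((1 / 10) ^ 2 + r) / (2 * (1 / 10))) with hc6d
  set E := δ * ‖T‖ ^ 2 with hE
  have b6 : -(300 * E) ≤ c6 * (⟪T, (ev v (Fp * D * (D * Fp))) T⟫_ℂ).re := by
    have l1 : -(300 * E) ≤ (⟪T, (ev v (Fp * D * (D * Fp))) T⟫_ℂ).re := by
      rw [hE]; linarith
    generalize (⟪T, (ev v (Fp * D * (D * Fp))) T⟫_ℂ).re = q at *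
    rcases le_total 0 q with h | h
    · have := mul_nonneg hc6 h
      linarith
    · have : q ≤ c6 * q := by nlinarith
      linarith
  have hconst : (1 + 1 / 8 : ℝ) / (2 * (1 / 10)) = 45 / 8 := by norm_num
  rw [hconst] at hev
  linarith

end

end Crest.Agent.R073.Quant
end

-- ▼ part R073/Quant

/-!
Row 73, M6b/c: robust spectral gap and quantisation.
-/

set_option autoImplicit false

namespace Crest.Agent.R073.Quant

open MonoidAlgebra Finset
open scoped InnerProductSpace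

noncomputable section

variable {G : Type} [Group G] {L : Type} [NormedAddCommGroup L] [InnerProductSpace ℂ L]
  [CompleteSpace L]

/-- Cauchy–Schwarz for a positive operator. -/
lemma pos_cs {P : L →L[ℂ] L} {B : ℝ} (hB : 0 < B) (hP : ‖P‖ ≤ B)
    (hsa : ∀ a b : L, ⟪P a, b⟫_ℂ = ⟪a, P b⟫_ℂ) (hpos : ∀ u : L, 0 ≤ (⟪u, P u⟫_ℂ).re) (T : L) :
    ‖P T‖ ^ 2 ≤ B * (⟪T, P T⟫_ℂ).re := by
  set t : ℝ := B⁻¹ with ht
  have h := hpos (T - (t : ℂ) • P T)
  have e1 : (⟪P T, P T⟫_ℂ).re = ‖P T‖ ^ 2 := inner_self_eq_norm_sq (𝕜 := ℂ) (P T)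
  have e2 : (⟪T, P (P T)⟫_ℂ).re = ‖P T‖ ^ 2 := by rw [← hsa, e1]
  have e3 : (⟪P T, P (P T)⟫_ℂ).re ≤ B * ‖P T‖ ^ 2 := by
    refine (Complex.re_le_norm _).trans ?_
    refine (norm_inner_le_norm _ _).trans ?_
    have := (P.le_opNorm (P T)).trans (mul_le_mul_of_nonneg_right hP (norm_nonneg _))
    nlinarith [norm_nonneg (P T)]
  have e4 : (⟪T - (t : ℂ) • P T, P (T - (t : ℂ) • P T)⟫_ℂ).re =
      (⟪T, P T⟫_ℂ).re - t * (⟪T, P (P T)⟫_ℂ).re - t * (⟪P T, P T⟫_ℂ).re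
        + t ^ 2 * (⟪P T, P (P T)⟫_ℂ).re := by
    rw [map_sub, map_smul, inner_sub_left, inner_sub_right, inner_sub_right, inner_smul_left,
      inner_smul_left, inner_smul_right, inner_smul_right, Complex.conj_ofReal]
    simp only [Complex.sub_re, Complex.re_ofReal_mul]
    ring
  rw [e4, e1, e2] at h
  have ht0 : 0 < t := inv_pos.2 hB
  have htB : t * B = 1 := inv_mul_cancel₀ hB.ne'
  have h2 : t ^ 2 * (⟪P T, P (P T)⟫_ℂ).re ≤ t * ‖P T‖ ^ 2 := by
    calc t ^ 2 * (⟪P T, P (P T)⟫_ℂ).re ≤ t ^ 2 * (B * ‖P T‖ ^ 2) :=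
          mul_le_mul_of_nonneg_left e3 (by positivity)
      _ = (t * B) * (t * ‖P T‖ ^ 2) := by ring
      _ = t * ‖P T‖ ^ 2 := by rw [htB, one_mul]
  have h3 : t * ‖P T‖ ^ 2 ≤ (⟪T, P T⟫_ℂ).re := by linarith
  calc ‖P T‖ ^ 2 = B * (t * ‖P T‖ ^ 2) := by rw [← mul_assoc, mul_comm B t, htB, one_mul]
    _ ≤ B * (⟪T, P T⟫_ℂ).re := mul_le_mul_of_nonneg_left h3 hB.le

/-- `Re ⟨T, S² T⟩ ≤ ‖(Re S) T‖²` -/
lemma re_sq_le (S : L →L[ℂ] L) (T : L) :
    (⟪T, S (S T)⟫_ℂ).re ≤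
      ‖(2⁻¹ : ℂ) • (S T + ContinuousLinearMap.adjoint S T)‖ ^ 2 := by
  set u := S T
  set w := ContinuousLinearMap.adjoint S T
  have e1 : ⟪T, S u⟫_ℂ = ⟪w, u⟫_ℂ := (ContinuousLinearMap.adjoint_inner_left S u T).symm
  rw [e1, norm_smul, mul_pow]
  have h1 : ‖u + w‖ ^ 2 = ‖u‖ ^ 2 + 2 * (⟪u, w⟫_ℂ).re + ‖w‖ ^ 2 :=
    norm_add_sq (𝕜 := ℂ) u w
  have h2 : ‖u - w‖ ^ 2 = ‖u‖ ^ 2 - 2 * (⟪u, w⟫_ℂ).re + ‖w‖ ^ 2 :=
    norm_sub_sq (𝕜 := ℂ) u w
  have h3 : (⟪w, u⟫_ℂ).re = (⟪u, w⟫_ℂ).re := inner_re_symm (𝕜 := ℂ) w u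
  have h4 : 0 ≤ ‖u - w‖ ^ 2 := by positivity
  have h5 : ‖(2⁻¹ : ℂ)‖ = 2⁻¹ := by norm_num
  rw [h3, h5]
  nlinarith

/-- abstract quantisation -/
theorem quantise {S : L →L[ℂ] L} {κ ε B : ℝ} (hκ : 0 < κ) (hε : 0 < ε) (hB : ‖S‖ ≤ B)
    (hS : ∀ T : L, κ * (⟪T, S T⟫_ℂ).re - ε * ‖T‖ ^ 2 ≤ (⟪T, S (S T)⟫_ℂ).re)
    (h0 : ∃ T : L, ‖T‖ = 1 ∧ (⟪T, S T⟫_ℂ).re ≤ κ / 4) :
    ∃ T : L, ‖T‖ = 1 ∧ (⟪T, S T⟫_ℂ).re < 2 * ε / κ := by
  by_contra hcon
  push Not at hcon
  have hB0 : 0 ≤ B := (norm_nonneg _).trans hB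
  set R : Set ℝ := {q | ∃ T : L, ‖T‖ = 1 ∧ (⟪T, S T⟫_ℂ).re = q} with hR
  have hRne : R.Nonempty := by
    obtain ⟨T, hT, _⟩ := h0
    exact ⟨_, T, hT, rfl⟩
  have hRlow : ∀ q ∈ R, 2 * ε / κ ≤ q := by
    rintro q ⟨T, hT, rfl⟩
    exact hcon T hT
  have hRbdd : BddBelow R := ⟨_, hRlow⟩
  set μ := sInf R with hμ
  have hμlow : 2 * ε / κ ≤ μ := le_csInf hRne hRlow
  have hμ0 : 0 < μ := lt_of_lt_of_le (by positivity) hμlow
  have hμup : μ ≤ κ / 4 := by
    obtain ⟨T, hT, hT2⟩ := h0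
    exact (csInf_le hRbdd ⟨T, hT, rfl⟩).trans hT2
  have hall : ∀ T : L, μ * ‖T‖ ^ 2 ≤ (⟪T, S T⟫_ℂ).re := by
    intro T
    by_cases hT : T = 0
    · subst hT; simp
    have hn : 0 < ‖T‖ := norm_pos_iff.2 hT
    have hmem : (⟪((‖T‖⁻¹ : ℝ) : ℂ) • T, S (((‖T‖⁻¹ : ℝ) : ℂ) • T)⟫_ℂ).re ∈ R := by
      refine ⟨_, ?_, rfl⟩
      rw [norm_smul, Complex.norm_real, Real.norm_eq_abs, abs_of_pos (inv_pos.2 hn),
        inv_mul_cancel₀ hn.ne']
    have h1 := csInf_le hRbdd hmem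
    rw [map_smul, inner_smul_left, inner_smul_right, Complex.conj_ofReal,
      Complex.re_ofReal_mul, Complex.re_ofReal_mul] at h1
    have h2 : μ ≤ ‖T‖⁻¹ * (‖T‖⁻¹ * (⟪T, S T⟫_ℂ).re) := h1
    calc μ * ‖T‖ ^ 2 ≤ ‖T‖⁻¹ * (‖T‖⁻¹ * (⟪T, S T⟫_ℂ).re) * ‖T‖ ^ 2 :=
          mul_le_mul_of_nonneg_right h2 (by positivity)
      _ = (⟪T, S T⟫_ℂ).re := by field_simp
  -- the self-adjoint operator P - μ
  set P : L →L[ℂ] L := (2⁻¹ : ℂ) • (S + ContinuousLinearMap.adjoint S) with hP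
  set P' : L →L[ℂ] L := P - (μ : ℂ) • (1 : L →L[ℂ] L) with hP'
  have hre : ∀ T : L, (⟪T, ContinuousLinearMap.adjoint S T⟫_ℂ).re = (⟪T, S T⟫_ℂ).re := by
    intro T
    rw [ContinuousLinearMap.adjoint_inner_right]
    exact inner_re_symm (𝕜 := ℂ) _ _
  have hPT : ∀ T : L, (⟪T, P' T⟫_ℂ).re = (⟪T, S T⟫_ℂ).re - μ * ‖T‖ ^ 2 := by
    intro T
    have e : P' T = (2⁻¹ : ℂ) • (S T + ContinuousLinearMap.adjoint S T) - (μ : ℂ) • T := rfl
    rw [e, inner_sub_right, inner_smul_right, inner_add_right, inner_smul_right, Complex.sub_re,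
      Complex.re_ofReal_mul]
    have h1 : (⟪T, T⟫_ℂ).re = ‖T‖ ^ 2 := inner_self_eq_norm_sq (𝕜 := ℂ) T
    have h2 : ((2⁻¹ : ℂ) * (⟪T, S T⟫_ℂ + ⟪T, ContinuousLinearMap.adjoint S T⟫_ℂ)).re =
        (⟪T, S T⟫_ℂ).re := by
      have : (2⁻¹ : ℂ) = ((2⁻¹ : ℝ) : ℂ) := by push_cast; rfl
      rw [this, Complex.re_ofReal_mul, Complex.add_re, hre]
      ring
    rw [h1, h2]
  have hsa : ∀ a b : L, ⟪P' a, b⟫_ℂ = ⟪a, P' b⟫_ℂ := by
    intro a b
    have ea : P' a = (2⁻¹ : ℂ) • (S a + ContinuousLinearMap.adjoint S a) - (μ : ℂ) • a := rfl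
    have eb : P' b = (2⁻¹ : ℂ) • (S b + ContinuousLinearMap.adjoint S b) - (μ : ℂ) • b := rfl
    rw [ea, eb, inner_sub_left, inner_sub_right, inner_smul_left, inner_smul_right,
      inner_smul_left, inner_smul_right, inner_add_left, inner_add_right, Complex.conj_ofReal,
      ContinuousLinearMap.adjoint_inner_right, ContinuousLinearMap.adjoint_inner_left]
    have : (starRingEnd ℂ) (2⁻¹ : ℂ) = 2⁻¹ := by
      rw [map_inv₀, Complex.conj_ofNat]
    rw [this]
    ring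
  have hposP : ∀ u : L, 0 ≤ (⟪u, P' u⟫_ℂ).re := by
    intro u
    rw [hPT]; linarith [hall u]
  have hnP : ‖P'‖ ≤ B + μ + 1 := by
    have h1 : ‖P‖ ≤ B := by
      rw [hP, norm_smul]
      have h2 : ‖S + ContinuousLinearMap.adjoint S‖ ≤ B + B := by
        refine (norm_add_le _ _).trans (add_le_add hB ?_)
        rw [LinearIsometryEquiv.norm_map]; exact hB
      have h5 : ‖(2⁻¹ : ℂ)‖ = 2⁻¹ := by norm_num
      rw [h5]; linarith
    have h2 : ‖(μ : ℂ) • (1 : L →L[ℂ] L)‖ ≤ μ := by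
      rw [norm_smul, Complex.norm_real, Real.norm_eq_abs, abs_of_pos hμ0]
      have : ‖(1 : L →L[ℂ] L)‖ ≤ 1 := ContinuousLinearMap.norm_id_le
      nlinarith
    exact (norm_sub_le _ _).trans (by linarith)
  have hB' : 0 < B + μ + 1 := by linarith
  -- choose parameters
  set η : ℝ := min 1 (ε / (4 * (μ + 1))) with hη
  have hη0 : 0 < η := lt_min one_pos (by positivity)
  have hη1 : η ≤ 1 := min_le_left _ _
  have hη2 : η ≤ ε / (4 * (μ + 1)) := min_le_right _ _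
  have hη3 : η * (4 * (μ + 1)) ≤ ε := by
    rwa [le_div_iff₀ (by positivity)] at hη2
  obtain ⟨q, ⟨T, hT, rfl⟩, hq⟩ := exists_lt_of_csInf_lt hRne
    (show sInf R < μ + η ^ 2 / (B + μ + 1) from by
      have : 0 < η ^ 2 / (B + μ + 1) := by positivity
      linarith)
  have hcs := pos_cs hB' hnP hsa hposP T
  rw [hPT, hT] at hcs
  have h6 : ‖P' T‖ ^ 2 ≤ η ^ 2 := by
    refine hcs.trans ?_
    have : (⟪T, S T⟫_ℂ).re - μ * 1 ^ 2 ≤ η ^ 2 / (B + μ + 1) := by linarith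
    calc (B + μ + 1) * ((⟪T, S T⟫_ℂ).re - μ * 1 ^ 2)
        ≤ (B + μ + 1) * (η ^ 2 / (B + μ + 1)) := mul_le_mul_of_nonneg_left this hB'.le
      _ = η ^ 2 := by field_simp
  have h7 : ‖P' T‖ ≤ η := by
    nlinarith [norm_nonneg (P' T), abs_le_of_sq_le_sq' h6 hη0.le]
  have h8 : ‖P T‖ ≤ μ + η := by
    have : P T = P' T + (μ : ℂ) • T := by
      rw [hP', ContinuousLinearMap.sub_apply]; simp
    rw [this]
    refine (norm_add_le _ _).trans ?_
    rw [norm_smul, Complex.norm_real, Real.norm_eq_abs, abs_of_pos hμ0, hT]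
    linarith
  have h9 : (⟪T, S (S T)⟫_ℂ).re ≤ ‖P T‖ ^ 2 := re_sq_le S T
  have h10 := hS T
  rw [hT] at h10
  have h11 := hall T
  rw [hT] at h11
  have h12 : ‖P T‖ ^ 2 ≤ (μ + η) ^ 2 := by
    apply pow_le_pow_left₀ (norm_nonneg _) h8
  have h13 : κ * μ ≤ κ * (⟪T, S T⟫_ℂ).re := by
    apply mul_le_mul_of_nonneg_left _ hκ.le; linarith
  have h14 : 2 * ε ≤ κ * μ := by
    rw [div_le_iff₀ hκ] at hμlow; linarith
  nlinarith [h9, h10, h12, h13, h14, hη3, mul_le_mul_of_nonneg_left hμup hμ0.le,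
    mul_nonneg hη0.le (sub_nonneg.2 hη1), mul_pos hη0 hμ0]


variable {v : G → L →L[ℂ] L} {F : Set G} {δ : ℝ} {p : ℕ}

lemma av_idem' (hp : 0 < p) {x : G} (hx : x ^ p = 1) : av p x * av p x = av p x :=
  Sos.avg_idem hp (single_pow_one hx)

lemma one_sub_av_idem (hp : 0 < p) {x : G} (hx : x ^ p = 1) :
    (1 - av p x) * (1 - av p x) = 1 - av p x := by
  rw [mul_sub, sub_mul, sub_mul, av_idem' hp hx]; simp

lemma ev_av (v : G → L →L[ℂ] L) (x : G) :
    ev v (av p x) = (((p : ℝ)⁻¹ : ℝ) : ℂ) • ∑ i ∈ range p, v (x ^ i) := by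
  unfold av Sos.avg
  rw [ev_smul, ev_sum]
  congr 1
  apply Finset.sum_congr rfl
  intro i _
  rw [MonoidAlgebra.single_pow, one_pow, ev_single]
  simp

/-- almost invariance under a generator gives almost invariance under its powers -/
lemma pow_inv_bound {x : G} (hF : ∀ i : ℕ, x ^ i ∈ F) (hv : AlmostRep v F δ) (hδ1 : δ ≤ 1)
    {T : L} (hT : ‖T‖ = 1) {η : ℝ} (h : ‖v x T - T‖ ≤ η) (i : ℕ) :
    ‖v (x ^ i) T - T‖ ≤ δ + i * (δ + 2 * η) := by
  have hδ := delta_nonneg hv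
  induction i with
  | zero =>
    have h1 := (v 1 - 1).le_opNorm T
    rw [hT, mul_one] at h1
    have h2 : (v 1 - 1) T = v (x ^ 0) T - T := by rw [pow_zero]; rfl
    rw [h2] at h1
    have := hv.one
    simp only [Nat.cast_zero, zero_mul, add_zero]
    linarith
  | succ n ih =>
    have hx1 : x ∈ F := by simpa using hF 1
    have h1 : ‖(v (x ^ n) ∘L v x - v (x ^ n * x)) T‖ ≤ δ := by
      have := (v (x ^ n) ∘L v x - v (x ^ n * x)).le_opNorm T
      rw [hT, mul_one] at this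
      exact this.trans (hv.mul _ (hF n) _ hx1)
    have h2 : ‖v (x ^ n) (v x T - T)‖ ≤ 2 * η := by
      have h3 := (v (x ^ n)).le_opNorm (v x T - T)
      have h4 := hv.norm _ (hF n)
      have h5 : 0 ≤ ‖v x T - T‖ := norm_nonneg _
      nlinarith [norm_nonneg (v (x ^ n))]
    have e : v (x ^ (n + 1)) T - T = -((v (x ^ n) ∘L v x - v (x ^ n * x)) T) +
        v (x ^ n) (v x T - T) + (v (x ^ n) T - T) := by
      have e1 : (v (x ^ n) ∘L v x - v (x ^ n * x)) T =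
        v (x ^ n) (v x T) - v (x ^ n * x) T := rfl
      rw [e1, map_sub, pow_succ]
      abel
    rw [e]
    refine (norm_add₃_le).trans ?_
    rw [norm_neg, Nat.cast_succ]
    linarith

lemma Q_small (hp : 0 < p) {x : G} (hF : ∀ i : ℕ, x ^ i ∈ F) (hv : AlmostRep v F δ)
    (hδ1 : δ ≤ 1) {T : L} (hT : ‖T‖ = 1) {η : ℝ} (hη : 0 ≤ η) (h : ‖v x T - T‖ ≤ η) :
    ‖ev v (1 - av p x) T‖ ≤ 2 * δ + p * (δ + 2 * η) := by
  have hδ := delta_nonneg hv
  have hpR : (0 : ℝ) < p := by exact_mod_cast hp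
  have e1 : ev v (av p x) T - T = (((p : ℝ)⁻¹ : ℝ) : ℂ) • ∑ i ∈ range p, (v (x ^ i) T - T) := by
    rw [ev_av, Finset.sum_sub_distrib, smul_sub]
    congr 1
    · simp
    · rw [Finset.sum_const, card_range, ← Nat.cast_smul_eq_nsmul ℂ, smul_smul]
      push_cast
      rw [inv_mul_cancel₀ (by exact_mod_cast hp.ne'), one_smul]
  have h1 : ‖ev v (av p x) T - T‖ ≤ δ + p * (δ + 2 * η) := by
    rw [e1, norm_smul, Complex.norm_real, Real.norm_eq_abs, abs_of_pos (inv_pos.2 hpR)]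
    have h2 : ‖∑ i ∈ range p, (v (x ^ i) T - T)‖ ≤ p * (δ + p * (δ + 2 * η)) := by
      refine (norm_sum_le _ _).trans ?_
      refine le_trans (Finset.sum_le_sum (g := fun _ => δ + p * (δ + 2 * η)) ?_) ?_
      · intro i hi
        refine (pow_inv_bound hF hv hδ1 hT h i).trans ?_
        have : (i : ℝ) ≤ p := by exact_mod_cast (mem_range.1 hi).le
        have h3 : 0 ≤ δ + 2 * η := by linarith
        nlinarith
      · rw [Finset.sum_const, card_range, nsmul_eq_mul]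
    calc (p : ℝ)⁻¹ * ‖∑ i ∈ range p, (v (x ^ i) T - T)‖
        ≤ (p : ℝ)⁻¹ * (p * (δ + p * (δ + 2 * η))) :=
          mul_le_mul_of_nonneg_left h2 (inv_nonneg.2 hpR.le)
      _ = δ + p * (δ + 2 * η) := by field_simp
  have h4 : ‖v 1 T - T‖ ≤ δ := by
    have h5 := (v 1 - 1).le_opNorm T
    rw [hT, mul_one] at h5
    exact h5.trans hv.one
  have e2 : ev v (1 - av p x) T = (v 1 T - T) - (ev v (av p x) T - T) := by
    rw [ev_sub, ev_one]
    have : (v 1 - ev v (av p x)) T = v 1 T - ev v (av p x) T := rfl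
    rw [this]; abel
  rw [e2]
  refine (norm_sub_le _ _).trans ?_
  linarith

set_option maxHeartbeats 1000000 in
theorem stmtQuant (p : ℕ) [Fact p.Prime] (hp : 101 ≤ p) : StmtQuant p := by
  have hpp : p.Prime := Fact.out
  have hp0 : 0 < p := hpp.pos
  have hpR : (101 : ℝ) ≤ p := by exact_mod_cast hp
  refine ⟨100000 * p, by linarith, ?_⟩
  intro G _ L _ _ _ x hx v F δ hWd hδ0 hCδ hv hT0
  have hδ1 : δ ≤ 1 := by nlinarith
  -- windows
  have hself : ∀ s : Fin 4, ((Subgroup.closure ({x s, x s} : Set G) : Subgroup G) : Set G) ⊆ F :=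
    fun s => (closure_sub_Wd hp0 (hx.pow s) (hx.pow s) (by simp [cm]) (by simp [cm])).trans hWd
  have hxs : ∀ s : Fin 4, x s ∈ Subgroup.closure ({x s, x s} : Set G) :=
    fun s => Subgroup.subset_closure (by simp)
  have hpow : ∀ (s : Fin 4) (i : ℕ), x s ^ i ∈ F := fun s i =>
    hself s ((Subgroup.closure ({x s, x s} : Set G)).pow_mem (hxs s) i)
  have hcomm : ∀ {y z : G}, Commute y z → cm y z = 1 := by
    intro y z h
    unfold cm
    rw [h.eq]; group
  have hpair : ∀ i j : Fin 4, Commute (cm (x i) (x j)) (x i) ∧ Commute (cm (x i) (x j)) (x j) →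
      ∀ T : L, -(100000 * δ) * ‖T‖ ^ 2 ≤
      (⟪T, (ev v (1 - av p (x i)) * ev v (1 - av p (x j))
        + ev v (1 - av p (x j)) * ev v (1 - av p (x i))) T⟫_ℂ).re
      + 1 / 8 * ((⟪T, ev v (1 - av p (x i)) T⟫_ℂ).re + (⟪T, ev v (1 - av p (x j)) T⟫_ℂ).re) := by
    intro i j h T
    exact pair_ineq hpp hp (hx.pow i) (hx.pow j) h.1 h.2 hv
      ((closure_sub_Wd hp0 (hx.pow i) (hx.pow j) h.1 h.2).trans hWd) hδ1 T
  have h03 : Commute (cm (x 0) (x 3)) (x 0) ∧ Commute (cm (x 0) (x 3)) (x 3) := by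
    rw [hcomm hx.c03]; exact ⟨Commute.one_left _, Commute.one_left _⟩
  have h23 : Commute (cm (x 2) (x 3)) (x 2) ∧ Commute (cm (x 2) (x 3)) (x 3) := by
    rw [hcomm hx.c23]; exact ⟨Commute.one_left _, Commute.one_left _⟩
  have p01 := hpair 0 1 hx.h01
  have p12 := hpair 1 2 hx.h12
  have p20 := hpair 2 0 hx.h20
  have p13 := hpair 1 3 hx.h13
  have p03 := hpair 0 3 h03
  have p23 := hpair 2 3 h23
  -- single element facts
  have r1 : ∀ s : Fin 4, RA (Subgroup.closure ({x s, x s} : Set G)) 2 (1 - av p (x s))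
      (1 - av p (x s)) := fun s =>
    (RA.one.sub (RA.av hp0 (hx.pow s) (hxs s))).mono (by norm_num)
  have hsq : ∀ (s : Fin 4) (T : L), (⟪T, ev v (1 - av p (x s)) T⟫_ℂ).re - 4 * δ * ‖T‖ ^ 2 ≤
      (⟪T, (ev v (1 - av p (x s)) * ev v (1 - av p (x s))) T⟫_ℂ).re := by
    intro s T
    have h1 := abs_re_inner_le _ _ T (ev_mul hv (hself s) (r1 s) (r1 s))
    rw [one_sub_av_idem hp0 (hx.pow s)] at h1
    have := (abs_le.1 h1).1
    linarith
  have hpos : ∀ (s : Fin 4) (T : L), ‖ev v (1 - av p (x s)) T‖ ^ 2 - 12 * δ * ‖T‖ ^ 2 ≤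
      (⟪T, ev v (1 - av p (x s)) T⟫_ℂ).re := by
    intro s T
    have h1 := ev_pos hv (hself s) hδ1 (r1 s) T
    rw [one_sub_av_idem hp0 (hx.pow s)] at h1
    have := (abs_le.1 h1).1
    linarith
  have hnorm : ∀ s : Fin 4, ‖ev v (1 - av p (x s))‖ ≤ 4 := by
    intro s
    have := ev_norm hv (hself s) (r1 s)
    linarith
  set Q : Fin 4 → L →L[ℂ] L := fun s => ev v (1 - av p (x s)) with hQ
  set S : L →L[ℂ] L := Q 0 + Q 1 + Q 2 + Q 3 with hSdef
  have hSre : ∀ T : L, (⟪T, S T⟫_ℂ).re = (⟪T, Q 0 T⟫_ℂ).re + (⟪T, Q 1 T⟫_ℂ).re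
      + (⟪T, Q 2 T⟫_ℂ).re + (⟪T, Q 3 T⟫_ℂ).re := by
    intro T
    have : S T = Q 0 T + Q 1 T + Q 2 T + Q 3 T := rfl
    rw [this, inner_add_right, inner_add_right, inner_add_right]
    simp only [Complex.add_re]
  have hB : ‖S‖ ≤ 16 := by
    have h1 : ‖S‖ ≤ ‖Q 0‖ + ‖Q 1‖ + ‖Q 2‖ + ‖Q 3‖ := norm_add₄_le
    have := hnorm 0
    have := hnorm 1
    have := hnorm 2
    have := hnorm 3
    simp only [hQ] at h1 ⊢
    linarith
  have hS : ∀ T : L, 5 / 8 * (⟪T, S T⟫_ℂ).re - 1000000 * δ * ‖T‖ ^ 2 ≤ (⟪T, S (S T)⟫_ℂ).re := by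
    intro T
    have e1 : S (S T) = (Q 0 * Q 0) T + (Q 1 * Q 1) T + (Q 2 * Q 2) T + (Q 3 * Q 3) T
        + (Q 0 * Q 1 + Q 1 * Q 0) T + (Q 1 * Q 2 + Q 2 * Q 1) T + (Q 2 * Q 0 + Q 0 * Q 2) T
        + (Q 1 * Q 3 + Q 3 * Q 1) T + (Q 0 * Q 3 + Q 3 * Q 0) T + (Q 2 * Q 3 + Q 3 * Q 2) T := by
      have : S (S T) = (S * S) T := rfl
      rw [this]
      have e2 : S * S = Q 0 * Q 0 + Q 1 * Q 1 + Q 2 * Q 2 + Q 3 * Q 3
        + (Q 0 * Q 1 + Q 1 * Q 0) + (Q 1 * Q 2 + Q 2 * Q 1) + (Q 2 * Q 0 + Q 0 * Q 2)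
        + (Q 1 * Q 3 + Q 3 * Q 1) + (Q 0 * Q 3 + Q 3 * Q 0) + (Q 2 * Q 3 + Q 3 * Q 2) := by
        rw [hSdef]; noncomm_ring
      rw [e2]; rfl
    rw [e1]
    simp only [inner_add_right, Complex.add_re]
    have a0 := hsq 0 T
    have a1 := hsq 1 T
    have a2 := hsq 2 T
    have a3 := hsq 3 T
    have b01 := p01 T
    have b12 := p12 T
    have b20 := p20 T
    have b13 := p13 T
    have b03 := p03 T
    have b23 := p23 T
    have hc : 0 ≤ δ * ‖T‖ ^ 2 := by positivity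
    rw [hSre]
    simp only [hQ]
    linarith
  -- the starting vector
  obtain ⟨T0, hT0, hT0'⟩ := hT0
  have hC0 : (0 : ℝ) < 100000 * p := by positivity
  have hη : (1 : ℝ) / (100000 * p) ≥ 0 := by positivity
  have hδC : δ ≤ 1 / (100000 * p) := by
    rw [le_div_iff₀ hC0]; linarith
  have hQ0 : ∀ s : Fin 4, (⟪T0, Q s T0⟫_ℂ).re ≤ 1 / 10000 := by
    intro s
    have h1 := Q_small hp0 (hpow s) hv hδ1 hT0 hη (hT0' s)
    have h2 : (⟪T0, Q s T0⟫_ℂ).re ≤ ‖Q s T0‖ := by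
      refine (Complex.re_le_norm _).trans ?_
      refine (norm_inner_le_norm _ _).trans ?_
      rw [hT0, one_mul]
    have h3 : 2 * δ + p * (δ + 2 * (1 / (100000 * p))) ≤ 1 / 10000 := by
      have h4 : (p : ℝ) * (1 / (100000 * p)) = 1 / 100000 := by field_simp
      have h5 : (p : ℝ) * δ ≤ 1 / 100000 := by
        rw [← h4]; exact mul_le_mul_of_nonneg_left hδC (by positivity)
      nlinarith
    linarith
  have h0 : ∃ T : L, ‖T‖ = 1 ∧ (⟪T, S T⟫_ℂ).re ≤ 5 / 8 / 4 := by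
    refine ⟨T0, hT0, ?_⟩
    rw [hSre]
    have := hQ0 0
    have := hQ0 1
    have := hQ0 2
    have := hQ0 3
    linarith
  obtain ⟨T, hT, hTS⟩ := quantise (κ := 5 / 8) (ε := 1000000 * δ) (B := 16) (by norm_num)
    (by positivity) hB hS h0
  refine ⟨T, hT, ?_⟩
  have hTS' : (⟪T, S T⟫_ℂ).re < 3200000 * δ := by
    have : 2 * (1000000 * δ) / (5 / 8) = 3200000 * δ := by ring
    rw [this] at hTS; exact hTS
  rw [hSre] at hTS'
  have hall : ∀ s : Fin 4, ‖Q s T‖ ^ 2 ≤ 4000000 * δ := by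
    have a0 := hpos 0 T
    have a1 := hpos 1 T
    have a2 := hpos 2 T
    have a3 := hpos 3 T
    rw [hT] at a0 a1 a2 a3
    have c0 : 0 ≤ ‖Q 0 T‖ ^ 2 := by positivity
    have c1 : 0 ≤ ‖Q 1 T‖ ^ 2 := by positivity
    have c2 : 0 ≤ ‖Q 2 T‖ ^ 2 := by positivity
    have c3 : 0 ≤ ‖Q 3 T‖ ^ 2 := by positivity
    intro s
    simp only [hQ] at c0 c1 c2 c3 hTS' ⊢
    fin_cases s
    · simp only [Fin.zero_eta, Fin.isValue]; linarith
    · simp only [Fin.mk_one, Fin.isValue]; linarith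
    · simp only [Fin.reduceFinMk, Fin.isValue]; linarith
    · simp only [Fin.reduceFinMk, Fin.isValue]; linarith
  intro s
  have hsδ : δ ≤ Real.sqrt δ := by
    have h1 : Real.sqrt δ * Real.sqrt δ = δ := Real.mul_self_sqrt hδ0.le
    have h2 : Real.sqrt δ ≤ 1 := by
      rw [Real.sqrt_le_left (by norm_num)]; linarith
    nlinarith [Real.sqrt_nonneg δ]
  have hQs : ‖Q s T‖ ≤ 2000 * Real.sqrt δ := by
    have h1 : Real.sqrt δ * Real.sqrt δ = δ := Real.mul_self_sqrt hδ0.le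
    have h2 := hall s
    have h3 : ‖Q s T‖ ^ 2 ≤ (2000 * Real.sqrt δ) ^ 2 := by nlinarith
    exact le_of_sq_le_sq h3 (by positivity)
  have hv1 : ‖v 1 T - T‖ ≤ δ := by
    have h5 := (v 1 - 1).le_opNorm T
    rw [hT, mul_one] at h5
    exact h5.trans hv.one
  have hxA : MonoidAlgebra.single (x s) (1 : ℝ) * av p (x s) = av p (x s) :=
    Sos.avg_mul_self_left hp0 (single_pow_one (hx.pow s))
  have hvP : ‖v (x s) (ev v (av p (x s)) T) - ev v (av p (x s)) T‖ ≤ δ := by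
    have h1 := ev_mul hv (hself s) (RA.single (hxs s) (1 : ℝ)) (RA.av hp0 (hx.pow s) (hxs s))
    rw [hxA, ev_single] at h1
    have h2 := ContinuousLinearMap.le_opNorm
      (((1 : ℝ) : ℂ) • v (x s) * ev v (av p (x s)) - ev v (av p (x s))) T
    rw [hT, mul_one] at h2
    have h3 : (((1 : ℝ) : ℂ) • v (x s) * ev v (av p (x s)) - ev v (av p (x s))) T =
        v (x s) (ev v (av p (x s)) T) - ev v (av p (x s)) T := by
      have : ((1 : ℝ) : ℂ) • v (x s) = v (x s) := by simp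
      rw [this]; rfl
    rw [h3] at h2
    have h4 : δ * (|(1 : ℝ)| * 1) = δ := by simp
    rw [h4] at h1
    exact h2.trans h1
  have eT : ev v (av p (x s)) T = T + (v 1 T - T) - Q s T := by
    have : Q s T = v 1 T - ev v (av p (x s)) T := by
      simp only [hQ]
      rw [ev_sub, ev_one]; rfl
    rw [this]; abel
  have e : v (x s) T - T = (v (x s) (ev v (av p (x s)) T) - ev v (av p (x s)) T)
      - v (x s) (v 1 T - T) + v (x s) (Q s T) + ((v 1 T - T) - Q s T) := by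
    rw [eT, map_sub, map_add]
    abel
  have hvx := hv.norm _ (hself s (hxs s))
  have n1 : ‖v (x s) (v 1 T - T)‖ ≤ 2 * δ := by
    have := (v (x s)).le_opNorm (v 1 T - T)
    nlinarith [norm_nonneg (v (x s)), norm_nonneg (v 1 T - T)]
  have n2 : ‖v (x s) (Q s T)‖ ≤ 2 * ‖Q s T‖ := by
    have := (v (x s)).le_opNorm (Q s T)
    nlinarith [norm_nonneg (v (x s)), norm_nonneg (Q s T)]
  have n3 : ‖(v 1 T - T) - Q s T‖ ≤ δ + ‖Q s T‖ :=
    (norm_sub_le _ _).trans (by linarith)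
  have n4 : ‖(v (x s) (ev v (av p (x s)) T) - ev v (av p (x s)) T)
      - v (x s) (v 1 T - T)‖ ≤ δ + 2 * δ := (norm_sub_le _ _).trans (by linarith)
  rw [e]
  refine (norm_add₃_le).trans ?_
  have hfin : δ + 2 * δ + 2 * ‖Q s T‖ + (δ + ‖Q s T‖) ≤ 100000 * p * Real.sqrt δ := by
    have h1 : 0 ≤ Real.sqrt δ := Real.sqrt_nonneg δ
    have h2 : 4 * δ + 3 * ‖Q s T‖ ≤ 6004 * Real.sqrt δ := by linarith
    have h3 : 6004 * Real.sqrt δ ≤ 100000 * p * Real.sqrt δ := by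
      apply mul_le_mul_of_nonneg_right _ h1
      linarith
    linarith
  linarith

end

end Crest.Agent.R073.Quant
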